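import Vale.Agent.P269.Bas.Dg0
import Vale.Agent.P269.Orb.TZ

set_option linter.unusedSectionVars false
set_option linter.style.haveILetI false

/-!
# Existence of the diagonal cocycle
-/

namespace Vale.Agent.P269

open P291Z Set Function Topology Filter Orb Holo Module Asymptotics

namespace Dg0

theorem hasFDerivAt_apply {B V W : Type} [NormedAddCommGroup B] [NormedSpace ℂ B]
    [NormedAddCommGroup V] [NormedSpace ℂ V] [NormedAddCommGroup W] [NormedSpace ℂ W]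
    {N : B → V →L[ℂ] W} (hN : ContinuousAt N 0) {f : B → V} {L : B →L[ℂ] V}
    (hf : HasFDerivAt f L 0) (h0 : f 0 = 0) : HasFDerivAt (fun z => N z (f z)) (N 0 ∘L L) 0 := by
  have h1 : (fun z => ‖N z - N 0‖) =o[𝓝 0] fun _ => (1 : ℝ) :=
    (isLittleO_one_iff ℝ).2 (tendsto_iff_norm_sub_tendsto_zero.1 hN)
  have h2 : (fun z => ‖f z‖) =O[𝓝 0] fun z => ‖z - 0‖ := by
    simpa only [h0, sub_zero] using hf.isBigO_sub.norm_norm
  have h3 : HasFDerivAt (fun z => (N z - N 0) (f z)) (0 : B →L[ℂ] W) 0 :=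
    HasFDerivAt.of_isLittleO (by
      simp only [h0, map_zero, sub_zero, zero_apply]
      refine (IsBigO.of_bound' (.of_forall fun z => ((N z - N 0).le_opNorm (f z)).trans
        (le_abs_self _))).trans_isLittleO ((h1.mul_isBigO h2).trans_isBigO ?_)
      simpa only [one_mul, sub_zero] using (isBigO_refl (fun z : B => z) _).norm_left)
  exact ((h3.add ((N 0).hasFDerivAt.comp 0 hf)).congr_fderiv (zero_add _)).congr_of_eventuallyEq
    (.of_forall fun z => (sub_add_cancel _ _).symm)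

theorem locCo_of_lcoh {X : Type} [TopologicalSpace X] {A : Set X} {t t' : Coch X} (h : LCoh A t t')
    {n : ℕ} {ψ : (Fin n → ℂ) → X} (h1 : ∀ᶠ z in 𝓝 0, ContinuousAt ψ z ∧ (ψ z ∈ A → z = 0))
    (h0 : ψ 0 ∈ A) {c : ℂ} (hc : LocCo (pull ψ t') c) : LocCo (pull ψ t) c := by
  obtain ⟨b, h2, h3⟩ := h
  have h4 := h1.self_of_nhds.1
  refine hc.of_cohom (b := pull ψ b) ?_
  filter_upwards [h1, eventually_van (Van.pull h4 (h3 _ h0)), h4.eventually (h2 _ h0)] with z a e f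
  refine ⟨?_, fun hz => Van.pull a.1 fun g => hz (a.2 (f g))⟩
  rwa [map_sub, map_sub, ← δ_pull] at e

/-- a nondegenerate zero of a Kuranishi section counts once -/
theorem locCo_kp {Y : Ch.Sp} (k : Ch.KP Y) {r : ℕ} (hr : k.r = r) {φ : (Fin r → ℂ) → Y.T}
    (hφ : ∀ᶠ z in 𝓝 0, ContinuousAt φ z ∧ (φ z ∈ k.Zs → z = 0)) (h0 : k.s (φ 0) = 0)
    {L : (Fin r → ℂ) →L[ℂ] k.P.W} (hL : HasFDerivAt (fun z => k.s (φ z)) L 0)
    (ho : ∀ v, L v ∈ k.obs (φ 0)) (hi : ∀ v, L v ∈ k.van (φ 0) → v = 0) :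
    LocCo (pull (Y.π ∘ φ) k.eul) 1 := by
  classical
  obtain ⟨U, hU, E, M, h1, h2, -⟩ := k.exists_model
  have h3 : φ 0 ∈ k.Zs := show k.s (φ 0) ∈ k.van _ from h0 ▸ zero_mem _
  obtain ⟨ψ, h4⟩ : ∃ ψ : (Fin r → ℂ) → U, ∀ z, φ z ∈ U → (ψ z).1 = φ z :=
    ⟨fun z => if h : φ z ∈ U then ⟨_, h⟩ else ⟨_, h1 h3⟩, fun z h => congrArg _ (dif_pos h)⟩
  have h5 : ∀ᶠ z in 𝓝 0, (ψ z).1 = φ z :=
    (hφ.self_of_nhds.1.eventually (hU.mem_nhds (h1 h3))).mono h4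
  have h6 : ∀ᶠ z in 𝓝 0, ContinuousAt ψ z := (hφ.and h5.eventually_nhds).mono fun z hz =>
    IsInducing.subtypeVal.continuousAt_iff.2 (hz.1.1.congr (hz.2.mono fun _ e => e.symm))
  obtain ⟨N, h7, h8⟩ := h2.exists_clm
  have h9 := h5.self_of_nhds
  have h10 : LocCo (pull ((Y.sub U hU.isLocallyClosed).π ∘ ψ) h2.isSec.eul) 1 :=
    locCo_eul_one h2.isSec (h2.rank.trans hr) h6
      ((congrArg (fun t => M _ (k.s t)) h9).trans (by rw [h0, map_zero]))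
      ((hasFDerivAt_apply (N := fun z => N (ψ z)) (h7.continuousAt.comp h6.self_of_nhds) hL
        h0).congr_of_eventuallyEq (h5.mono fun z e =>
          ((h8 (ψ z) _ (k.sec.mem _)).symm.trans (congrArg (fun t => N _ (k.s t)) e))))
      ((injective_iff_map_eq_zero _).2 fun v hv => hi v (h9 ▸ h2.ker (ψ 0) (h9.symm ▸ h3 :) _
        (h9.symm ▸ ho v :) ((h8 _ _ (k.obs_le _ (h9.symm ▸ h3 :) (h9.symm ▸ ho v :))).symm.trans hv)))
  have h11 := locCo_of_lcoh h2.lcoh ((h6.and (h5.and hφ)).mono fun z e =>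
    ⟨(Y.sub U _).cont.continuousAt.comp e.1, fun a => e.2.2.2 (e.2.1 ▸ Ch.KP.mem_pre.1 a)⟩)
    (Ch.KP.mem_pre.2 (h9.symm ▸ h3 :)) h10
  rw [pull_pull] at h11
  exact h11.pull_congr (h5.mono fun z e => (congrArg Y.π e.symm).trans
    ((Y.subI U hU.isLocallyClosed).map_π (ψ z)).symm)

end Dg0

open Dg0

variable {S Λ R J K : Type} [Fintype S] [Fintype Λ] [Fintype R] [Fintype J] [Fintype K]

namespace Fam

variable {F : Fam S Λ R J K} {K₀ : Set K} [DecidableEq R]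

theorem Good.isDiag_loc (h : F.Good) (hR : F.Reg K₀) {k : Ch.KP (h.gd_dg hR).dom.sp} {i}
    (hk : (h.gd_dg hR).dom.IsKP k i) : F.IsDiag (loc F.Δ2 (k.eul : Coch F.X2)) := by
  haveI := h.nice2
  have hZ : F.Δ2 = k.Z := (h.range_dg0 _).symm.trans ((h.gd_dg hR).dom.range_incl hk)
  obtain ⟨h1, h2⟩ := LCo.isCo (isClosed_Δ2 h.toInv) (hZ ▸ k.lco :) k.eul_deg
  refine ⟨h1.cocycle, h1.supp, fun z hz => ?_⟩
  have h3 : ∀ {t : F.cone2}, t ∈ k.Zs ↔ t.1 ∈ F.dg0 := (h.gd_dg hR).dom.mem_Zs hk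
  have h4 : k.r = finrank ℂ (F.vert z) := by
    have a : finrank ℂ (⊥ ⊓ ⊤ : Submodule ℂ (J → ℂ)) = k.v :=
      hk.finrank_van (Sp.of F.act2 _ (diag_mem hz))
    have b : finrank ℂ (F.vert z ⊓ ⊤ : Submodule ℂ (J → ℂ)) = k.v + k.r :=
      hk.finrank_obs (t := Sp.of F.act2 _ (diag_mem hz)) (h3.2 ⟨diag_mem hz, rfl⟩)
    rw [inf_top_eq] at a b
    rw [b, ← a, finrank_bot, zero_add]
  refine ⟨h4 ▸ h1.deg, fun r O φ Φ a b c d e f g l => ?_⟩
  have h5 := Subtype.val_injective.extend_apply φ fun _ => φ ⟨0, b⟩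
  generalize extend Subtype.val φ (fun _ => φ ⟨0, b⟩) = ψ at h5
  have h6 : ∀ v ∈ O, (ψ v).1 = (z.1, z.2, Φ v) := fun v hv =>
    (congrArg Subtype.val (h5 ⟨v, hv⟩)).trans (f _)
  have h7 : ∀ v ∈ O, ContinuousAt ψ v := fun v hv => IsInducing.subtypeVal.continuousAt_iff.2
    ((continuousAt_const.prodMk (continuousAt_const.prodMk (c v hv).continuousAt)).congr
      (mem_of_superset (a.mem_nhds hv) fun w hw => (h6 w hw).symm))
  have h8 : ∀ v ∈ O, (ψ v).1.2.1 = (ψ v).1.2.2 → v = 0 := fun v hv a =>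
    d hv b (by rw [h6 v hv] at a; exact a.symm.trans e.symm)
  obtain ⟨j, hj⟩ := i.exists_leftInverse_of_injective (LinearMap.ker_eq_bot.2 hk.emb.injective)
  have h9 : ∀ w, j (i w) = w := LinearMap.congr_fun hj
  have h10 : ∀ w, i (j w) = w := fun w => by
    obtain ⟨u, rfl⟩ := hk.lift (f := w) trivial
    rw [h9]
  have h11 : ∀ v ∈ O, k.s (ψ v) = j (Φ v - z.2) := fun v hv =>
    (h9 _).symm.trans (congrArg j ((hk.sec _).trans (congrArg F.dgD.s (h6 v hv))))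
  have h12 : (ψ 0).1 = (z.1, z.2, z.2) := e ▸ h6 0 b
  have h13 : ψ 0 ∈ k.Zs := h3.2 ⟨(ψ 0).2, by rw [h12]⟩
  have h14 := locCo_kp k (φ := ψ)
    (by rw [h4, ← l, LinearMap.finrank_range_of_inj g, finrank_fin_fun])
    (mem_of_superset (a.mem_nhds b) fun v hv => ⟨h7 v hv, fun a => h8 v hv (h3.1 a).2⟩)
    (by rw [h11 0 b, e, sub_self, map_zero])
    (((LinearMap.toContinuousLinearMap j).hasFDerivAt.comp 0
      ((c 0 b).differentiableAt.hasFDerivAt.sub_const z.2)).congr_of_eventuallyEq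
        (mem_of_superset (a.mem_nhds b) h11))
    (fun v => (hk.obs _ h13 _).2 ((h10 _).symm ▸ show _ ∈ F.vert ((ψ 0).1.1, (ψ 0).1.2.1) by
      rw [h12]; exact l.le ⟨v, rfl⟩))
    fun v hv => g (((h10 _).symm.trans ((hk.van _ _).1 hv)).trans (map_zero _).symm)
  have h15 : ∀ v ∈ O, ContinuousAt (Quo.mk F.act2 ∘ ψ) v := fun v hv =>
    Tq.continuous_mk.continuousAt.comp (h7 v hv)
  have h16 := (LocCo.of_van (h15 0 b) h14 (van_symm (h2 _ ((mk_mem h.toInv).2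
    (by rw [h12]))))).cohom_open (U := O) fun v hv h0 =>
      Van.pull (h15 v hv) fun a => h0 (h8 v hv ((mk_mem h.toInv).1 (h1.supp a)))
  rw [one_smul, pull_pull] at h16
  rwa [show (fun v => Quo.mk F.act2 (φ v)) = (Quo.mk F.act2 ∘ ψ) ∘ Subtype.val from
    funext fun v => congrArg _ (h5 v).symm]

theorem Good.isDiag (h : F.Good) (hR : F.Reg K₀) : F.IsDiag F.diag :=
  let ⟨_, _, hk, _⟩ := (h.gd_dg hR).exists_isKP
  Classical.epsilon_spec ⟨_, h.isDiag_loc hR hk⟩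

end Fam

end Vale.Agent.P269
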