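import Vale.Agent.P269.Bas.FbrD

set_option linter.unusedSectionVars false
set_option linter.style.haveILetI false

/-!
# Products of cycles with a free orbit space
-/

namespace Vale.Agent.P269

open Set Function Topology Filter Module Vale.Agent.P291Z Vale.Agent.P269.Orb Holo Ch

section abs

variable {G G₁ G₂ T T₁ T₂ X X₁ X₂ : Type} [Group G] [TopologicalSpace G] [TopologicalSpace T]
  [MulAction G T] [Group G₁] [TopologicalSpace G₁] [TopologicalSpace T₁] [MulAction G₁ T₁]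
  [Group G₂] [TopologicalSpace G₂] [TopologicalSpace T₂] [MulAction G₂ T₂] [TopologicalSpace X]
  [TopologicalSpace X₁] [TopologicalSpace X₂]

/-- The action of `G` on `T` is the product of two actions. -/
def PAct (ρ : G ≃ₜ* G₁ × G₂) (f : T ≃ₜ T₁ × T₂) : Prop :=
  ∀ g t, f (g • t) = ((ρ g).1 • (f t).1, (ρ g).2 • (f t).2)

namespace PAct

variable {ρ : G ≃ₜ* G₁ × G₂} {f : T ≃ₜ T₁ × T₂} (h : PAct ρ f)
include h

theorem symm_smul (g : G) (y : T₁ × T₂) :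
    g • f.symm y = f.symm ((ρ g).1 • y.1, (ρ g).2 • y.2) :=
  f.injective (by rw [h, f.apply_symm_apply, f.apply_symm_apply])

theorem proper [ProperSMul G₁ T₁] [ProperSMul G₂ T₂] : ProperSMul G T := by
  have := ((((Homeomorph.prodProdProdComm _ _ _ _).trans (f.symm.prodCongr f.symm)).isProperMap.comp
    ((ProperSMul.isProperMap_smul_pair (G := G₁) (X := T₁)).prodMap
      (ProperSMul.isProperMap_smul_pair (G := G₂) (X := T₂)))).comp
        ((ρ.toHomeomorph.prodCongr f).trans (Homeomorph.prodProdProdComm _ _ _ _)).isProperMap)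
  refine ⟨(congrArg IsProperMap (funext fun y => Prod.ext ?_ (f.symm_apply_apply _))).mp this⟩
  exact (h.symm_smul y.1 (f y.2)).symm.trans (congrArg _ (f.symm_apply_apply _))

theorem orb [IsTopologicalGroup G] (h₁ : Orb G₁ T₁) (h₂ : Orb G₂ T₂) : Orb G T := by
  haveI := h₁.proper
  haveI := h₂.proper
  haveI := h₁.nice
  haveI := h₂.nice
  refine ⟨‹_›, h.proper, .of_homeomorph f, fun t => ?_⟩
  obtain ⟨τ₁, a₁, b₁⟩ := h₁.loc (f t).1
  obtain ⟨τ₂, a₂, b₂⟩ := h₂.loc (f t).2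
  have c₁ := continuous_fst.comp f.continuous
  have c₂ := continuous_snd.comp f.continuous
  refine ⟨fun x => ρ.symm (τ₁ (f x).1, τ₂ (f x).2), ?_, ?_⟩
  · filter_upwards [c₁.continuousAt.eventually a₁, c₂.continuousAt.eventually a₂] with x k₁ k₂
    exact ρ.symm.continuous.continuousAt.comp ((k₁.comp c₁.continuousAt).prodMk
      (k₂.comp c₂.continuousAt))
  · filter_upwards [(((continuous_fst.comp ρ.continuous).prodMap c₁).tendsto' (1, t) (1, (f t).1)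
      (by simp)).eventually b₁, (((continuous_snd.comp ρ.continuous).prodMap c₂).tendsto' (1, t)
        (1, (f t).2) (by simp)).eventually b₂] with y k₁ k₂
    refine ρ.injective ?_
    rw [map_mul, ρ.apply_symm_apply, ρ.apply_symm_apply, h]
    exact Prod.ext k₁ k₂

theorem stab_eq (t : T) : stab G t = stab G₁ (f t).1 * stab G₂ (f t).2 := by
  rw [stab, stab, stab, ← Nat.card_prod]
  refine Nat.card_congr ((ρ.toEquiv.subtypeEquiv fun g => ?_).trans Equiv.subtypeProdEquivProd)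
  rw [MulAction.mem_stabilizer_iff, ← f.injective.eq_iff, h]
  exact Prod.ext_iff

theorem isHomeomorph {π : T → X} {π₁ : T₁ → X₁} {π₂ : T₂ → X₂} (hπ : IsQuo G π)
    (hπ₁ : IsQuo G₁ π₁) (hπ₂ : IsQuo G₂ π₂) {F : X → X₁ × X₂}
    (e : ∀ t, F (π t) = (π₁ (f t).1, π₂ (f t).2)) : IsHomeomorph F := by
  have k := (hπ₁.oq.prodMap hπ₂.oq).comp f.isOpenQuotientMap
  rw [show Prod.map π₁ π₂ ∘ f = F ∘ π from funext fun t => (e t).symm] at k
  refine ⟨hπ.oq.continuous_comp_iff.1 k.continuous, hπ.oq.isOpenMap_iff.2 k.isOpenMap,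
    fun x y hx => ?_, k.surjective.of_comp⟩
  obtain ⟨x, rfl⟩ := hπ.surj x
  obtain ⟨y, rfl⟩ := hπ.surj y
  rw [e, e, Prod.mk.injEq, hπ₁.eq_iff, hπ₂.eq_iff] at hx
  obtain ⟨⟨g₁, k₁⟩, g₂, k₂⟩ := hx
  exact (hπ.eq_iff _ _).2 ⟨ρ.symm (g₁, g₂), f.injective (by
    rw [h, ρ.apply_symm_apply]; exact Prod.ext k₁ k₂)⟩

theorem isSl {W V W' E₁ E₂ : Type} [NormedAddCommGroup W] [NormedSpace ℂ W] [NormedAddCommGroup V]
    [NormedSpace ℂ V] [NormedAddCommGroup W'] [NormedSpace ℂ W'] [NormedAddCommGroup E₁]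
    [NormedSpace ℂ E₁] [NormedAddCommGroup E₂] [NormedSpace ℂ E₂] {ι : T → W} {ι₁ : T₁ → V}
    {ι₂ : T₂ → W'} {P : W → V × W'} {J : V × W' → W} (hP : ∀ x, AnalyticAt ℂ P x)
    (hJ : ∀ x, AnalyticAt ℂ J x) (eP : ∀ y, P (ι (f.symm y)) = (ι₁ y.1, ι₂ y.2))
    (eJ : ∀ y, ι (f.symm y) = J (ι₁ y.1, ι₂ y.2)) {φ₁ : E₁ → T₁} {φ₂ : E₂ → T₂}
    (h₁ : IsSl G₁ ι₁ φ₁ 0) (h₂ : IsSl G₂ ι₂ φ₂ 0) :
    IsSl G ι (fun z : E₁ × E₂ => f.symm (φ₁ z.1, φ₂ z.2)) 0 := by
  obtain ⟨a₁, b₁, w₁, c₁, d₁⟩ := h₁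
  obtain ⟨a₂, b₂, w₂, c₂, d₂⟩ := h₂
  let s : G × E₁ × E₂ ≃ₜ (G₁ × E₁) × G₂ × E₂ :=
    (ρ.toHomeomorph.prodCongr (.refl _)).trans (Homeomorph.prodProdProdComm _ _ _ _)
  have s0 : s (1, 0) = ((1, 0), 1, 0) := by
    change (((ρ 1).1, 0), (ρ 1).2, 0) = _
    rw [map_one]
    rfl
  refine ⟨(LH.comp (f.symm.lh _) (LH.comp' (a₁.prodMap a₂) (s.lh _) s0)).congr
    (.of_forall fun x => (h.symm_smul x.1 (φ₁ x.2.1, φ₂ x.2.2)).symm), ?_,
    fun a => (w₁ (P a).1, w₂ (P a).2), ?_, ?_⟩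
  · exact ((hJ _).comp ((b₁.comp_of_eq analyticAt_fst rfl).prod
      (b₂.comp_of_eq analyticAt_snd rfl))).congr (.of_forall fun z => (eJ (_, _)).symm)
  · exact (c₁.comp_of_eq (analyticAt_fst.comp (hP _)) (congrArg Prod.fst (eP (φ₁ 0, φ₂ 0)))).prod
      (c₂.comp_of_eq (analyticAt_snd.comp (hP _)) (congrArg Prod.snd (eP (φ₁ 0, φ₂ 0))))
  · filter_upwards [(s.continuous.tendsto' _ _ s0).eventually (d₁.prod_nhds d₂)] with x k
    rw [h.symm_smul, eP]
    exact Prod.ext k.1 k.2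

end PAct

end abs

variable {A A' C W W' V : Type} [NormedRing A] [NormedAlgebra ℂ A] [NormedRing A']
  [NormedAlgebra ℂ A'] [NormedRing C] [NormedAlgebra ℂ C] [NormedAddCommGroup W] [NormedSpace ℂ W]
  [NormedAddCommGroup W'] [NormedSpace ℂ W'] [NormedAddCommGroup V] [NormedSpace ℂ V]
  [FiniteDimensional ℂ A] [FiniteDimensional ℂ A'] [FiniteDimensional ℂ C] [FiniteDimensional ℂ W]
  [FiniteDimensional ℂ W'] [FiniteDimensional ℂ V]

variable {act : A → W → W} {actB : C → V → V} {e : A ≃L[ℂ] C × A'} {p : W →L[ℂ] V} {B : Set V}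
  [IsAct act univ] [IsAct actB univ] [Mono.FP actB B] {n N N₁ : ℕ}

namespace Prd

variable {act' : A' → W' → W'} [IsAct act' univ] {q : W → W'} {j : V → W' → W} {S O O₁ : Set W}
  {S' O' : Set W'} (h : Prd act act' actB e p q j B S S')
include h

theorem mono (e' : O' ⊆ S') : Prd act act' actB e p q j B (S ∩ q ⁻¹' O') O' :=
  { h with
    mem := fun x => ⟨fun a => ⟨((h.mem x).1 a.1).1, a.2⟩, fun a => ⟨(h.mem x).2 ⟨a.1, e' a.2⟩, a.2⟩⟩
    q_j := fun v y hy => h.q_j v y (e' hy)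
    q_act := fun a ha x hx => h.q_act a ha x hx.1 }

theorem ivt (hi : Ivt act' S') : Ivt act S := fun a ha x hx => (h.mem _).2
  ⟨h.p_act a ha x ▸ IsAct.mem _ ((hm_fst h.one h.mul).isUnit ha) _ ((h.mem x).1 hx).1,
    h.q_act a ha x hx ▸ hi _ ((hm_snd h.one h.mul).isUnit ha) _ ((h.mem x).1 hx).2⟩

theorem eqh : Tq.Eqh act actB S B (fun a => (e a).1) p :=
  ⟨hm_fst h.one h.mul, fun x hx => ((h.mem x).1 hx).1, p.continuous.continuousOn,
    fun a ha x _ => h.p_act a ha x⟩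

theorem cont_q : Continuous q := continuous_iff_continuousAt.2 fun x => (h.an_q x).continuousAt

theorem cont_j : Continuous fun y : V × W' => j y.1 y.2 :=
  continuous_iff_continuousAt.2 fun x => (h.an_j x).continuousAt

theorem j_mem {v : V} {y : W'} (hv : v ∈ B) (hy : y ∈ S') : j v y ∈ S :=
  (h.mem _).2 ⟨(h.p_j v y).symm ▸ hv, (h.q_j v y hy).symm ▸ hy⟩

theorem eqM : EqM act act' S S' (fun a => (e a).2) q :=
  ⟨⟨(hm_snd h.one h.mul).ρ.toMonoidHom, (hm_snd h.one h.mul).ρ.continuous, fun _ => rfl⟩,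
    fun x hx => ((h.mem x).1 hx).2, h.cont_q.continuousOn, h.q_act⟩

theorem closure_eq {M : Set W} {M' : Set W'} (hM : Prd act act' actB e p q j B M M') (e' : M' ⊆ S') :
    closure M ∩ S = S ∩ q ⁻¹' closure M' :=
  have _ := e'
  Set.ext fun x => ⟨fun a => ⟨a.2, map_mem_closure h.cont_q a.1 hM.eqM.maps⟩, fun a =>
    ⟨h.j_pq x ▸ map_mem_closure (f := j (p x)) (h.cont_j.comp (Continuous.prodMk_right _)) a.2
      fun _ => hM.j_mem ((h.mem x).1 a.1).1, a.1⟩⟩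

/-- the splitting of the group -/
noncomputable def ρ : Aˣ ≃ₜ* Cˣ × A'ˣ :=
  (Units.mapContinuousMulEquiv ⟨⟨e.toEquiv, h.mul⟩, e.continuous, e.symm.continuous⟩).trans
    ⟨MulEquiv.prodUnits, Homeomorph.prodUnits.continuous, Homeomorph.prodUnits.symm.continuous⟩

/-- the splitting of the space -/
def spl : Sp act S ≃ₜ Sp actB B × Sp act' S' where
  toFun x := (.of _ (p x.val) (h.eqh.maps x.val_mem), .of _ (q x.val) (h.eqM.maps x.val_mem))
  invFun y := .of _ (j y.1.val y.2.val) (h.j_mem y.1.val_mem y.2.val_mem)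
  left_inv _ := Sp.ext (h.j_pq _)
  right_inv y := Prod.ext (Sp.ext (h.p_j _ _)) (Sp.ext (h.q_j _ _ y.2.val_mem))
  continuous_toFun := ((p.continuous.comp Sp.continuous_val).subtype_mk _).prodMk
    ((h.cont_q.comp Sp.continuous_val).subtype_mk _)
  continuous_invFun := (h.cont_j.comp (Sp.continuous_val.prodMap Sp.continuous_val)).subtype_mk _

theorem pact [IsAct act S] [IsAct act' S'] : PAct h.ρ h.spl := fun g x =>
  Prod.ext (Sp.ext (h.p_act _ g.isUnit _)) (Sp.ext (h.q_act _ g.isUnit _ x.val_mem))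

theorem isAct [IsAct act' S'] : IsAct act S :=
  IsAct.mono ‹IsAct act univ› (subset_univ _) (h.ivt IsAct.mem)

theorem isHomeomorph [IsAct act' S'] : IsHomeomorph fun z => (h.eqh.toEqv.qm z, h.eqM.map z) :=
  haveI := h.isAct
  h.pact.isHomeomorph isQuo_sp isQuo_sp isQuo_sp fun _ => rfl

theorem orb [IsAct act S] [IsAct act' S'] (ho : Orb A'ˣ (Sp act' S')) : Orb Aˣ (Sp act S) :=
  h.pact.orb (Tq.orb actB B) ho

theorem mfdAt (hB : Tq.Dim actB B n) {x : W} (hx : x ∈ S) (hm : MfdAt S' N (q x)) :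
    MfdAt S (finrank ℂ C + n + N) x := by
  haveI := FiniteDimensional.complete ℂ W
  haveI := FiniteDimensional.complete ℂ W'
  haveI := FiniteDimensional.complete ℂ V
  have := ((hB _ (h.eqh.maps hx)).prod hm).iso (S' := S) (F := fun y => j y.1 y.2)
    (G := fun x => (p x, q x)) (h.an_j _) ((p.analyticAt _).prod (h.an_q _))
    (.of_forall fun s a => ⟨h.j_mem a.1 a.2, Prod.ext (h.p_j _ _) (h.q_j _ _ a.2)⟩)
    (.of_forall fun s a => ⟨(h.mem s).1 a, h.j_pq s⟩)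
  rwa [h.j_pq] at this

theorem mfdAt' (hB : Tq.Dim actB B n) {x : W} (hx : x ∈ S)
    (hm : MfdAt S' (finrank ℂ A' + N) (q x)) : MfdAt S (finrank ℂ A + (n + N)) x := by
  have := h.mfdAt hB hx hm
  rwa [add_add_add_comm, ← finrank_split e] at this

/-- the product formula for manifolds -/
theorem cross_mfd [IsAct act S] [IsAct act' S'] (ho : Orb A'ˣ (Sp act' S')) (hB : Tq.Dim actB B n)
    (hm : ∀ x : S', IsMfd (Subtype.val : S' → W') (finrank ℂ A' + N) x) :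
    cross h.eqh.toEqv.qm h.eqM.map (Tq.fnd actB B) (fnd act' S' N) = fnd act S (n + N) := by
  have h2 := holOrb_of_orb ho hm
  rw [hB.fnd_eq, ← one_smul ℂ (fnd act S _)]
  refine HolOrb.cross_fund (holOrb_of_orb (h.orb ho) fun x => (h.mfdAt' hB x.2
    ⟨h.eqM.maps x.2, hm _⟩).isMfd x.2) isQuo_sp hB.holOrb isQuo_sp h2 isQuo_sp h.isHomeomorph
    (isQuo_sp.meets dense_univ) fun t _ => ?_
  obtain ⟨φ₁, a₁, b₁⟩ := hB.holOrb.slice (h.spl t).1
  obtain ⟨φ₂, a₂, b₂⟩ := h2.slice (h.spl t).2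
  refine ⟨_, φ₁, φ₂, isSlice_of_prod (h.pact.isSl (P := fun x => (p x, q x))
    (fun x => (p.analyticAt x).prod (h.an_q x)) h.an_j
    (fun y => Prod.ext (h.p_j _ _) (h.q_j _ _ y.2.val_mem)) (fun _ => rfl) a₁ a₂), ?_, a₁, a₂,
    .of_forall fun z => ⟨congrArg (Sp.mk ∘ Prod.fst) (h.spl.apply_symm_apply (_, _)),
      congrArg (Sp.mk ∘ Prod.snd) (h.spl.apply_symm_apply (_, _))⟩, ?_⟩
  · rw [map_zero, Prod.fst_zero, Prod.snd_zero, b₁, b₂]
    exact h.spl.symm_apply_apply t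
  · rw [h.pact.stab_eq, b₁, b₂, Nat.cast_mul, one_mul]

/-- **the fundamental class of a product** -/
theorem res_cross [IsAct act S] [IsAct act' S'] [IsAct act O₁] [Nice (Quo act S)]
    (ho : Orb A'ˣ (Sp act' S')) (hB : Tq.Dim actB B n) {M' : Set W'} (hc : Cyc act' S' M' N)
    (e₁ : O₁ ⊆ S) (hU : ∃ U, IsOpen U ∧ O₁ = S ∩ U) (hc₁ : Cyc act O₁ (O₁ ∩ q ⁻¹' M') N₁) :
    res (Quo.incl act e₁) (cross h.eqh.toEqv.qm h.eqM.map (Tq.fnd actB B) (fnd act' S' N)) =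
      fnd act O₁ N₁ := by
  rcases (O₁ ∩ q ⁻¹' M').eq_empty_or_nonempty with k | ⟨x, hx⟩
  · haveI : IsEmpty (Quo act O₁) := ⟨fun z => by
      have := hc₁.dense z.out.2
      rwa [k, closure_empty] at this⟩
    exact BM_eq_of_isEmpty _ _
  haveI := FiniteDimensional.complete ℂ W
  have hM := h.mono hc.sub
  haveI := hc.isAct
  haveI := hM.isAct
  have hoS := h.orb ho
  have hoM := orb_mono ho hc.sub hc.lcM
  have ho₁ := orb_mono hoS e₁ hc₁.lc
  haveI := nice_of_orb ho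
  haveI := nice_of_orb hoM
  haveI := nice_of_orb ho₁
  haveI := nice_of_orb (hM.orb hoM)
  haveI := nice_of_orb (Tq.orb actB B)
  obtain rfl : N₁ = n + N := by
    obtain ⟨U, a, b⟩ := hU
    exact Nat.add_left_cancel (MfdAt.unique ⟨hx, hc₁.mfd ⟨x, hx⟩⟩
      ((hM.mfdAt' hB ⟨e₁ hx.1, hx.2⟩ ⟨hx.2, hc.mfd _⟩).congr ((a.eventually_mem (b.le hx.1).2).mono
        fun s k => and_congr_left' ⟨fun c => b.ge ⟨c, k⟩, fun c => e₁ c⟩)))
  have hO : ∃ U, IsOpen U ∧ S ∩ q ⁻¹' M' = S ∩ U := by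
    obtain ⟨U, a, b⟩ := hc.opn
    exact ⟨_, a.preimage h.cont_q, Set.ext fun y => and_congr_right fun c =>
      ⟨fun d => (b.le d).2, fun d => b.ge ⟨h.eqM.maps c, d⟩⟩⟩
  have k := P291Z.res_cross (f := Quo.incl act (inter_subset_left : S ∩ q ⁻¹' M' ⊆ S))
    h.isHomeomorph hM.isHomeomorph (fun z => Quot.inductionOn z fun _ => rfl)
    (fun z => Quot.inductionOn z fun _ => rfl) IsOpenEmbedding.id
    (Quo.isOpenEmbedding_incl hc.sub hc.opn) (Tq.fnd actB B) (fnd act' S' N)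
  have k' := res_push_homeo (e := id) IsHomeomorph.id (Tq.fnd actB B)
  rw [push_id'] at k'
  rw [k', hc.res_fnd ho hc.sub hc.opn, hM.cross_mfd hoM hB hc.mfd] at k
  refine hc₁.eq_of_ptVal' ho₁ (BM.IsDeg.res ?_ _) (hc₁.deg ho₁) (dimLt_empty _) fun y a _ b =>
    ⟨1, (PtVal.res_iff hoS e₁ hU).2 ((PtVal.res_iff hoS inter_subset_left hO
      (x := Sp.of act y.val ⟨e₁ a.1, a.2⟩)).1 ?_), hc₁.ptVal ho₁ b⟩
  · rw [Nat.cast_add, mul_add]
    exact BM.IsDeg.cross h.isHomeomorph hB.deg (hc.deg ho)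
  · rw [k]
    intro φ h1 h2 c d h3 h4 h5
    have := (holOrb_of_orb (hM.orb hoM) fun x => (hM.mfdAt' hB x.2 ⟨x.2.2, hc.mfd _⟩).isMfd
      x.2).val isQuo_sp h1 c d h3 (by rwa [comp_apply, h2]) h5
    rwa [stab_eq_one (Sp.free_iff.1 (by rw [h2]; exact b)), Nat.cast_one, one_mul,
      ← one_mul d] at this

/-- the same for free actions on manifolds -/
theorem fnd_eq [Mono.FP act' S'] (hB : Tq.Dim actB B n) (hS : Tq.Dim act' S' N) :
    ∃ _ : Mono.FP act S, Tq.Dim act S (n + N) ∧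
      Tq.fnd act S = cross h.eqh.toEqv.qm h.eqM.map (Tq.fnd actB B) (Tq.fnd act' S') := by
  haveI := h.isAct
  have ho := h.orb (Tq.orb act' S')
  haveI : Mono.FP act S := ⟨ho.proper, ho.nice.lc, fun x g k => h.ρ.injective (by
    have := h.pact g x
    rw [k] at this
    rw [map_one]
    exact Prod.ext (Mono.FP.free _ _ (congrArg Prod.fst this).symm)
      (Mono.FP.free _ _ (congrArg Prod.snd this).symm))⟩
  have hd : Tq.Dim act S (n + N) := fun x hx => h.mfdAt' hB hx (hS _ (h.eqM.maps hx))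
  exact ⟨this, hd, by
    rw [hd.fnd_eq, hS.fnd_eq]
    exact (h.cross_mfd (Tq.orb act' S') hB hS.isMfd).symm⟩

end Prd

end Vale.Agent.P269
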