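import Vale.Agent.P269.Gen.Num

/-!
# The members and the pieces of a degeneration satisfy the standing hypotheses
-/

set_option linter.unusedSectionVars false

namespace Vale.Agent.P269

open P291Z Set Function Topology Filter MvPolynomial

variable {S Λ Λ₀ R J K : Type} [Fintype S] [Fintype Λ] [Fintype Λ₀] [Fintype R] [Fintype J]
  [Fintype K]

namespace Fam

variable {F : Fam S Λ R J K} {B' : Set (Λ → ℂ)} {Z : Set J}

theorem bs_sub (hB : B' ⊆ F.B) (hZ : F.zer ⊆ Z) : (F.sub B' Z).bs ⊆ F.bs :=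
  fun _ h => ⟨hB h.1, h.2.1, fun j hj => h.2.2 j (hZ hj)⟩

theorem cone_sub (hB : B' ⊆ F.B) (hZ : F.zer ⊆ Z) : (F.sub B' Z).cone ⊆ F.cone :=
  fun _ h => ⟨hB h.1, ⟨h.2.1.1, h.2.1.2.1, fun j hj => h.2.1.2.2 j (hZ hj)⟩, h.2.2⟩

theorem mem_cone_sub (hB : B' ⊆ F.B) (hZ : F.zer ⊆ Z) {z : (Λ → ℂ) × (J → ℂ)} :
    z ∈ (F.sub B' Z).cone ↔ z ∈ F.cone ∧ z.1 ∈ B' ∧ ∀ j ∈ Z, z.2 j = 0 :=
  ⟨fun h => ⟨cone_sub hB hZ h, h.1, h.2.1.2.2⟩,
    fun h => ⟨h.2.1, ⟨h.1.2.1.1, h.1.2.1.2.1, h.2.2⟩, h.1.2.2⟩⟩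

theorem Inv.sub (h : F.Inv) (lc : IsLocallyClosed B')
    (inv : ∀ τ, IsUnit τ → ∀ l ∈ B', F.actL τ l ∈ B') (d : Disjoint Z F.mov) : (F.sub B' Z).Inv :=
  ⟨h.hom, h.homS, h.openU, h.invU, h.closedE, h.invE, h.baseE, d, lc, inv⟩

theorem Reg.sub {K₀ : Set K} (h : F.Reg K₀) (hB : B' ⊆ F.B) (hZ : F.zer ⊆ Z) :
    (F.sub B' Z).Reg K₀ :=
  ⟨fun z hz => h.ind z (cone_sub hB hZ hz), fun z hz =>
    (h.cut z (cone_sub hB hZ hz)).mono fun _ a b => a (bs_sub hB hZ b)⟩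

theorem PolE.sub (h : F.PolE) (B' : Set (Λ → ℂ)) (Z : Set J) : (F.sub B' Z).PolE := h

variable [DecidableEq R]

theorem Ample.sub {θ₀ : R → ℤ} {N : ℕ} (h : F.Ample θ₀ N) (hB : B' ⊆ F.B) (hZ : F.zer ⊆ Z) :
    (F.sub B' Z).Ample θ₀ N :=
  ⟨h.1, h.2.1, fun c hc z hz => h.2.2 c hc z (cone_sub hB hZ hz)⟩

theorem Big.sub {k : ℕ} (h : F.Big k) (hB : B' ⊆ F.B) (hZ : F.zer ⊆ Z) : (F.sub B' Z).Big k := by
  obtain ⟨θ₀, N, h1, h2⟩ := h
  exact ⟨θ₀, N, h1.sub hB hZ, h2⟩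

theorem Good.sub (h : F.Good) (hB : B' ⊆ F.B) (lc : IsLocallyClosed B')
    (inv : ∀ τ, IsUnit τ → ∀ l ∈ B', F.actL τ l ∈ B') (hZ : F.zer ⊆ Z) (d : Disjoint Z F.mov) :
    (F.sub B' Z).Good where
  toInv := h.toInv.sub lc inv d
  deg := h.deg
  freeB τ hτ l hl := h.freeB τ hτ l (hB hl)
  properB τ l l₀ l₁ hτ hl h₀ h₁ := h.properB τ l l₀ l₁ hτ (fun n => hB (hl n)) (hB h₀) (hB h₁)
  free t ht z hz := h.free t ht z (cone_sub hB hZ hz)
  proper t z z' ht hz hz' := h.proper t z z' ht (cone_sub hB hZ hz) (cone_sub hB hZ hz')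
  cpt B'' h1 h2 := by
    obtain ⟨C, h3, h4, h5⟩ := h.cpt B'' (h1.trans hB) h2
    refine ⟨C ∩ {z | z.1 ∈ B'' ∧ ∀ j ∈ Z, z.2 j = 0},
      fun z hz => (mem_cone_sub hB hZ).2 ⟨h3 hz.1, h1 hz.2.1, hz.2.2⟩, h4.inter_right ?_,
      fun z hz hz' => ?_⟩
    · refine (h2.isClosed.preimage continuous_fst).inter
        (s₂ := {z : (Λ → ℂ) × (J → ℂ) | ∀ j ∈ Z, z.2 j = 0}) ?_
      simp only [ofPred_forall]
      exact isClosed_iInter fun j => isClosed_iInter fun _ =>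
        isClosed_eq (by fun_prop) continuous_const
    · obtain ⟨t, ht, h6⟩ := h5 z (cone_sub hB hZ hz) hz'
      refine ⟨t, ht, h6, ?_, fun j hj => ?_⟩
      · change F.actL 1 z.1 ∈ B''
        rwa [show F.actL 1 z.1 = z.1 from funext fun a => by simp [Wt.actL]]
      · change _ * z.2 j = 0
        rw [hz.2.1.2.2 j hj, mul_zero]
  ample := by
    obtain ⟨θ₀, N, h1⟩ := h.ample
    exact ⟨θ₀, N, h1.sub hB hZ⟩
  mov_ne := h.mov_ne

end Fam

/-- The parameters with `t` fixed are the other parameters. -/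
noncomputable def slabH (B₀ : Set (Λ₀ → ℂ)) (t : ℂ) : B₀ ≃ₜ slab B₀ t where
  toFun l := ⟨fun o => o.elim t l.1, l.2, rfl⟩
  invFun l := ⟨l.1 ∘ some, l.2.1⟩
  left_inv _ := rfl
  right_inv l := Subtype.ext (funext fun o => by
    cases o
    · exact l.2.2.symm
    · rfl)
  continuous_toFun := Continuous.subtype_mk (continuous_pi fun o => by
    cases o
    · exact continuous_const
    · exact (continuous_apply _).comp continuous_subtype_val) _
  continuous_invFun := Continuous.subtype_mk (f := fun l : slab B₀ t => l.1 ∘ some)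
    (continuous_pi fun o => (continuous_apply (some o)).comp continuous_subtype_val) _

theorem isMfd_slab {B₀ : Set (Λ₀ → ℂ)} {n : ℕ} (h : ∀ l : B₀, Holo.IsMfd Subtype.val n l) (t : ℂ)
    (l : slab B₀ t) : Holo.IsMfd Subtype.val n l := by
  obtain ⟨ψ, h1, h2⟩ := h ((slabH B₀ t).symm l)
  refine ⟨fun z => slabH B₀ t (ψ z), h1.push ((slabH B₀ t).lh _)
    ⟨fun y o => o.elim t y, AnalyticAt.pi fun o => ?_, .of_forall fun _ => rfl⟩
    ⟨fun y => y ∘ some, AnalyticAt.pi fun o => ?_, .of_forall fun _ => funext fun _ => rfl⟩, ?_⟩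
  · cases o
    · exact analyticAt_const
    · exact (ContinuousLinearMap.proj (R := ℂ) (φ := fun _ : Λ₀ => ℂ) _).analyticAt _
  · exact (ContinuousLinearMap.proj (R := ℂ) (φ := fun _ : Option Λ₀ => ℂ) _).analyticAt _
  · simp only [h2, Homeomorph.apply_symm_apply]

namespace Fam.Deg

variable [DecidableEq R] {F : Fam S (Option Λ₀) R J K} {i : R} {b c : J} {B₀ : Set (Λ₀ → ℂ)}
  {Ω : Set ℂ} {t : ℂ} {Z : Set J}

theorem slab_sub (h : F.Deg i b c B₀ Ω) (ht : t ∈ Ω) : slab B₀ t ⊆ F.B := fun l hl => by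
  rw [h.B]
  exact ⟨hl.1, hl.2 ▸ ht⟩

theorem zer_sub (h : F.Deg i b c B₀ Ω) (Z : Set J) : F.zer ⊆ Z := h.zer ▸ empty_subset Z

theorem not_mov (h : F.Deg i b c B₀ Ω) {j : J} : j ∉ F.mov ↔ j = b ∨ j = c := by
  rw [h.mov, mem_compl_iff, not_not]
  rfl

theorem good (h : F.Deg i b c B₀ Ω) (hG : F.Good) (ht : t ∈ Ω) (h0 : t = 0 ∨ F.wl none = 0)
    (hZ : Z ⊆ {b, c}) : (F.sub (slab B₀ t) Z).Good := by
  have h1 : slab B₀ t = F.B ∩ {l | l none = t} :=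
    Subset.antisymm (fun l hl => ⟨h.slab_sub ht hl, hl.2⟩) fun l hl => ⟨(h.B ▸ hl.1).1, hl.2⟩
  refine hG.sub (h.slab_sub ht) ?_ (fun τ hτ l hl => ?_) (h.zer_sub Z) ?_
  · rw [h1]
    exact hG.lcB.inter (isClosed_eq (continuous_apply _) continuous_const).isLocallyClosed
  · rw [h1] at hl ⊢
    refine ⟨hG.invB τ hτ l hl.1, ?_⟩
    change _ * l none = t
    rw [show l none = t from hl.2]
    rcases h0 with h0 | h0
    · rw [h0, mul_zero]
    · simp [h0]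
  · rw [h.mov]
    exact disjoint_compl_right.mono_left hZ

theorem polE (h : F.Deg i b c B₀ Ω) : F.PolE := by
  classical
  refine ⟨{X b * X c - C (X none)}, fun f hf => ⟨0, fun α hα => ?_⟩, ?_⟩
  · rw [Finset.mem_singleton.1 hf, X, X, monomial_mul, C_apply] at hα
    rcases Finset.mem_union.1 (support_sub _ _ _ hα) with h1 | h1
    · rw [Finset.mem_singleton.1 (support_monomial_subset h1)]
      refine ⟨fun j hj => ?_, fun r => ?_⟩
      · have h2 := not_or.1 (mt h.not_mov.2 (not_not.2 hj))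
        simp [h2.1, h2.2]
      · simp [add_mul, Finset.sum_add_distrib, Finsupp.single_apply, h.wb, h.wc]
    · rw [Finset.mem_singleton.1 (support_monomial_subset h1)]
      simp
  · rw [h.E]
    ext z
    simp [evz, sub_eq_zero]

theorem wb_ne (h : F.Deg i b c B₀ Ω) : F.w b ≠ 0 := fun h0 => by
  simpa [h.wb] using congrFun h0 i

theorem wc_ne (h : F.Deg i b c B₀ Ω) : F.w c ≠ 0 := fun h0 => by
  simpa [h.wc] using congrFun h0 i

omit [DecidableEq R] in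
theorem sh_one [DecidableEq J] (hne : b ≠ c) (hm : ∀ j, j ∉ F.mov ↔ j = b ∨ j = c) (hw : F.w c ≠ 0)
    (hE : F.E = {z | z.2 b * z.2 c = z.1 none}) :
    (F.sub (slab B₀ 0) {b}).Sh (Pi.single c 1) (fun _ : Fin 1 => c)
      (fun j _ => if j = c then 1 else 0) 1 := by
  have h1 : ∀ j ∉ F.mov, j ∉ ({b} : Set J) → j = c := fun j hj hj' => ((hm j).1 hj).resolve_left hj'
  refine ⟨fun r => ⟨(hm c).2 (.inr rfl), hne.symm, funext fun r' => ?_, rfl⟩,
    linearIndependent_unique_iff.2 hw, fun j r hj => ?_, fun j hj hj' hd => ?_,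
    fun j l _ => ⟨analyticAt_const, one_ne_zero⟩, fun j hj hj' => ?_, fun j hj hj' => ?_,
    fun l hl y hy _ => ⟨fun _ j hj hj' => ?_, fun _ => ?_⟩, fun j hj => ?_⟩
  · simp [Subsingleton.elim r' r]
  · split_ifs at hj <;> omega
  · simp [h1 j hj hj'] at hd
  · simp [h1 j hj hj']
  · simp [h1 j hj hj']
  · simp [h1 j hj hj']
  · change (l, y) ∈ F.E
    rw [hE]
    change y b * y c = l none
    rw [hy b rfl, zero_mul, hl.2]
  · exact Pi.single_eq_of_ne (fun h => (hm j).2 (.inr h) hj) _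

theorem sh_two (h : F.Deg i b c B₀ Ω) :
    (F.sub (slab B₀ 0) {b, c}).Sh 0 (Fin.elim0 : Fin 0 → J) (fun _ => Fin.elim0) 1 := by
  refine ⟨fun r => r.elim0, linearIndependent_empty_type, fun _ r => r.elim0,
    fun j hj hj' => absurd (h.not_mov.1 hj) hj', fun j l _ => ⟨analyticAt_const, one_ne_zero⟩,
    fun j hj hj' => absurd (h.not_mov.1 hj) hj', fun j hj hj' => absurd (h.not_mov.1 hj) hj',
    fun l hl y hy _ => ⟨fun _ j hj hj' => absurd (h.not_mov.1 hj) hj', fun _ => ?_⟩, fun _ _ => rfl⟩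
  change (l, y) ∈ F.E
  rw [h.E]
  change y b * y c = l none
  rw [hy b (.inl rfl), zero_mul, hl.2]

theorem sh_gen [DecidableEq J] (h : F.Deg i b c B₀ Ω) (ht : t ≠ 0) :
    (F.sub (slab B₀ t) ∅).Sh 0 (fun _ : Fin 1 => b)
      (fun j _ => if j = b then 1 else if j = c then -1 else 0)
      fun j l => if j = c then l none else 1 := by
  have hne := h.ne
  refine ⟨fun r => ⟨h.not_mov.2 (.inl rfl), notMem_empty _, funext fun r' => ?_,
      funext fun l => if_neg hne⟩,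
    linearIndependent_unique_iff.2 h.wb_ne, fun _ _ _ => rfl, fun j hj _ _ z hz => ?_,
    fun j l hl => ?_, fun j hj _ => ?_, fun j _ _ => by simp,
    fun l hl y _ hy => ?_, fun _ _ => rfl⟩
  · simp [Subsingleton.elim r' r]
  · have h1 : z ∈ F.E := hz.2.1.2.1
    rw [h.E] at h1
    have h2 : z.2 b * z.2 c ≠ 0 := fun h0 => ht (hz.1.2.symm.trans (h1.symm.trans h0))
    rcases h.not_mov.1 hj with rfl | rfl
    · exact left_ne_zero_of_mul h2
    · exact right_ne_zero_of_mul h2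
  · split_ifs
    · exact ⟨(ContinuousLinearMap.proj (R := ℂ) (φ := fun _ : Option Λ₀ => ℂ) none).analyticAt _,
        hl.2 ▸ ht⟩
    · exact ⟨analyticAt_const, one_ne_zero⟩
  · rcases h.not_mov.1 hj with rfl | rfl
    · simp
    · simp [hne.symm, h.wb, h.wc]
  · have h1 : y b ≠ 0 := hy c 0 (by simp [hne.symm])
    change (l, y) ∈ F.E ↔ _
    rw [h.E]
    change y b * y c = l none ↔ _
    refine ⟨fun h2 j hj _ => ?_, fun h2 => ?_⟩
    · rcases h.not_mov.1 hj with rfl | rfl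
      · simp [hne]
      · simp only [if_neg hne.symm, if_true, ← h2, Fin.prod_univ_one, zpow_neg_one]
        field_simp
    · rw [h2 c (h.not_mov.2 (.inr rfl)) (notMem_empty _)]
      simp only [if_neg hne.symm, if_true, Fin.prod_univ_one, zpow_neg_one]
      field_simp

end Fam.Deg

theorem St.degN : St.DegN := by
  intro S Λ₀ R J K _ _ _ _ _ _ _ F i b c B₀ Ω h hG ⟨K₀, hK⟩ ⟨n, hn⟩
  have key : ∀ t ∈ Ω, t = 0 ∨ F.wl none = 0 → ∀ Z ⊆ ({b, c} : Set J), ∀ δ,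
      (∃ (n : ℕ) (φ : Fin n → J), ∃ m ψ, (F.sub (slab B₀ t) Z).Sh δ φ m ψ) →
      (F.sub (slab B₀ t) Z).Nice δ := fun t ht h0 Z hZ δ hs =>
    ⟨h.good hG ht h0 hZ, ⟨K₀, hK.sub (h.slab_sub ht) (h.zer_sub Z)⟩, ⟨n, isMfd_slab hn t⟩, h.polE, hs⟩
  refine ⟨key 0 h.zero (.inl rfl) _ (by simp) _
      ⟨1, _, _, _, Fam.Deg.sh_one h.ne (fun _ => h.not_mov) h.wc_ne h.E⟩,
    key 0 h.zero (.inl rfl) _ (by simp) _
      ⟨1, _, _, _, Fam.Deg.sh_one h.ne.symm (fun _ => h.not_mov.trans or_comm) h.wb_ne ?_⟩,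
    key 0 h.zero (.inl rfl) _ Subset.rfl _ ⟨0, _, _, _, h.sh_two⟩,
    fun h0 t ht ht0 => key t ht (.inr h0) _ (empty_subset _) _ ⟨1, _, _, _, h.sh_gen ht0⟩⟩
  simp only [h.E, mul_comm]

end Vale.Agent.P269
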