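import Vale.Agent.P269.Gen.Abs

set_option linter.all false

/-!
# Naturality of the Euler and Chern classes of the bundles of the statement
-/

namespace Vale.Agent.P269.Ch

open Set Function Topology Filter Vale.Agent.P291Z Vale.Agent.P269.Orb Polynomial

section wiso

variable {Y' Y : Sp}

/-- a point of the total space -/
def VB.pnt (E : VB Y) (t : Y.T) (w : E.W) (h : w ∈ E.F t) : E.tot.X := E.tot.π (⟨(t, w), h⟩ : E.V)

theorem VB.pnt_surj (E : VB Y) (x : E.tot.X) : ∃ t w h, x = E.pnt t w h := by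
  obtain ⟨y, rfl⟩ := E.tot.surj x
  exact ⟨_, _, y.2, rfl⟩

theorem VB.pnt_eq {E : VB Y} {t t' : Y.T} {w w' : E.W} {h : w ∈ E.F t} {h' : w' ∈ E.F t'} :
    E.pnt t w h = E.pnt t' w' h' ↔ ∃ g : Y.G, g • t = t' ∧ g • w = w' :=
  (E.tot.fib _ _).trans ⟨fun ⟨g, e⟩ => ⟨g, congrArg (·.1.1) e, congrArg (·.1.2) e⟩,
    fun ⟨g, e, e'⟩ => ⟨g, Subtype.ext (Prod.ext e e')⟩⟩

theorem VB.proj_pnt (E : VB Y) (t : Y.T) (w : E.W) (h : w ∈ E.F t) :
    E.proj.map (E.pnt t w h) = Y.π t := Mor.map_π _ _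

theorem VB.zero_π (E : VB Y) (t : Y.T) : E.zero.map (Y.π t) = E.pnt t 0 (zero_mem _) :=
  Mor.map_π _ _

/-- `Ψ` is a continuous map of total spaces over `φ` that is a linear isomorphism on the fibres. -/
structure WIso (E' : VB Y') (E : VB Y) (φ : Y'.X → Y.X) (Ψ : E'.tot.X → E.tot.X) : Prop where
  cont : Continuous Ψ
  lin : ∀ t', ∃ (t : Y.T) (A : E'.W →ₗ[ℂ] E.W) (h : ∀ w ∈ E'.F t', A w ∈ E.F t),
    φ (Y'.π t') = Y.π t ∧ (∀ w ∈ E'.F t', A w = 0 → w = 0) ∧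
    (∀ w ∈ E.F t, ∃ w' ∈ E'.F t', A w' = w) ∧
    ∀ w (hw : w ∈ E'.F t'), Ψ (E'.pnt t' w hw) = E.pnt t (A w) (h w hw)

namespace WIso

variable {E' : VB Y'} {E : VB Y} {φ : Y'.X → Y.X} {Ψ : E'.tot.X → E.tot.X} (h : WIso E' E φ Ψ)
include h

theorem proj (x : E'.tot.X) : E.proj.map (Ψ x) = φ (E'.proj.map x) := by
  obtain ⟨t', w, hw, rfl⟩ := E'.pnt_surj x
  obtain ⟨t, A, h1, h2, -, -, h3⟩ := h.lin t'
  rw [h3, VB.proj_pnt, VB.proj_pnt, h2]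

theorem zero (x : Y'.X) : Ψ (E'.zero.map x) = E.zero.map (φ x) := by
  obtain ⟨t', rfl⟩ := Y'.surj x
  obtain ⟨t, A, h1, h2, -, -, h3⟩ := h.lin t'
  rw [VB.zero_π, h3, h2, VB.zero_π]
  exact VB.pnt_eq.2 ⟨1, one_smul _ _, (one_smul _ _).trans (map_zero A)⟩

theorem continuous : Continuous φ :=
  (E.proj.map.continuous.comp (h.cont.comp E'.zero.map.continuous)).congr fun x =>
    (h.proj _).trans (congrArg φ (E'.isSec_zero.proj_map x))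

theorem rank (t' : Y'.T) : E'.r = E.r := by
  obtain ⟨t, A, h1, -, h2, h3, -⟩ := h.lin t'
  rw [← E'.rank t', ← E.rank t, ← finrank_map_of_inj h2, show (E'.F t').map A = E.F t from
    le_antisymm (by rintro _ ⟨w, hw, rfl⟩; exact h1 w hw) h3]

theorem isThom {t : Coch E.tot.X} (ht : IsThom E.Z E.ch t) : IsThom E'.Z E'.ch (pull Ψ t) := by
  refine ht.pull h.cont (fun x hx => ?_) fun r ψ hψ => ?_
  · obtain ⟨t', w, hw, rfl⟩ := E'.pnt_surj x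
    obtain ⟨t, A, h1, -, h2, -, h3⟩ := h.lin t'
    rw [mem_preimage, h3] at hx
    exact VB.mk_mem_Z.2 (h2 w hw (VB.mk_mem_Z.1 hx))
  · obtain ⟨t', ℓ, h1, h2, rfl⟩ := hψ.elim
    obtain ⟨t, A, h3, -, h4, h5, h6⟩ := h.lin t'
    have h7 : ∀ a, ℓ a ∈ E'.F t' := fun a => h2.le ⟨a, rfl⟩
    have := VB.ch_mk (E := E) (t := t) (ℓ := A ∘ₗ ℓ)
      ((injective_iff_map_eq_zero _).2 fun a ha =>
        (injective_iff_map_eq_zero _).1 h1 a (h4 _ (h7 a) ha))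
      (le_antisymm (by rintro _ ⟨a, rfl⟩; exact h3 _ (h7 a)) fun w hw => by
        obtain ⟨w', h8, rfl⟩ := h5 w hw
        obtain ⟨a, rfl⟩ := h2.ge h8
        exact ⟨a, rfl⟩)
    exact (funext fun a => h6 _ (h7 a) : (Ψ ∘ fun a => E'.pnt t' (ℓ a) (h7 a)) = _) ▸ this

theorem eu : E'.eu = Hev.map ⟨φ, h.continuous⟩ E.eu := Subtype.ext <| by
  rw [← E'.eu_eq (h.isThom E.isThom) E'.isSec_zero.proj_map, pull_pull,
    show Ψ ∘ E'.isSec_zero.mor.map = E.zero.map ∘ φ from funext h.zero, ← pull_pull]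
  exact (H.map_hcls ⟨φ, h.continuous⟩ (cocycle_pull E.zero.map.continuous E.th_cocycle)).symm.trans
    (congrArg _ (E.eu_eq E.isThom E.isSec_zero.proj_map))

omit h in
theorem hom_trivB (Y : Sp) (V : Type) [NormedAddCommGroup V] [NormedSpace ℂ V]
    [FiniteDimensional ℂ V] :
    ∃ m : Mor Y pt, Hom m (trivB Y V) (trivB pt V) fun _ => LinearMap.id :=
  ⟨⟨1, fun _ => default, continuous_const, continuous_const, fun _ _ => Subsingleton.elim _ _⟩,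
    Hom.of_continuous (fun _ _ _ => trivial) continuous_snd fun _ _ _ _ => rfl⟩

/-- twisting by `O(1)` of a projective space -/
theorem exists_tw (V : Type) [NormedAddCommGroup V] [NormedSpace ℂ V] [FiniteDimensional ℂ V] :
    ∃ φ' Ψ', WIso (E'.tw (trivB Y' V).pp (trivB Y' V).o1) (E.tw (trivB Y V).pp (trivB Y V).o1) φ' Ψ' ∧
      ∀ x' : (trivB Y' V).PT, ∃ x : (trivB Y V).PT, φ' ((trivB Y' V).PS.π x') = (trivB Y V).PS.π x ∧
        x.w = x'.w ∧ φ (Y'.π x'.t) = Y.π x.t := by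
  set T' := trivB Y' V
  set T := trivB Y V
  let κ : E.V × {c : V // c ≠ 0} → (E.tw T.pp T.o1).tot.X := fun z =>
    (E.tw T.pp T.o1).pnt (VB.PT.mk (E := T) z.1.1.1 z.2.1 trivial z.2.2) z.1.1.2 z.1.2
  have hκ : Continuous κ := (E.tw T.pp T.o1).tot.cont.comp (Continuous.subtype_mk
    ((VB.PT.continuous_mk (E := T) (by fun_prop) (by fun_prop) _ _).prodMk (by fun_prop)) _)
  have h1 : ∀ y c, κ (E.tot.out (E.tot.π y), c) = κ (y, c) := fun y c => by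
    obtain ⟨g, hg⟩ := E.tot.exists_out y
    rw [← hg]
    refine (VB.pnt_eq.2 ⟨(g, 1), VB.PT.ext (E := T) ?_ ?_, one_smul ℂ _⟩).symm
    exacts [rfl, one_smul ℂ c.1]
  have h2 : Continuous fun z : E.tot.X × {c : V // c ≠ 0} => κ (E.tot.out z.1, z.2) :=
    (E.tot.quo.prodMap IsOpenQuotientMap.id).isQuotientMap.continuous_iff.2
      (hκ.congr fun z => (h1 z.1 z.2).symm)
  let f : (E'.tw T'.pp T'.o1).V → (E.tw T.pp T.o1).tot.X := fun y =>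
    κ (E.tot.out (Ψ (E'.pnt (VB.PT.t y.1.1) y.1.2 y.2)), ⟨VB.PT.w y.1.1, VB.PT.ne y.1.1⟩)
  have h9 : Continuous fun y : (E'.tw T'.pp T'.o1).V => y.1 := continuous_subtype_val
  have hf : Continuous f := h2.comp (f := fun y : (E'.tw T'.pp T'.o1).V =>
      (Ψ (E'.pnt (VB.PT.t y.1.1) y.1.2 y.2), (⟨VB.PT.w y.1.1, VB.PT.ne y.1.1⟩ : {c : V // c ≠ 0})))
    ((h.cont.comp (E'.tot.cont.comp (Continuous.subtype_mk
      ((VB.PT.continuous_t.comp h9.fst).prodMk h9.snd) _))).prodMk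
      ((VB.PT.continuous_w.comp h9.fst).subtype_mk _))
  obtain ⟨Ψ', hΨ⟩ := (E'.tw T'.pp T'.o1).tot.isQuo.exists_lift f (by
    rintro ⟨g, z⟩ ⟨⟨x, w⟩, hw⟩
    obtain ⟨t, A, h3, -, -, -, h4⟩ := h.lin (VB.PT.t x)
    change E'.W at w
    have h5 : (z : ℂ) • w ∈ E'.F (VB.PT.t x) := (E'.F _).smul_mem _ hw
    have h6 : E'.pnt (g • VB.PT.t x) ((z : ℂ) • g • w) ((E'.F _).smul_mem _ (E'.inv _ _ _ hw)) =
        E'.pnt _ _ h5 := (VB.pnt_eq.2 ⟨g, rfl, E'.comm.smul_comm g (z : ℂ) w⟩).symm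
    refine (congrArg (fun y => κ (E.tot.out (Ψ y), _)) h6).trans ?_
    refine (congrArg (fun y => κ (E.tot.out y, _)) (h4 _ h5)).trans ((h1 _ _).trans (Eq.symm ?_))
    refine (congrArg (fun y => κ (E.tot.out y, _)) (h4 _ hw)).trans ((h1 _ _).trans ?_)
    exact VB.pnt_eq.2 ⟨(1, z), VB.PT.ext (one_smul _ t) rfl,
      (congrArg ((z : ℂ) • ·) (one_smul Y.G (A w))).trans (map_smul A _ _).symm⟩)
  have h7 : ∀ (x' : T'.PT) (t : Y.T) (A : E'.W →ₗ[ℂ] E.W) (h3 : ∀ w ∈ E'.F x'.t, A w ∈ E.F t),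
      (∀ w (hw : w ∈ E'.F x'.t), Ψ (E'.pnt _ w hw) = E.pnt t (A w) (h3 w hw)) →
      ∀ w (hw : w ∈ E'.F x'.t), Ψ' ((E'.tw T'.pp T'.o1).pnt x' w hw) = (E.tw T.pp T.o1).pnt
        (VB.PT.mk (E := T) t x'.w trivial x'.ne) (A w) (h3 w hw) := fun x' t A h3 h4 w hw =>
    (hΨ _).trans ((congrArg (fun y => κ (E.tot.out y, _)) (h4 w hw)).trans (h1 _ _))
  have h8 : ∀ (x' : T'.PT) (t : Y.T) (A : E'.W →ₗ[ℂ] E.W) (h3 : ∀ w ∈ E'.F x'.t, A w ∈ E.F t),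
      (∀ w (hw : w ∈ E'.F x'.t), Ψ (E'.pnt _ w hw) = E.pnt t (A w) (h3 w hw)) →
      (E.tw T.pp T.o1).proj.map (Ψ' ((E'.tw T'.pp T'.o1).zero.map (T'.PS.π x'))) =
        T.PS.π (VB.PT.mk (E := T) t x'.w trivial x'.ne) := fun x' t A h3 h4 =>
    (congrArg (fun y => (E.tw T.pp T.o1).proj.map (Ψ' y)) (VB.zero_π _ x')).trans
      ((congrArg _ (h7 x' t A h3 h4 0 (zero_mem _))).trans (VB.proj_pnt _ _ _ _))
  refine ⟨fun x => (E.tw T.pp T.o1).proj.map (Ψ' ((E'.tw T'.pp T'.o1).zero.map x)), Ψ',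
    ⟨(E'.tw T'.pp T'.o1).tot.isQuo.continuous_lift hf hΨ, fun x' => ?_⟩, fun x' => ?_⟩
  · obtain ⟨t, A, h3, -, h4, h5, h6⟩ := h.lin (VB.PT.t x')
    exact ⟨VB.PT.mk (E := T) t (VB.PT.w (E := T') x') trivial (VB.PT.ne (E := T') x'), A, h3,
      h8 x' t A h3 h6, h4, h5, h7 x' t A h3 h6⟩
  · obtain ⟨t, A, h3, h4, -, -, h6⟩ := h.lin x'.t
    exact ⟨_, h8 x' t A h3 h6, rfl, h4⟩

theorem chern : E'.chern = E.chern.map (Hev.map ⟨φ, h.continuous⟩ : Hev Y.X →+* Hev Y'.X) := by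
  rcases isEmpty_or_nonempty Y'.T with h0 | ⟨⟨t₀⟩⟩
  · exact Subsingleton.elim _ _
  obtain ⟨φ', Ψ', h1, h2⟩ := h.exists_tw (Fin E'.r → ℂ)
  obtain ⟨m', h3⟩ := hom_trivB Y' (Fin E'.r → ℂ)
  obtain ⟨m, h4⟩ := hom_trivB Y (Fin E'.r → ℂ)
  have h5 := (trivB Y' (Fin E'.r → ℂ)).lh_bijective.1
  have h6 : (trivB Y' (Fin E'.r → ℂ)).r = E'.r := Module.finrank_fin_fun ℂ
  refine Mon.eq_of_lh h5 (h6.symm ▸ E'.chern_mon) (h6.symm ▸ h.rank t₀ ▸ E.chern_mon.map _) ?_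
  rw [VB.xi, ← VB.eu_tw, h1.eu, VB.eu_tw, map_evP, evP_map]
  congr 2
  · refine ContinuousMap.ext fun x => ?_
    obtain ⟨x', rfl⟩ := (trivB Y' (Fin E'.r → ℂ)).PS.surj x
    obtain ⟨x, e1, -, e2⟩ := h2 x'
    exact (congrArg _ e1).trans ((Mor.map_π _ _).trans (e2.symm.trans
      (congrArg φ (Mor.map_π (trivB Y' (Fin E'.r → ℂ)).pp x').symm)))
  · change Hev.map _ (VB.xi _) = VB.xi _
    rw [← h4.pmor_xi fun _ _ _ e => e, ← h3.pmor_xi fun _ _ _ e => e, Hev.map_map]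
    congr 2
    refine ContinuousMap.ext fun x => ?_
    obtain ⟨x', rfl⟩ := (trivB Y' (Fin E'.r → ℂ)).PS.surj x
    obtain ⟨x, e1, e2, -⟩ := h2 x'
    refine (congrArg (h4.pmor fun _ _ _ e => e).map e1).trans ((Mor.map_π _ _).trans
      (Eq.trans ?_ (Mor.map_π (h3.pmor fun _ _ _ e => e) x').symm))
    exact congrArg (trivB pt (Fin E'.r → ℂ)).PS.π (VB.PT.ext (Subsingleton.elim _ _) e2)

end WIso

theorem Iso.wIso {m : Mor Y' Y} {E' : VB Y'} {E : VB Y} {A : Y'.T → E'.W →ₗ[ℂ] E.W}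
    (h : Iso m E' E A) : WIso E' E m.map h.mor.map :=
  ⟨h.mor.map.continuous, fun t => ⟨m.f t, A t, h.mem t, m.map_π t, h.inj t, h.surj t,
    fun _ _ => Mor.map_π _ _⟩⟩

theorem Mon.reverse_eq {R : Type*} [CommRing R] {r : ℕ} {P : R[X]} (h : Mon r P) :
    P.reverse = P.reflect r := by
  nontriviality R
  rw [reverse, le_antisymm h.le (le_natDegree_of_ne_zero (h.coeff.symm ▸ one_ne_zero))]

end wiso

section stmt

variable {A W P A' W' P' A'' W'' P'' : Type}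
  [NormedRing A] [NormedAlgebra ℂ A] [NormedAddCommGroup W] [NormedSpace ℂ W]
  [AddCommGroup P] [Module ℂ P] [TopologicalSpace P]
  [NormedRing A'] [NormedAlgebra ℂ A'] [NormedAddCommGroup W'] [NormedSpace ℂ W']
  [AddCommGroup P'] [Module ℂ P'] [TopologicalSpace P']
  [NormedRing A''] [NormedAlgebra ℂ A''] [NormedAddCommGroup W''] [NormedSpace ℂ W'']
  [AddCommGroup P''] [Module ℂ P''] [TopologicalSpace P'']

/-- `L` induces an isomorphism `B' / N' ≃ B / N`. -/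
structure QIso (B' N' : Submodule ℂ P') (B N : Submodule ℂ P) (L : P' →ₗ[ℂ] P) : Prop where
  mem : ∀ q ∈ B', L q ∈ B
  ker : ∀ q ∈ B', L q ∈ N ↔ q ∈ N'
  surj : ∀ q ∈ B, ∃ q' ∈ B', q - L q' ∈ N

theorem QIso.refl (B N : Submodule ℂ P) : QIso B N B N LinearMap.id :=
  ⟨fun _ h => h, fun _ _ => Iff.rfl, fun q h => ⟨q, h, by simp⟩⟩

/-- The data of a bundle with fibres `B x / N x`. -/
structure BD (A W P : Type) [AddCommGroup P] [Module ℂ P] where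
  /-- the action -/
  ρ : A → P → P
  /-- the big spaces -/
  B : W → Submodule ℂ P
  /-- the small spaces -/
  N : W → Submodule ℂ P

namespace BD

variable (D : BD A W P) (act : A → W → W) (S : Set W)

/-- the total space -/
abbrev T : Type := Tot act D.ρ S D.B D.N

variable {S} in
/-- a point of the total space -/
def pnt {x : W} (hx : x ∈ S) {q : P} (hq : q ∈ D.B x) : D.T act S := Quot.mk _ ⟨(x, q), hx, hq⟩

/-- the Euler class -/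
noncomputable def eu : H (Quo act S) := hcls (eulerC act D.ρ S D.B D.N)

/-- the total Chern class -/
noncomputable def ch : PowerSeries (Hev (Quo act S)) := chernT act D.ρ S D.B D.N

/-- The bundle has a model of rank `r`. -/
def Has (r : ℕ) : Prop :=
  ∃ (Y : Sp) (p : Pres Y act S) (E₀ E : VB Y) (ι : E₀.W →ₗ[ℂ] P) (M : Y.T → E₀.W →ₗ[ℂ] E.W),
    IsMod p D.ρ D.B D.N E₀ E ι M ∧ E.r = r

/-- The pull-back of the data. -/
def pb (th : A' → A) (μ : W' → W) : BD A' W' P :=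
  ⟨fun a => D.ρ (th a), fun x => D.B (μ x), fun x => D.N (μ x)⟩

end BD

/-- There is a continuous map of total spaces over `Φ` that is an isomorphism on the fibres. -/
def BMap (D' : BD A' W' P') (act' : A' → W' → W') (S' : Set W') (D : BD A W P) (act : A → W → W)
    (S : Set W) (Φ : Quo act' S' → Quo act S) : Prop :=
  ∃ Ψ : D'.T act' S' → D.T act S, Continuous Ψ ∧ ∀ x' (hx' : x' ∈ S'), ∃ (x : W) (hx : x ∈ S)
    (L : P' →ₗ[ℂ] P) (h : QIso (D'.B x') (D'.N x') (D.B x) (D.N x) L),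
    Φ (Quo.mk act' ⟨x', hx'⟩) = Quo.mk act ⟨x, hx⟩ ∧
      ∀ q (hq : q ∈ D'.B x'), Ψ (D'.pnt act' hx' hq) = D.pnt act hx (h.mem q hq)

variable {D'' : BD A'' W'' P''} {act'' : A'' → W'' → W''} {S'' : Set W''} {D' : BD A' W' P'}
  {act' : A' → W' → W'} {S' : Set W'} {D : BD A W P} {act : A → W → W} {S : Set W}
  {Φ : Quo act' S' → Quo act S} {r r' : ℕ}

theorem BMap.refl (D : BD A W P) (act : A → W → W) (S : Set W) : BMap D act S D act S id :=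
  ⟨id, continuous_id, fun x hx => ⟨x, hx, _, QIso.refl _ _, rfl, fun _ _ => rfl⟩⟩

/-- bundle maps from a relation `Rl x' x L` with local continuous sections -/
theorem BMap.of_rel (Rl : W' → W → (P' →ₗ[ℂ] P) → Prop) (le : ∀ x ∈ S', D'.N x ≤ D'.B x)
    (h1 : ∀ x' (hx' : x' ∈ S') x L, Rl x' x L → QIso (D'.B x') (D'.N x') (D.B x) (D.N x) L ∧
      ∃ hx : x ∈ S, Φ (Quo.mk act' ⟨x', hx'⟩) = Quo.mk act ⟨x, hx⟩)
    (h2 : ∀ x' ∈ S', ∀ x L y M, Rl x' x L → Rl x' y M → ∃ a, IsUnit a ∧ y = act a x ∧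
      ∀ q ∈ D'.B x', M q - D.ρ a (L q) ∈ D.N y)
    (h3 : ∀ x' ∈ S', ∀ a', IsUnit a' → act' a' x' ∈ S' → ∃ x L y M, Rl x' x L ∧ Rl (act' a' x') y M ∧
      ∃ a, IsUnit a ∧ y = act a x ∧ ∀ q ∈ D'.B x', M (D'.ρ a' q) - D.ρ a (L q) ∈ D.N y)
    (h4 : ∀ x' ∈ S', ∃ (μ : W' → W) (L : W' → P' →ₗ[ℂ] P), (∀ᶠ y in 𝓝[S'] x', Rl y (μ y) (L y)) ∧
      ContinuousWithinAt μ S' x' ∧ ∀ q ∈ D'.B x', ContinuousWithinAt (fun z : W' × P' => L z.1 z.2)
        {z | z.1 ∈ S' ∧ z.2 ∈ D'.B z.1} (x', q)) : BMap D' act' S' D act S Φ := by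
  choose μ L h5 h6 h7 using h4
  have h8 : ∀ x' hx', Rl x' (μ x' hx' x') (L x' hx' x') := fun x' hx' =>
    (h5 x' hx').self_of_nhdsWithin hx'
  let f : {z : W' × P' // z.1 ∈ S' ∧ z.2 ∈ D'.B z.1} → D.T act S := fun z =>
    D.pnt act (h1 _ z.2.1 _ _ (h8 _ z.2.1)).2.1 ((h1 _ z.2.1 _ _ (h8 _ z.2.1)).1.mem _ z.2.2)
  have h9 : ∀ z x M (h : Rl z.1.1 x M), f z =
      D.pnt act (h1 _ z.2.1 _ _ h).2.1 ((h1 _ z.2.1 _ _ h).1.mem _ z.2.2) := fun z x M h => by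
    obtain ⟨a, e1, e2, e3⟩ := h2 _ z.2.1 _ _ _ _ (h8 _ z.2.1) h
    exact Quot.sound ⟨a, e1, e2, e3 _ z.2.2⟩
  refine ⟨Quot.lift f ?_, continuous_quot_lift _ (continuous_iff_continuousAt.2 fun z => ?_),
    fun x' hx' => ⟨_, (h1 _ hx' _ _ (h8 _ hx')).2.1, _, (h1 _ hx' _ _ (h8 _ hx')).1,
      (h1 _ hx' _ _ (h8 _ hx')).2.2, fun _ _ => rfl⟩⟩
  · rintro ⟨⟨x', q⟩, hx', hq⟩ ⟨⟨y', q'⟩, hy', hq'⟩ ⟨a', e1, rfl, e2⟩
    obtain ⟨x, M, y, M', e3, e4, a, e5, e6, e7⟩ := h3 x' hx' a' e1 hy'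
    rw [h9 _ _ _ e3, h9 _ _ _ e4]
    refine Quot.sound ⟨a, e5, e6, ?_⟩
    have := add_mem (((h1 _ hy' _ _ e4).1.ker _ (le _ hy' e2)).2 e2) (e7 q hq)
    rwa [map_sub, sub_add_sub_cancel] at this
  · classical
    have e1 : Tendsto (fun y : {z : W' × P' // z.1 ∈ S' ∧ z.2 ∈ D'.B z.1} => y.1.1) (𝓝 z)
        (𝓝[S'] z.1.1) := tendsto_nhdsWithin_iff.2 ⟨continuous_subtype_val.fst.tendsto z,
      .of_forall fun y => y.2.1⟩
    have e2 : Tendsto (fun y : {z : W' × P' // z.1 ∈ S' ∧ z.2 ∈ D'.B z.1} =>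
        (μ _ z.2.1 y.1.1, L _ z.2.1 y.1.1 y.1.2)) (𝓝 z) (𝓝 (μ _ z.2.1 z.1.1, L _ z.2.1 z.1.1 z.1.2)) :=
      ((h6 _ z.2.1).tendsto.comp e1).prodMk_nhds ((h7 _ z.2.1 _ z.2.2).tendsto.comp
        (tendsto_nhdsWithin_iff.2 ⟨continuous_subtype_val.tendsto z, .of_forall fun y => y.2⟩))
    let g : {z : W' × P' // z.1 ∈ S' ∧ z.2 ∈ D'.B z.1} → {z : W × P // z.1 ∈ S ∧ z.2 ∈ D.B z.1} :=
      fun y => if h : Rl y.1.1 (μ _ z.2.1 y.1.1) (L _ z.2.1 y.1.1) then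
        ⟨(_, _), (h1 _ y.2.1 _ _ h).2.1, (h1 _ y.2.1 _ _ h).1.mem _ y.2.2⟩
      else ⟨(_, _), (h1 _ y.2.1 _ _ (h8 _ y.2.1)).2.1, (h1 _ y.2.1 _ _ (h8 _ y.2.1)).1.mem _ y.2.2⟩
    have e3 : f = Quot.mk _ ∘ g := funext fun y => by
      by_cases h : Rl y.1.1 (μ _ z.2.1 y.1.1) (L _ z.2.1 y.1.1)
      · exact (h9 y _ _ h).trans (congrArg (Quot.mk _) (dif_pos h : g y = _)).symm
      · exact (congrArg (Quot.mk _) (dif_neg h : g y = _)).symm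
    rw [e3]
    refine continuous_quot_mk.continuousAt.comp (tendsto_subtype_rng.2 ?_)
    rw [show (g z).1 = _ from congrArg Subtype.val (dif_pos (h8 _ z.2.1))]
    exact e2.congr' ((e1.eventually (h5 _ z.2.1)).mono fun y hy =>
      (congrArg Subtype.val (dif_pos hy : g y = _)).symm)

/-- bundle maps from global data -/
theorem BMap.of_map (μ : W' → W) (L : W' → P' →ₗ[ℂ] P) (le : ∀ x ∈ S', D'.N x ≤ D'.B x)
    (hμ : ContinuousOn μ S') (mem : ∀ x ∈ S', μ x ∈ S)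
    (hL : ContinuousOn (fun z : W' × P' => L z.1 z.2) {z | z.1 ∈ S' ∧ z.2 ∈ D'.B z.1})
    (iso : ∀ x ∈ S', QIso (D'.B x) (D'.N x) (D.B (μ x)) (D.N (μ x)) (L x))
    (eqv : ∀ x ∈ S', ∀ a', IsUnit a' → ∃ a, IsUnit a ∧ μ (act' a' x) = act a (μ x) ∧
      ∀ q ∈ D'.B x, L (act' a' x) (D'.ρ a' q) - D.ρ a (L x q) ∈ D.N (μ (act' a' x)))
    (hΦ : ∀ x hx, Φ (Quo.mk act' ⟨x, hx⟩) = Quo.mk act ⟨μ x, mem x hx⟩) :
    BMap D' act' S' D act S Φ := by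
  refine ⟨Quot.map (fun z => ⟨(μ z.1.1, L z.1.1 z.1.2), mem _ z.2.1, (iso _ z.2.1).mem _ z.2.2⟩) ?_,
    continuous_quot_lift _ (continuous_quot_mk.comp (Continuous.subtype_mk
      ((hμ.comp_continuous continuous_subtype_val.fst fun z => z.2.1).prodMk hL.restrict) _)),
    fun x hx => ⟨_, mem x hx, _, iso x hx, hΦ x hx, fun _ _ => rfl⟩⟩
  rintro ⟨⟨x', q⟩, hx', hq⟩ ⟨⟨y', q'⟩, hy', hq'⟩ ⟨a', e1, rfl, e2⟩
  obtain ⟨a, e3, e4, e5⟩ := eqv x' hx' a' e1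
  refine ⟨a, e3, e4, ?_⟩
  have := add_mem (((iso _ hy').ker _ (le _ hy' e2)).2 e2) (e5 q hq)
  rwa [map_sub, sub_add_sub_cancel] at this

/-- the canonical map from the pull-back -/
theorem BMap.pb (th : A' → A) (μ : W' → W) (le : ∀ x ∈ S, D.N x ≤ D.B x) (hμ : ContinuousOn μ S')
    (mem : ∀ x ∈ S', μ x ∈ S) (hth : ∀ a, IsUnit a → IsUnit (th a))
    (eqv : ∀ x ∈ S', ∀ a, IsUnit a → μ (act' a x) = act (th a) (μ x))
    (hΦ : ∀ x hx, Φ (Quo.mk act' ⟨x, hx⟩) = Quo.mk act ⟨μ x, mem x hx⟩) :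
    BMap (D.pb th μ) act' S' D act S Φ :=
  .of_map μ (fun _ => LinearMap.id) (fun x hx => le _ (mem x hx)) hμ mem continuousOn_snd
    (fun _ _ => QIso.refl _ _) (fun x hx a ha => ⟨_, hth a ha, eqv x hx a ha, fun q _ =>
      (sub_self (D.ρ (th a) q)).symm ▸ zero_mem _⟩) hΦ

/-- restriction to a subset -/
theorem BMap.incl {S₁ : Set W} (e : S₁ ⊆ S) (le : ∀ x ∈ S, D.N x ≤ D.B x) :
    BMap D act S₁ D act S (Quo.incl act e) :=
  BMap.pb (D := D) id id le continuousOn_id e (fun _ h => h) (fun _ _ _ _ => rfl) fun _ _ => rfl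

theorem BMap.wIso (h : BMap D' act' S' D act S Φ) {Y' Y : Sp} {p' : Pres Y' act' S'}
    {p : Pres Y act S} {E₀' E' : VB Y'} {E₀ E : VB Y} {ι' : E₀'.W →ₗ[ℂ] P'} {ι : E₀.W →ₗ[ℂ] P}
    {M' : Y'.T → E₀'.W →ₗ[ℂ] E'.W} {M : Y.T → E₀.W →ₗ[ℂ] E.W}
    (m' : IsMod p' D'.ρ D'.B D'.N E₀' E' ι' M') (m : IsMod p D.ρ D.B D.N E₀ E ι M) :
    ∃ φ Ψ, WIso E' E φ Ψ ∧ φ ∘ p'.e = p.e ∘ Φ := by
  obtain ⟨Ψ, h1, h2⟩ := h
  obtain ⟨R, h3, h4⟩ := m'.hom.exists_sect m'.surj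
  obtain ⟨j, hj⟩ := ι.exists_leftInverse_of_injective (LinearMap.ker_eq_bot.2 m.emb.injective)
  let e' := p'.isHomeomorph_e.homeomorph
  refine ⟨p.e ∘ Φ ∘ e'.symm, m.homeo ∘ Ψ ∘ m'.homeo.symm, ⟨m.homeo.continuous.comp
    (h1.comp m'.homeo.symm.continuous), fun t' => ?_⟩,
    funext fun z => congrArg (p.e ∘ Φ) (e'.symm_apply_apply z)⟩
  obtain ⟨x, hx, L, h5, h6, h7⟩ := h2 _ (p'.mem t')
  obtain ⟨t, rfl⟩ := p.surj x hx
  have h8 : ∀ q ∈ D.B (p.i t), j q ∈ E₀.F t ∧ ι (j q) = q := fun q hq => by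
    obtain ⟨w, e1, rfl⟩ := (m.map t).ge hq
    rw [show j (ι w) = w from LinearMap.congr_fun hj w]
    exact ⟨e1, rfl⟩
  have h0 : ∀ w ∈ E'.F t', R t' w ∈ E₀'.F t' := fun w hw => h3.mem _ _ hw
  have h9 : ∀ w ∈ E'.F t', ι' (R t' w) ∈ D'.B (p'.i t') := fun w hw => m'.mem (h0 _ hw)
  refine ⟨t, M t ∘ₗ j ∘ₗ L ∘ₗ ι' ∘ₗ R t', fun w hw => m.hom.mem _ _ (h8 _ (h5.mem _ (h9 w hw))).1,
    ?_, fun w hw e => ?_, fun w hw => ?_, fun w hw => ?_⟩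
  · exact (congrArg (p.e ∘ Φ) (e'.symm_apply_eq.2 (p'.map t').symm)).trans
      ((congrArg p.e h6).trans (p.map t))
  · have := (m.ker _ _ (h8 _ (h5.mem _ (h9 w hw))).1).1 e
    rw [(h8 _ (h5.mem _ (h9 w hw))).2, h5.ker _ (h9 w hw), ← m'.ker _ _ (h0 _ hw)] at this
    exact (h4 _ _ hw).symm.trans this
  · obtain ⟨w₀, e1, rfl⟩ := m.surj _ w hw
    obtain ⟨q', e2, e3⟩ := h5.surj _ (m.mem e1)
    obtain ⟨w', e4, rfl⟩ := (m'.map t').ge e2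
    have e5 : M' t' w' ∈ E'.F t' := m'.hom.mem _ _ e4
    have e6 := h8 _ (h5.mem _ (h9 _ e5))
    refine ⟨M' t' w', e5, sub_eq_zero.1 ((map_sub (M t) _ _).symm.trans
      ((m.ker _ _ (sub_mem e6.1 e1)).2 ?_))⟩
    have e7 : ι' (R t' (M' t' w') - w') ∈ D'.N (p'.i t') :=
      (m'.ker _ _ (sub_mem (h0 _ e5) e4)).1 (by rw [map_sub, h4 _ _ e5, sub_self])
    have e8 := sub_mem ((h5.ker _ (m'.le _ e7)).2 e7) e3
    rw [map_sub, map_sub, sub_sub_sub_cancel_right] at e8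
    rwa [map_sub, e6.2]
  · have e1 : m'.homeo.symm (E'.pnt t' w hw) = D'.pnt act' (p'.mem t') (h9 w hw) :=
      m'.homeo.symm_apply_eq.2 (Eq.symm ((m'.homeo_tp ⟨(t', R t' w), h0 _ hw⟩).trans
        (VB.pnt_eq.2 ⟨1, one_smul _ _, (one_smul _ _).trans (h4 _ _ hw)⟩)))
    have e2 := h8 _ (h5.mem _ (h9 w hw))
    refine (congrArg (m.homeo ∘ Ψ) e1).trans ((congrArg m.homeo ((h7 _ _).trans ?_)).trans
      (m.homeo_tp ⟨(t, _), e2.1⟩))
    exact congrArg (Quot.mk _) (Subtype.ext (Prod.ext rfl e2.2.symm))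

theorem BMap.continuous (h : BMap D' act' S' D act S Φ) (h' : D'.Has act' S' r')
    (h0 : D.Has act S r) : Continuous Φ := by
  obtain ⟨Y', p', _, _, _, _, m', -⟩ := h'
  obtain ⟨Y, p, _, _, _, _, m, -⟩ := h0
  obtain ⟨φ, Ψ, h1, h2⟩ := h.wIso m' m
  exact p.isHomeomorph_e.isEmbedding.continuous_iff.2 (h2 ▸ h1.continuous.comp p'.e.continuous)

/-- **naturality of the Euler class** -/
theorem BMap.eu {Φ : C(Quo act' S', Quo act S)} (h : BMap D' act' S' D act S Φ)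
    (h' : D'.Has act' S' r') (h0 : D.Has act S r) : D'.eu act' S' = H.map Φ (D.eu act S) := by
  obtain ⟨Y', p', _, E', _, _, m', -⟩ := h'
  obtain ⟨Y, p, _, E, _, _, m, -⟩ := h0
  obtain ⟨φ, Ψ, h1, h2⟩ := h.wIso m' m
  rw [BD.eu, BD.eu, m'.hcls_eulerC, m.hcls_eulerC, h1.eu, H.map_map]
  exact (H.map_map _ _ _).trans (congrArg (H.map · E.eu.1) (ContinuousMap.ext (congrFun h2)))

theorem BMap.chern {Φ : C(Quo act' S', Quo act S)} (h : BMap D' act' S' D act S Φ) {Y' Y : Sp}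
    {p' : Pres Y' act' S'} {p : Pres Y act S} {E₀' E' : VB Y'} {E₀ E : VB Y} {ι' : E₀'.W →ₗ[ℂ] P'}
    {ι : E₀.W →ₗ[ℂ] P} {M' : Y'.T → E₀'.W →ₗ[ℂ] E'.W} {M : Y.T → E₀.W →ₗ[ℂ] E.W}
    (m' : IsMod p' D'.ρ D'.B D'.N E₀' E' ι' M') (m : IsMod p D.ρ D.B D.N E₀ E ι M) :
    E'.chern.map (Hev.map p'.e).toRingHom =
      (E.chern.map (Hev.map p.e).toRingHom).map (Hev.map Φ).toRingHom := by
  obtain ⟨φ, Ψ, h1, h2⟩ := h.wIso m' m
  rw [h1.chern, Polynomial.map_map, Polynomial.map_map]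
  exact congrArg (E.chern.map ·) (RingHom.ext fun c => (Hev.map_map _ _ c).trans
    ((congrArg (Hev.map · c) (ContinuousMap.ext (congrFun h2))).trans (Hev.map_map _ _ c).symm))

/-- **the total Chern class is computed by any model** -/
theorem IsMod.ch_eq {Y : Sp} {p : Pres Y act S} {E₀ E : VB Y} {ι : E₀.W →ₗ[ℂ] P}
    {M : Y.T → E₀.W →ₗ[ℂ] E.W} (m : IsMod p D.ρ D.B D.N E₀ E ι M) :
    D.ch act S = ((E.chern.map (Hev.map p.e).toRingHom).reflect E.r : Polynomial _) := by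
  obtain ⟨Y', p', _, E', _, _, m', e⟩ := Classical.epsilon_spec (p := fun c => ∃ (Y : Sp)
    (p : Pres Y act S) (E₀ E : VB Y) (i : E₀.W →ₗ[ℂ] P) (M : Y.T → E₀.W →ₗ[ℂ] E.W),
    IsMod p D.ρ D.B D.N E₀ E i M ∧ c = (((E.chern.map (Hev.map p.e).toRingHom).reverse :
      Polynomial (Hev (Quo act S))) : PowerSeries (Hev (Quo act S)))) ⟨_, Y, p, E₀, E, ι, M, m, rfl⟩
  refine e.trans (congrArg _ ?_)
  rw [BMap.chern (Φ := ContinuousMap.id _) (BMap.refl D act S) m' m, ← (E.chern_mon.map _).reverse_eq]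
  exact congrArg _ ((congrArg (Polynomial.map · _) (RingHom.ext (Hev.map_id fun _ => rfl))).trans
    Polynomial.map_id)

theorem BMap.rank (h : BMap D' act' S' D act S Φ) (h' : D'.Has act' S' r') (h0 : D.Has act S r)
    (hS : S'.Nonempty) : r' = r := by
  obtain ⟨Y', p', _, _, _, _, m', rfl⟩ := h'
  obtain ⟨Y, p, _, _, _, _, m, rfl⟩ := h0
  obtain ⟨φ, Ψ, h1, -⟩ := h.wIso m' m
  exact h1.rank (p'.surj _ hS.choose_spec).choose

/-- **naturality of the total Chern class** -/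
theorem BMap.ch {Φ : C(Quo act' S', Quo act S)} (h : BMap D' act' S' D act S Φ)
    (h' : D'.Has act' S' r') (h0 : D.Has act S r) :
    D'.ch act' S' = PowerSeries.map (Hev.map Φ).toRingHom (D.ch act S) := by
  obtain ⟨Y', p', _, E', _, _, m', -⟩ := h'
  obtain ⟨Y, p, _, E, _, _, m, -⟩ := h0
  rw [m'.ch_eq, m.ch_eq, ← Polynomial.polynomial_map_coe, ← reflect_map, ← h.chern m' m,
    ← (E'.chern_mon.map _).reverse_eq, h.chern m' m, ((E.chern_mon.map _).map _).reverse_eq]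

namespace BD.Has

variable (h : D.Has act S r)
include h

theorem cocycle : supp (δ (eulerC act D.ρ S D.B D.N)) = ∅ := by
  obtain ⟨_, _, _, _, _, _, m, -⟩ := h
  exact m.eulerC_cocycle

theorem deg : IsDeg (2 * r) (eulerC act D.ρ S D.B D.N) := by
  obtain ⟨_, _, _, _, _, _, m, rfl⟩ := h
  exact m.eulerC_deg

theorem eu_deg : H.IsDeg (2 * r) (D.eu act S) := hcls_isDeg h.deg

theorem le {x : W} (hx : x ∈ S) : D.N x ≤ D.B x := by
  obtain ⟨_, p, _, _, _, _, m, -⟩ := h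
  obtain ⟨t, rfl⟩ := p.surj x hx
  exact m.le t

theorem nice : Nice (Quo act S) := by
  obtain ⟨_, p, -⟩ := h
  exact p.nice

theorem coeff_deg (j : ℕ) : PowerSeries.coeff j (D.ch act S) ∈ Hev.deg _ j := by
  obtain ⟨_, p, _, E, _, _, m, -⟩ := h
  rw [m.ch_eq, coeff_coe, coeff_reflect, coeff_map]
  rcases le_or_gt j E.r with e | e
  · have := Hev.map_deg p.e (E.chern_deg (E.r - j))
    rwa [Nat.cast_sub e, sub_sub_cancel, ← revAt_le e] at this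
  · rw [revAt_eq_self_of_lt e, coeff_eq_zero_of_natDegree_lt (E.chern_mon.le.trans_lt e), map_zero]
    exact zero_mem _

theorem coeff_zero : PowerSeries.coeff 0 (D.ch act S) = 1 := by
  obtain ⟨_, p, _, E, _, _, m, -⟩ := h
  rw [m.ch_eq, coeff_coe, coeff_reflect, revAt_zero, (E.chern_mon.map _).coeff]

theorem coeff_top : (PowerSeries.coeff r (D.ch act S)).1 = D.eu act S := by
  obtain ⟨_, p, _, E, _, _, m, rfl⟩ := h
  rw [m.ch_eq, coeff_coe, coeff_reflect, revAt_le le_rfl, Nat.sub_self, coeff_map,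
    E.chern_coeff_zero, BD.eu, m.hcls_eulerC]
  rfl

theorem coeff_gt {j : ℕ} (e : r < j) : PowerSeries.coeff j (D.ch act S) = 0 := by
  obtain ⟨_, p, _, E, _, _, m, rfl⟩ := h
  rw [m.ch_eq, coeff_coe, coeff_reflect, coeff_map, revAt_eq_self_of_lt e,
    coeff_eq_zero_of_natDegree_lt (E.chern_mon.le.trans_lt e), map_zero]

end BD.Has

/-- `B` and `N` are closed invariant families of ranks `b` and `n` in a finite dimensional
representation. -/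
structure BD.Ok (D : BD A W P) (act : A → W → W) (S : Set W) (P₀ : Submodule ℂ P) (b n : ℕ) :
    Prop where
  fin : FiniteDimensional ℂ P₀
  rep : IsRepOn D.ρ P₀
  famB : IsFam act D.ρ S P₀ D.B b
  famN : IsFam act D.ρ S P₀ D.N n
  le : ∀ x ∈ S, D.N x ≤ D.B x

theorem IsRepOn.pb {ρ : A → P → P} {P₀ : Submodule ℂ P} (h : IsRepOn ρ P₀) {th : A' → A}
    (θ : A'ˣ →* Aˣ) (hθ : Continuous θ) (e : ∀ g : A'ˣ, th g = θ g) :
    IsRepOn (fun a => ρ (th a)) P₀ := by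
  have h1 : ∀ a, IsUnit a → IsUnit (th a) := fun _ ⟨g, hg⟩ => ⟨θ g, hg ▸ (e g).symm⟩
  refine ⟨fun a ha => h.mem _ (h1 a ha), fun a ha => h.add _ (h1 a ha),
    fun a ha => h.smul _ (h1 a ha), fun q hq => ?_, ?_, fun q hq =>
      ((h.cont q hq).comp hθ).congr fun g => congrArg (ρ · q) (e g).symm⟩
  · exact (congrArg (ρ · q) ((e 1).trans (congrArg _ θ.map_one))).trans (h.one q hq)
  · rintro _ _ ⟨g, rfl⟩ ⟨g', rfl⟩ q hq
    exact (congrArg (ρ · q) ((e (g * g')).trans (by rw [map_mul, e, e]; rfl))).trans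
      (h.mul _ _ (h1 _ g.isUnit) (h1 _ g'.isUnit) q hq)

theorem IsFam.pb {ρ : A → P → P} {P₀ : Submodule ℂ P} {B : W → Submodule ℂ P}
    (h : IsFam act ρ S P₀ B r) {th : A' → A} (hth : ∀ a, IsUnit a → IsUnit (th a)) {μ : W' → W}
    (hμ : ContinuousOn μ S') (hm : ∀ x ∈ S', μ x ∈ S)
    (he : ∀ x ∈ S', ∀ a, IsUnit a → μ (act' a x) = act (th a) (μ x)) :
    IsFam act' (fun a => ρ (th a)) S' P₀ (fun x => B (μ x)) r :=
  ⟨fun x hx => h.le _ (hm x hx), h.closed.preimage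
    (f := fun z : S' × P => ((⟨μ z.1, hm _ z.1.2⟩ : S), z.2))
    (((hμ.restrict.comp continuous_fst).subtype_mk _).prodMk continuous_snd),
    fun x hx => h.rank _ (hm x hx), fun x hx a ha q hq =>
      (congrArg B (he x hx a ha)).ge (h.inv _ (hm x hx) _ (hth a ha) q hq)⟩

theorem isFam_top {ρ : A → P → P} {P₀ : Submodule ℂ P} (h : IsRepOn ρ P₀)
    (hc : IsClosed (P₀ : Set P)) : IsFam act ρ S P₀ (fun _ => P₀) (Module.finrank ℂ P₀) :=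
  ⟨fun _ _ => le_rfl, hc.preimage continuous_snd, fun _ _ => rfl, fun _ _ a ha => h.mem a ha⟩

theorem isFam_bot [T1Space P] {ρ : A → P → P} {P₀ : Submodule ℂ P} (h : IsRepOn ρ P₀) :
    IsFam act ρ S P₀ (fun _ => ⊥) 0 :=
  ⟨fun _ _ => bot_le, isClosed_singleton.preimage continuous_snd, fun _ _ => finrank_bot _ _,
    fun _ _ a ha q (hq : q = 0) => show ρ a q = 0 by
      subst hq
      have := h.smul a ha 0 0 (zero_mem _)
      rwa [zero_smul, zero_smul] at this⟩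

namespace BD.Ok

variable {P₀ : Submodule ℂ P} {b n : ℕ} (h : D.Ok act S P₀ b n)
include h

theorem pb {th : A' → A} (θ : A'ˣ →* Aˣ) (hθ : Continuous θ) (e : ∀ g : A'ˣ, th g = θ g)
    {μ : W' → W} (hμ : ContinuousOn μ S') (hm : ∀ x ∈ S', μ x ∈ S)
    (he : ∀ x ∈ S', ∀ a, IsUnit a → μ (act' a x) = act (th a) (μ x)) :
    (D.pb th μ).Ok act' S' P₀ b n :=
  have h1 : ∀ a, IsUnit a → IsUnit (th a) := fun _ ⟨g, hg⟩ => ⟨θ g, hg ▸ (e g).symm⟩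
  ⟨h.fin, h.rep.pb θ hθ e, h.famB.pb h1 hμ hm he, h.famN.pb h1 hμ hm he, fun x hx => h.le _ (hm x hx)⟩

theorem mono {S₁ : Set W} (e : S₁ ⊆ S) : D.Ok act S₁ P₀ b n :=
  h.pb (th := id) (μ := id) (MonoidHom.id _) continuous_id (fun _ => rfl) continuousOn_id e
    fun _ _ _ _ => rfl

variable [IsTopologicalAddGroup P] [ContinuousSMul ℂ P] [T2Space P] [Holo.IsAct act S]
  (ho : Orb Aˣ (Holo.Sp act S))
include ho

theorem has : D.Has act S (b - n) := by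
  haveI := h.fin
  obtain ⟨E₀, E, ι, M, -, h1, h2, -⟩ := exists_isMod (presA ho) h.rep h.famB h.famN h.le
    (MonoidHom.id _) continuous_id fun _ => rfl
  exact ⟨_, _, E₀, E, ι, M, h2, h1⟩

/-- **the Whitney formula** for `N ⊆ C ⊆ B` -/
theorem ch_mul {C : W → Submodule ℂ P} {c : ℕ} (hC : IsFam act D.ρ S P₀ C c)
    (h1 : ∀ x ∈ S, D.N x ≤ C x) (h2 : ∀ x ∈ S, C x ≤ D.B x) :
    D.ch act S = (⟨D.ρ, C, D.N⟩ : BD A W P).ch act S * (⟨D.ρ, D.B, C⟩ : BD A W P).ch act S := by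
  haveI := h.fin
  obtain ⟨E, ι, e1, e2, -, e3⟩ := exists_rep (Y := spA ho) h.rep (MonoidHom.id _) continuous_id
  obtain ⟨E₁, M₁, -, m₁, x₁⟩ := exists_isMod_of_rep (presA ho) h.famB h.famN h.le E e1 e2 e3
  obtain ⟨E₂, M₂, -, m₂, x₂⟩ := exists_isMod_of_rep (presA ho) hC h.famN h1 E e1 e2 e3
  obtain ⟨E₃, M₃, -, m₃, x₃⟩ := exists_isMod_of_rep (presA ho) h.famB hC h2 E e1 e2 e3
  have e4 : E₁.chern = E₂.chern * E₃.chern := by
    refine ((h.famN.vb (presA ho) E e1 e2 e3).chern_mon.monic.isRegular.left ?_)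
    exact x₁.chern.symm.trans (x₃.chern.trans ((congrArg (· * _) x₂.chern).trans (mul_assoc _ _ _)))
  rw [m₁.ch_eq, IsMod.ch_eq (D := ⟨D.ρ, C, D.N⟩) m₂, IsMod.ch_eq (D := ⟨D.ρ, D.B, C⟩) m₃,
    ← Polynomial.coe_mul, ← reflect_mul _ _ (E₂.chern_mon.map _).le (E₃.chern_mon.map _).le,
    ← (E₁.chern_mon.map _).reverse_eq, e4, Polynomial.map_mul,
    ((E₂.chern_mon.map _).mul (E₃.chern_mon.map _)).reverse_eq]

end BD.Ok

end stmt

end Vale.Agent.P269.Ch
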