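import Vale.Agent.P269.Bas.Defs
import Vale.Agent.P269.Prj.Tgt
import Vale.Agent.P269.Vir.Adm
import Vale.Agent.P269.Map.SQ
import Vale.Agent.P269.Spl.Cyc

set_option linter.unusedSectionVars false
set_option linter.unusedVariables false
set_option linter.style.haveILetI false

/-!
# Evaluation maps; the classes of the factors
-/

namespace Vale.Agent.P269

open P291Z Set Function Topology Filter

variable {S Λ R J K ι ν κ : Type} [Fintype S] [Fintype Λ] [Fintype R] [Fintype J] [Fintype K]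
  [Fintype ι] [DecidableEq ι] [Fintype ν] [Fintype κ]

namespace Wt

variable (F : Wt S Λ R J)

section an

variable {P : Type} [NormedAddCommGroup P] [NormedSpace ℂ P] {q : P}

theorem an_act3 {t : P → (S → ℂ) × (R → ℂ) × (R → ℂ)} {z : P → (Λ → ℂ) × (J → ℂ) × (J → ℂ)}
    (ht : AnalyticAt ℂ t q) (hz : AnalyticAt ℂ z q) (h1 : IsUnit ((t q).1, (t q).2.1))
    (h2 : IsUnit ((t q).1, (t q).2.2)) : AnalyticAt ℂ (fun y => F.act3 (t y) (z y)) q :=
  have a := analyticAt_fst.comp ht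
  have b := analyticAt_snd.comp ht
  have c := analyticAt_fst.comp hz
  have d := analyticAt_snd.comp hz
  (F.an_actL a c (Prod.isUnit_iff.1 h1).1).prod
    ((analyticAt_snd.comp (F.an_actT (a.prod (analyticAt_fst.comp b))
      (c.prod (analyticAt_fst.comp d)) h1)).prod
     (analyticAt_snd.comp (F.an_actT (a.prod (analyticAt_snd.comp b))
      (c.prod (analyticAt_snd.comp d)) h2)))

end an

theorem act3_one (x : (Λ → ℂ) × (J → ℂ) × (J → ℂ)) : F.act3 1 x = x :=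
  Prod.ext (F.actL_one _) (Prod.ext (congrArg Prod.snd (F.actT_one (x.1, x.2.1)) :)
    (congrArg Prod.snd (F.actT_one (x.1, x.2.2)) :))

theorem act3_mul (a b : (S → ℂ) × (R → ℂ) × (R → ℂ)) (x : (Λ → ℂ) × (J → ℂ) × (J → ℂ)) :
    F.act3 (a * b) x = F.act3 a (F.act3 b x) :=
  Prod.ext (F.actL_mul _ _ _)
    (Prod.ext (congrArg Prod.snd (F.actT_mul (a.1, a.2.1) (b.1, b.2.1) (x.1, x.2.1)) :)
      (congrArg Prod.snd (F.actT_mul (a.1, a.2.2) (b.1, b.2.2) (x.1, x.2.2)) :))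

instance isAct2 : Holo.IsAct F.act2 univ :=
  ⟨fun x _ => F.act3_one x, fun a b _ _ x _ => F.act3_mul (a.1, a.2, a.2) (b.1, b.2, b.2) x,
    fun _ _ _ _ => trivial, fun a ha x _ =>
      have b : AnalyticAt ℂ (fun p : ((S → ℂ) × (R → ℂ)) × (Λ → ℂ) × (J → ℂ) × (J → ℂ) => p.1.2)
        (a, x) := analyticAt_snd.comp analyticAt_fst
      F.an_act3 ((analyticAt_fst.comp analyticAt_fst).prod (b.prod b)) analyticAt_snd ha ha⟩

omit [Fintype Λ] [Fintype J] F in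
theorem isUnit3 {t : (S → ℂ) × (R → ℂ) × (R → ℂ)} (h : IsUnit t) :
    IsUnit (t.1, t.2.1) ∧ IsUnit (t.1, t.2.2) :=
  let ⟨a, b⟩ := Prod.isUnit_iff.1 h
  ⟨Prod.isUnit_iff.2 ⟨a, (Prod.isUnit_iff.1 b).1⟩, Prod.isUnit_iff.2 ⟨a, (Prod.isUnit_iff.1 b).2⟩⟩

instance isAct3 : Holo.IsAct F.act3 univ :=
  ⟨fun x _ => F.act3_one x, fun a b _ _ x _ => F.act3_mul a b x, fun _ _ _ _ => trivial,
    fun _ ha _ _ => F.an_act3 analyticAt_fst analyticAt_snd (isUnit3 ha).1 (isUnit3 ha).2⟩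

end Wt

namespace Fam

variable {F : Fam S Λ R J K}

theorem Inv.ivt2 (h : F.Inv) : Ivt F.act2 F.cone2 := fun _ ha _ hz =>
  ⟨⟨h.cone_act ha hz.1.1, h.cone_act ha hz.1.2⟩, fun j hj => congrArg (_ * ·) (hz.2 j hj)⟩

theorem Inv.ivt3 (h : F.Inv) : Ivt F.act3 F.cone3 := fun _ ha _ hz =>
  ⟨h.cone_act (Wt.isUnit3 ha).1 hz.1, h.cone_act (Wt.isUnit3 ha).2 hz.2⟩

theorem Inv.mk_mem_Δ2 (h : F.Inv) {z : F.cone2} :
    (Quo.mk F.act2 z : F.X2) ∈ F.Δ2 ↔ z.1.2.1 = z.1.2.2 :=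
  haveI : Holo.IsAct F.act2 F.cone2 := F.isAct2.mono (subset_univ _) h.ivt2
  Quo.mem_part (act := F.act2) (B := {z | z.2.1 = z.2.2}) (fun a ha x hx =>
    ⟨h.ivt2 a ha x hx.1, congrArg (fun y => (F.actT a (x.1, y)).2) hx.2⟩) z

theorem Inv.isClosed_Δ2 (h : F.Inv) : IsClosed F.Δ2 :=
  (Holo.Sp.isQuotientMap_mk (act := F.act2) (S := F.cone2)).isClosed_preimage.1 (by
    rw [show Holo.Sp.mk ⁻¹' F.Δ2 = {z : Holo.Sp F.act2 F.cone2 | z.val.2.1 = z.val.2.2} from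
      Set.ext fun _ => h.mk_mem_Δ2]
    exact isClosed_eq Holo.Sp.continuous_val.snd.fst Holo.Sp.continuous_val.snd.snd)

variable {ch : Ch ι J} {Z : Set (ch.WF ν κ Λ)}

theorem cl_tw (Θ : MvPolynomial (J × ℕ) ℂ) : F.cl Z (.tw Θ) = (MvPolynomial.aeval
    (fun x : J × ℕ => PowerSeries.coeff x.2 (Ch.indC F.toWt Z x.1)) Θ).1 := Mono.DgI.hcls_rep _

theorem cl_tw_mem (Θ : MvPolynomial (J × ℕ) ℂ) : F.cl Z (.tw Θ) ∈ Ch.Hev _ :=
  mem_of_eq_of_mem (cl_tw Θ) (Subtype.prop _)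

theorem cl_tw_one : F.cl Z (.tw 1 : Fac F.toWt ν κ) = 1 := by
  rw [cl_tw, map_one]
  rfl

end Fam

namespace Ch

section alg

variable {X : Type} [TopologicalSpace X]

theorem Hev.aeval_deg {σ : Type} {w : σ → ℕ} {x : σ → Hev X} (hx : ∀ s, x s ∈ Hev.deg X (w s))
    {Θ : MvPolynomial σ ℂ} {a : ℕ} (h : Θ.IsWeightedHomogeneous w a) :
    MvPolynomial.aeval x Θ ∈ Hev.deg X a := by
  rw [MvPolynomial.aeval_def, MvPolynomial.eval₂_eq]
  refine sum_mem fun d hd => ?_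
  rw [← Algebra.smul_def, ← h (MvPolynomial.mem_support_iff.1 hd), Finsupp.weight_apply,
    Finsupp.sum, Nat.cast_sum]
  refine Submodule.smul_mem _ _ (Hev.prod_deg _ fun s _ => ?_)
  rw [smul_eq_mul, Nat.cast_mul]
  exact Hev.pow_deg (hx s) _

theorem Hev.coeff_mul_deg {a b : PowerSeries (Hev X)}
    (ha : ∀ m : ℕ, PowerSeries.coeff m a ∈ Hev.deg X m)
    (hb : ∀ m : ℕ, PowerSeries.coeff m b ∈ Hev.deg X m) (m : ℕ) :
    PowerSeries.coeff m (a * b) ∈ Hev.deg X m := by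
  rw [PowerSeries.coeff_mul]
  refine sum_mem fun p hp => ?_
  rw [← show p.1 + p.2 = m by simpa using hp, Nat.cast_add]
  exact Hev.mul_deg (ha _) (hb _)

theorem Hev.coeff_inv_deg {a : PowerSeries (Hev X)}
    (ha : ∀ m : ℕ, PowerSeries.coeff m a ∈ Hev.deg X m) (m : ℕ) :
    PowerSeries.coeff m (a.invOfUnit 1) ∈ Hev.deg X m := by
  induction m using Nat.strong_induction_on with
  | _ m ih =>
  rw [PowerSeries.coeff_invOfUnit, inv_one, Units.val_one]
  split_ifs with h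
  · subst h
    exact Hev.one_deg
  · rw [neg_one_mul]
    refine neg_mem (sum_mem fun p hp => ?_)
    split_ifs with e
    · have := Hev.mul_deg (ha p.1) (ih _ e)
      rwa [← Nat.cast_add, show p.1 + p.2 = m by simpa using hp] at this
    · exact zero_mem _

theorem map_invOfUnit {A B : Type} [CommRing A] [CommRing B] (φ : A →+* B) (a : PowerSeries A) :
    PowerSeries.map φ (a.invOfUnit 1) = (PowerSeries.map φ a).invOfUnit 1 := by
  ext k
  induction k using Nat.strong_induction_on with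
  | _ k ih =>
  rw [PowerSeries.coeff_map, PowerSeries.coeff_invOfUnit, PowerSeries.coeff_invOfUnit]
  split_ifs with h
  · simp
  · simp only [inv_one, Units.val_one, map_mul, map_neg, map_one, map_sum]
    refine congrArg _ (Finset.sum_congr rfl fun p _ => ?_)
    split_ifs with hp
    · rw [map_mul, ← ih p.2 hp, PowerSeries.coeff_map, PowerSeries.coeff_map]
    · exact map_zero _

end alg

/-- restriction of the classes of a bundle -/
theorem SD.Ok.res_incl {A W P : Type} [NormedRing A] [NormedAlgebra ℂ A] [NormedAddCommGroup W]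
    [NormedSpace ℂ W] [AddCommGroup P] [Module ℂ P] [TopologicalSpace P] [IsTopologicalAddGroup P]
    [ContinuousSMul ℂ P] [T2Space P] {act : A → W → W} {T T₀ : Set W} {E : SD A W P} {r r' : ℕ}
    [Holo.IsAct act T] [Holo.IsAct act T₀] (h : E.Ok act T r r') (ho : Orb.Orb Aˣ (Holo.Sp act T))
    (ho' : Orb.Orb Aˣ (Holo.Sp act T₀)) (e : T₀ ⊆ T) :
    hcls (E.eu act T₀) = H.map (EqM.incl (act := act) e).map (hcls (E.eu act T)) ∧
      E.ch act T₀ = PowerSeries.map (Hev.map (EqM.incl (act := act) e).map).toRingHom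
        (E.ch act T) := by
  rw [H.map_hcls _ (h.cocycle ho)]
  exact (h.mono e).pull ho' ho h (EqM.incl e) (L := fun _ => .id) ⟨fun _ _ => continuousOn_const,
    fun _ _ _ a => a, fun _ _ _ a => a, fun _ _ _ _ _ _ => mem_of_eq_of_mem (sub_self _) (zero_mem _)⟩
    (fun _ _ _ _ a => a) fun _ _ w a => ⟨w, a, mem_of_eq_of_mem (sub_self _) (zero_mem _)⟩

variable {ch : Ch ι J} {F : Fam S Λ R J K} {ℓ : R → ι → ℤ} {Z Z' : Set (ch.WF ν κ Λ)}

theorem hm_θv (ℓ : R → ι → ℤ) (n : Mk ν κ) : Tq.Hm (θv ℓ n : ch.AF ν κ S → _) :=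
  ⟨Prod.ext rfl (funext fun r => Finset.prod_eq_one fun i _ => one_zpow _),
    fun a b _ _ => Prod.ext rfl (funext fun r =>
      prod_zpow_mul ((dup a.2).2.2 n) ((dup b.2).2.2 n) (ℓ r)),
    fun a ha => continuousAt_fst.prodMk (continuousAt_pi.2 fun r =>
      (an_prod_zpow (t := fun s : ch.AF ν κ S => (dup s.2).2.2 n) (q := a)
        (analyticAt_pi_iff.1 (analyticAt_snd.comp (analyticAt_snd.comp analyticAt_snd)) _)
        ((Cv.isUnit_iff.1 (isUnit_dupF ha)).2.2 n) (ℓ r)).continuousAt)⟩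

namespace GZ

variable (h : GZ F ℓ Z)
include h

theorem ivt : Ivt (actF F.toWt) Z := h.act.mem

theorem nice : Nice (Quo (actF F.toWt) Z) :=
  haveI := h.act
  nice_of_orb h.orb

theorem mono (e : Z' ⊆ Z) (hi : Ivt (actF F.toWt) Z') (hl : IsLocallyClosed Z') : GZ F ℓ Z' :=
  haveI := h.act
  haveI := isActF_of hi
  ⟨⟨h.cuts, fun x hx => h.base x (e hx), this, orb_mono h.orb e hl⟩, h.inv, h.wt, e.trans h.sol,
    e.trans h.adm, fun n => (h.psi n).mono e, fun j => (h.fld j).imp fun _ a => a.mono e,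
    fun j => (h.kos j).imp fun _ a => a.imp fun _ a => a.mono e⟩

theorem eqh_vl (n : Mk ν κ) {A : Set _} (hA : ∀ x ∈ Z, vl x n ∈ A) :
    Tq.Eqh (actF F.toWt) F.actT Z A (θv ℓ n) (vl · n) :=
  ⟨hm_θv ℓ n, hA, (continuousOn_vl n).mono h.sol, fun _ ha _ hx => vl_actF h.wt ha (h.sol hx) n⟩

theorem eqh_par {A : Set _} (hA : ∀ x ∈ Z, x.1 ∈ A) :
    Tq.Eqh (actF F.toWt) F.actL Z A Prod.fst Prod.fst :=
  ⟨⟨rfl, fun _ _ _ _ => rfl, fun _ _ => continuousAt_fst⟩, hA, continuousOn_fst,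
    fun _ _ _ _ => rfl⟩

theorem continuousOn_vl2 (n n' : Mk ν κ) : ContinuousOn (vl2 · n n') Z :=
  continuousOn_fst.prodMk (((continuousOn_vl n).mono h.sol).snd.prodMk
    ((continuousOn_vl n').mono h.sol).snd)

theorem eqh_nd (q : κ) : Tq.Eqh (actF F.toWt) F.act2 Z F.cone2 (θv ℓ (.inr (q, false)))
    (vl2 · (.inr (q, false)) (.inr (q, true))) :=
  ⟨hm_θv ℓ _, fun _ hx => ⟨⟨vl_mem (h.sol hx) _, vl_mem (h.sol hx) _⟩,
    fun j hj => (h.adm hx).2.2.2.2 j hj q⟩, h.continuousOn_vl2 _ _, fun _ ha _ hx =>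
      Prod.ext rfl (Prod.ext (congrArg Prod.snd (vl_actF h.wt ha (h.sol hx) (.inr (q, false))) :)
        (congrArg Prod.snd (vl_actF h.wt ha (h.sol hx) (.inr (q, true))) :))⟩

theorem eqh_vl2 (n n' : Mk ν κ) : Tq.Eqh (actF F.toWt) F.act3 Z F.cone3
    (fun s => (s.1, (θv ℓ n s).2, (θv ℓ n' s).2)) (vl2 · n n') :=
  have a := hm_θv (ch := ch) (S := S) ℓ n
  have b := hm_θv (ch := ch) (S := S) ℓ n'
  ⟨⟨Prod.ext rfl (Prod.ext (congrArg Prod.snd a.one :) (congrArg Prod.snd b.one :)),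
      fun s t hs ht => Prod.ext rfl (Prod.ext (congrArg Prod.snd (a.mul s t hs ht) :)
        (congrArg Prod.snd (b.mul s t hs ht) :)),
      fun s hs => continuousAt_fst.prodMk ((a.cont s hs).snd.prodMk (b.cont s hs).snd)⟩,
    fun _ hx => ⟨vl_mem (h.sol hx) _, vl_mem (h.sol hx) _⟩, h.continuousOn_vl2 _ _,
    fun _ ha _ hx => Prod.ext rfl (Prod.ext (congrArg Prod.snd (vl_actF h.wt ha (h.sol hx) n) :)
      (congrArg Prod.snd (vl_actF h.wt ha (h.sol hx) n') :))⟩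

theorem evF_eq (n : Mk ν κ) {A : Set _} (hA : ∀ x ∈ Z, vl x n ∈ A) (a : Coch (F.X A)) :
    evF n A a = pull (h.eqh_vl n hA).toEqv.qm a :=
  (dif_pos fun z => hA _ (Quo.out z).2).trans
    (congrArg (pull · a) (funext (h.eqh_vl n hA).toEqv.qm_out))

theorem parF_eq {A : Set _} (hA : ∀ x ∈ Z, x.1 ∈ A) (a : Coch (F.Bs A)) :
    parF A a = pull (h.eqh_par hA).toEqv.qm a :=
  (dif_pos fun z => hA _ (Quo.out z).2).trans
    (congrArg (pull · a) (funext (h.eqh_par hA).toEqv.qm_out))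

theorem evN_eq (q : κ) (a : Coch F.X2) : evN q F.cone2 a = pull (h.eqh_nd q).toEqv.qm a :=
  (dif_pos fun z => (h.eqh_nd q).maps (Quo.out z).2).trans
    (congrArg (pull · a) (funext (h.eqh_nd q).toEqv.qm_out))

theorem evT_eq (n n' : Mk ν κ) (a : Coch F.X3) :
    evT n n' F.cone3 a = pull (h.eqh_vl2 n n').toEqv.qm a :=
  (dif_pos fun z => (h.eqh_vl2 n n').maps (Quo.out z).2).trans
    (congrArg (pull · a) (funext (h.eqh_vl2 n n').toEqv.qm_out))

theorem cl_ev (n : Mk ν κ) {A : Set _} (hA : ∀ x ∈ Z, vl x n ∈ A) (c : H (F.X A)) :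
    F.cl Z (.ev n A c) = H.map (h.eqh_vl n hA).toEqv.qm c :=
  (congrArg hcls (h.evF_eq n hA _)).trans ((H.map_hcls _ (Mono.DgI.rep_cocycle c)).symm.trans
    (congrArg _ (Mono.DgI.hcls_rep c)))

theorem cl_par {A : Set _} (hA : ∀ x ∈ Z, x.1 ∈ A) (c : H (F.Bs A)) :
    F.cl Z (.par A c : Fac F.toWt ν κ) = H.map (h.eqh_par hA).toEqv.qm c :=
  (congrArg hcls (h.parF_eq hA _)).trans ((H.map_hcls _ (Mono.DgI.rep_cocycle c)).symm.trans
    (congrArg _ (Mono.DgI.hcls_rep c)))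

theorem cl_psi (n : Mk ν κ) :
    F.cl Z (.psi n) = -hcls ((ch.sdψ S Λ n).eu (actF F.toWt) Z) :=
  haveI := h.act
  (hcls_neg ((h.psi n).cocycle h.orb) :)

theorem psi_deg (n : Mk ν κ) : IsDeg 2 (F.coch Z (.psi n)) := by
  haveI := h.act
  have := ((h.psi n).deg h.orb).neg
  rwa [Nat.add_sub_cancel_left, Nat.cast_one, mul_one] at this

theorem cl_psi_mem (n : Mk ν κ) : F.cl Z (.psi n) ∈ Hev _ :=
  mem_Hev (k := 1) (hcls_isDeg (h.psi_deg n))

theorem cocycle_psi (n : Mk ν κ) : supp (δ (F.coch Z (.psi n))) = ∅ :=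
  haveI := h.act
  (cocycle_neg ((h.psi n).cocycle h.orb) :)

theorem cocycle_dg (hd : F.IsDiag F.diag) (q : κ) : supp (δ (F.coch Z (.dg q))) = ∅ :=
  (congrArg (fun a => supp (δ a)) (h.evN_eq q _)).trans
    (cocycle_pull (h.eqh_nd q).toEqv.qm.continuous hd.1)

omit h in
theorem cocycle_tw (Θ : MvPolynomial (J × ℕ) ℂ) : supp (δ (F.coch Z (.tw Θ))) = ∅ :=
  Mono.DgI.rep_cocycle _

/-- all factors are cocycles -/
theorem cocycle (hd : F.IsDiag F.diag) {f : Fac F.toWt ν κ} (hf : f.At Z) :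
    supp (δ (F.coch Z f)) = ∅ := by
  cases f with
  | psi n => exact h.cocycle_psi n
  | ev n A c =>
    exact (congrArg (fun a => supp (δ a)) (h.evF_eq n hf _)).trans
      (cocycle_pull (h.eqh_vl n hf).toEqv.qm.continuous (Mono.DgI.rep_cocycle c))
  | par A c =>
    exact (congrArg (fun a => supp (δ a)) (h.parF_eq hf _)).trans
      (cocycle_pull (h.eqh_par hf).toEqv.qm.continuous (Mono.DgI.rep_cocycle c))
  | dg q => exact h.cocycle_dg hd q
  | tw Θ => exact cocycle_tw Θ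

theorem diq_eq (q : κ) : diq F.toWt Z q = (h.eqh_nd q).toEqv.qm ⁻¹' F.Δ2 := Set.ext fun z => by
  rw [mem_preimage, ← (h.eqh_nd q).toEqv.qm_out, h.inv.mk_mem_Δ2]
  exact ⟨fun e => congrArg Prod.snd e, fun e => Prod.ext rfl e⟩

theorem mk_mem_diq {q : κ} {x : Z} : Quo.mk _ x ∈ diq F.toWt Z q ↔
    vl x.1 (.inr (q, false)) = vl x.1 (.inr (q, true)) := by
  rw [h.diq_eq, mem_preimage, Tq.Eqv.qm_mk, h.inv.mk_mem_Δ2]
  exact ⟨fun e => Prod.ext rfl e, fun e => congrArg Prod.snd e⟩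

theorem isClosed_diq (q : κ) : IsClosed (diq F.toWt Z q) :=
  h.diq_eq q ▸ h.inv.isClosed_Δ2.preimage (h.eqh_nd q).toEqv.qm.continuous

omit h in
theorem dia_eq : dia F.toWt Z = ⋂ q, diq F.toWt Z q := Set.ext fun _ => by
  rw [mem_iInter]
  rfl

theorem isClosed_dia : IsClosed (dia F.toWt Z) := by
  rw [dia_eq]
  exact isClosed_iInter h.isClosed_diq

theorem supp_dg (hd : F.IsDiag F.diag) (q : κ) :
    supp (F.coch Z (.dg q)) ⊆ diq F.toWt Z q := by
  rw [h.diq_eq, show F.coch Z (.dg q) = _ from h.evN_eq q _]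
  exact (supp_pull (h.eqh_nd q).toEqv.qm.continuous _).trans (preimage_mono hd.2.1)

theorem dg_deg {m : ℤ} (hr : IsDeg m F.diag) (q : κ) : IsDeg m (F.coch Z (.dg q)) := by
  rw [show F.coch Z (.dg q) = _ from h.evN_eq q _]
  exact hr.pull _

theorem indC_deg (j : J) (m : ℕ) : PowerSeries.coeff m (indC F.toWt Z j) ∈ Hev.deg _ m :=
  haveI := h.act
  let ⟨_, a⟩ := h.fld j
  let ⟨_, _, b⟩ := h.kos j
  Hev.coeff_mul_deg (a.coeff_deg h.orb) (Hev.coeff_inv_deg (b.coeff_deg h.orb)) m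

theorem cl_deg (hd : F.IsDiag F.diag) {r m : ℤ} (hr : IsDeg (2 * r) F.diag) {f : Fac F.toWt ν κ}
    (ha : f.At Z) (hf : f.Deg r m) : H.IsDeg m (F.cl Z f) := by
  cases f with
  | psi n =>
    obtain rfl : m = 2 := hf
    exact hcls_isDeg (h.psi_deg n)
  | ev n A c =>
    rw [h.cl_ev n ha c]
    exact H.IsDeg.map hf _
  | par A c =>
    rw [h.cl_par ha c]
    exact H.IsDeg.map hf _
  | dg q =>
    obtain rfl : m = 2 * r := hf
    exact hcls_isDeg (h.dg_deg hr q)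
  | tw Θ =>
    obtain ⟨a, rfl, b⟩ := hf
    rw [Fam.cl_tw]
    exact Hev.mem_deg.1 (Hev.aeval_deg (w := Prod.snd) (fun x => h.indC_deg x.1 x.2) b)

/-- restriction of the diagonal cocycles -/
theorem coch_dg_incl (h' : GZ F ℓ Z') (e : Z' ⊆ Z) (q : κ) :
    F.coch Z' (.dg q) = pull (Quo.incl _ e) (F.coch Z (.dg q)) := by
  rw [show F.coch Z (.dg q) = _ from h.evN_eq q _, show F.coch Z' (.dg q) = _ from h'.evN_eq q _,
    pull_pull]
  exact congrArg (pull · _) (funext fun z => Quot.inductionOn z fun _ => rfl)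

theorem indC_incl (h' : GZ F ℓ Z') (e : Z' ⊆ Z) (j : J) : indC F.toWt Z' j = PowerSeries.map
    (Hev.map (EqM.incl (act := actF F.toWt) e).map).toRingHom (indC F.toWt Z j) := by
  haveI := h.act
  haveI := h'.act
  obtain ⟨_, a⟩ := h.fld j
  obtain ⟨_, _, b⟩ := h.kos j
  rw [indC_eq, indC_eq, (a.res_incl h.orb h'.orb e).2, (b.res_incl h.orb h'.orb e).2, map_mul,
    map_invOfUnit]

/-- restriction of the classes -/
theorem cl_incl (hd : F.IsDiag F.diag) (h' : GZ F ℓ Z') (e : Z' ⊆ Z) {f : Fac F.toWt ν κ}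
    (hf : f.At Z) : F.cl Z' f = H.map (EqM.incl (act := actF F.toWt) e).map (F.cl Z f) := by
  haveI := h.act
  haveI := h'.act
  cases f with
  | psi n => rw [h.cl_psi, h'.cl_psi, map_neg, ((h.psi n).res_incl h.orb h'.orb e).1]
  | ev n A c =>
    rw [h.cl_ev n hf, h'.cl_ev n fun x hx => hf x (e hx), H.map_map]
    exact congrArg (H.map · c) (ContinuousMap.ext fun z => Quot.inductionOn z fun _ => rfl)
  | par A c =>
    rw [h.cl_par hf, h'.cl_par fun x hx => hf x (e hx), H.map_map]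
    exact congrArg (H.map · c) (ContinuousMap.ext fun z => Quot.inductionOn z fun _ => rfl)
  | dg q =>
    exact (congrArg hcls (h.coch_dg_incl h' e q)).trans (H.map_hcls
      (EqM.incl (act := actF F.toWt) e).map (h.cocycle_dg hd q)).symm
  | tw Θ =>
    rw [Fam.cl_tw, Fam.cl_tw, ← Hev.coe_map, MvPolynomial.comp_aeval_apply]
    simp only [h.indC_incl h' e, PowerSeries.coeff_map]
    rfl

end GZ

/-- On the main stratum the fields vanish at the points of contact. -/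
theorem fld_eq_zero_of_main {u : ν → J → ℕ} {x : ch.WF ν κ Λ} (hx : x ∈ ch.main κ F u) {n : ν}
    {j : J} (hj : j ∉ F.mov) (hu : u n j ≠ 0) : fld x.2 (x.2.p (.inl n)) j = 0 := by
  classical
  have a := hx.1.1.2.1
  by_cases hz : j ∈ F.zer
  · exact fld_of_zero (p_mem_crv a _) (hx.1.2.2.2.1 j hz)
  obtain ⟨X, _, _, _, Q, N, A, π, v, p, ξ, c⟩ := Cv.exists_cr a
  obtain ⟨γ, b, d⟩ := c.exists_branch (.inl n)
  rw [← d]
  refine apply_eq_zero_of_analyticOrderAt_ne_zero (f := fun t => fld x.2 (γ t) j) ?_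
  rw [hx.2 j hj hz γ b, Nat.cast_ne_zero]
  refine fun e => hu ?_
  have := (Finset.sum_eq_zero_iff.1 e) n (Finset.mem_univ n)
  rwa [if_pos ⟨1, by rw [d, one_smul]⟩] at this

/-- On the closure of the main stratum the fields vanish at the points of contact. -/
theorem Cuts.fld_eq_zero (hc : ch.Cuts) (hF : F.Inv) {u : ν → J → ℕ} {x : ch.WF ν κ Λ}
    (hx : x ∈ ch.cyc κ F u) {n : ν} {j : J} (hj : j ∉ F.mov) (hu : u n j ≠ 0) :
    (vl x (.inl n)).2 j = 0 := by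
  obtain ⟨U, a, b⟩ := mem_closure_iff_ultrafilter.1 hx.1
  have c : ∀ᶠ y in U, y ∈ ch.main κ F u := a
  have d : Tendsto id U.toFilter (𝓝 x) := tendsto_id.mono_right b
  exact tendsto_nhds_unique_of_eventuallyEq (lim_fld (x := id) hx.2.2.1.1 d
    (((W.pL (ch := ch) (Sum.inl n : Mk ν κ)).continuous.tendsto _).comp d.snd_nhds) (p_mem_crv hx.2.2.1 _)
    (c.mono fun _ e => ⟨p_mem_crv e.1.1.2.1 _, e.1.2.1 j hj _ (p_mem_crv e.1.1.2.1 _)⟩)).2
    tendsto_const_nhds (c.mono fun _ e => fld_eq_zero_of_main e hj hu)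

theorem Cuts.at_of_ok (hc : ch.Cuts) (hF : F.Inv) {δ : J → ℕ} (hδ : ∀ j ∈ F.mov, δ j = 0)
    {u : ν → ℕ} {f : Fac F.toWt ν κ} (hf : f.Ok F fun n => u n • δ) :
    f.At (ch.solF ν κ F ∩ ch.cyc κ F fun n => u n • δ) := by
  cases f with
  | ev n A c =>
    refine fun x hx => hf ⟨vl_mem hx.1 n, ?_⟩
    rintro n rfl j hj
    exact hc.fld_eq_zero hF hx.2 (fun a => hj (by simp [hδ j a])) hj
  | par A c => exact fun x hx => hf hx.1.1.1
  | _ => trivial

end Ch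

namespace Fam

variable [DecidableEq R] {F : Fam S Λ R J K} {k D : ℕ} {g : ℤ} {d : R → ℤ}

/-- compact sets of parameters have compact sets of representatives -/
theorem Good.exists_cp' (h : F.Good) {C : Set (F.Bs F.B)} (hC : IsCompact C) :
    ∃ T ⊆ F.B, IsCompact T ∧ ∀ l : F.B, Quo.mk F.actL l ∈ C →
      ∃ τ, IsUnit τ ∧ F.actL τ l ∈ T := by
  haveI := h.fpB
  haveI := h.fpB.lc
  obtain ⟨L, h1, h2⟩ := exists_isCompact_lift
    (Holo.Sp.isOpenQuotientMap_mk (act := F.actL) (S := F.B)) hC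
  refine ⟨Holo.Sp.val '' L, by rintro _ ⟨x, -, rfl⟩; exact x.val_mem,
    h1.image Holo.Sp.continuous_val, fun l hl => ?_⟩
  obtain ⟨l', h3, h4⟩ := h2 hl
  obtain ⟨t, rfl⟩ := Holo.Sp.mk_eq_iff.1 h4.symm
  exact ⟨t, t.isUnit, _, h3, rfl⟩

/-- a compact parameter space has a compact set of representatives -/
theorem Good.exists_cp (h : F.Good) (hc : F.Cp) :
    ∃ T ⊆ F.B, IsCompact T ∧ ∀ l ∈ F.B, ∃ τ, IsUnit τ ∧ F.actL τ l ∈ T :=
  let ⟨T, a, b, c⟩ := h.exists_cp' isCompact_univ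
  ⟨T, a, b, fun l hl => c ⟨l, hl⟩ trivial⟩

theorem Good.isCompact_dia (h : F.Good) (hc : F.Cp) (hk : F.Big k) (hD : F.BigD k D)
    (u : ν → J → ℕ) : IsCompact (Ch.dia F.toWt (F.Zs κ k D g d u)) := by
  obtain ⟨T, a, b, c⟩ := h.exists_cp hc
  rw [show Ch.dia F.toWt (F.Zs κ k D g d u) = _ from
    Set.ext fun z => (and_iff_right (c _ (Quo.out z).2.1.1.1)).symm]
  exact Cpt.isCompact_mod h hk hD rfl b a u

/-- the diagonal locus is proper over the parameter space -/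
theorem Good.isCompact_dia' (h : F.Good) (hk : F.Big k) (hD : F.BigD k D) (u : ν → J → ℕ)
    (hz : Ch.GZ F ℓs (F.Zs κ k D g d u)) {C : Set (F.Bs F.B)} (hC : IsCompact C) :
    IsCompact (Ch.dia F.toWt (F.Zs κ k D g d u) ∩
      (hz.eqh_par fun _ hx => hx.1.1.1).toEqv.qm ⁻¹' C) := by
  haveI := h.fpB
  obtain ⟨T, a, b, c⟩ := h.exists_cp' hC
  refine (Cpt.isCompact_mod h hk hD rfl b a u).of_isClosed_subset
    (hz.isClosed_dia.inter (hC.isClosed.preimage (ContinuousMap.continuous _))) fun z e => ⟨?_, e.1⟩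
  exact c ⟨_, (Quo.out z).2.1.1.1⟩ (mem_of_eq_of_mem
    ((hz.eqh_par fun _ hx => hx.1.1.1).toEqv.qm_out z) e.2)

end Fam

end Vale.Agent.P269
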