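import Vale.Agent.P269.Gen.Num
import Vale.Agent.P269.Pt.Sel
import Vale.Agent.P269.Pt.LC
import Vale.Agent.P269.Pt.Bnd

/-!
# Selectors and the support of the invariants
-/

set_option linter.unusedSectionVars false

namespace Vale.Agent.P269

open P291Z Set Function Topology Filter Cv

variable {S Λ R J K ν κ : Type} [Fintype S] [Fintype Λ] [Fintype R] [Fintype J] [Fintype K]
  [Fintype ν] [Fintype κ]

theorem ind_empty {Y : Type} : ind (∅ : Set Y) = 0 :=
  Subtype.ext (funext fun _ => if_neg fun ⟨_, h, _⟩ => h)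

theorem ev_zero_right {Y : Type} [TopologicalSpace Y] (β : BM Y) : ev β 0 = 0 := by
  rw [ev_eq, cls_zero, map_zero]

/-- the contact orders add up to the degree -/
theorem AM.Main.deg_eq {F : Fam S Λ R J K} {m : AM Λ R J ν κ} {u : ν → J → ℕ} (h : m.Main F u)
    {j : J} (hj : j ∉ F.mov) (hz : j ∉ F.zer) (hs : m.y j ∈ (bz m.L (F.w j)).Γ) :
    deg (bz m.L (F.w j)) = ∑ n, (u n j : ℕ) := by
  classical
  obtain ⟨a, b⟩ := h.2 j hj hz
  have g : Gen (m.y j) = univ := eq_univ_of_forall fun x => by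
    by_cases e : ∃ n, x = m.p (.inl n)
    · obtain ⟨n, rfl⟩ := e
      exact (hs _).ord_ne_top.1 (a n ▸ ENat.natCast_ne_top _)
    · exact (hs x).mem_gen (b x fun n c => e ⟨n, c⟩)
  rw [deg_eq_sum hs g (Z := Finset.univ.image fun n => m.p (.inl n))
    fun y hy => b y fun n c => hy (Finset.mem_image.2 ⟨n, Finset.mem_univ _, c.symm⟩),
    Finset.sum_image fun _ _ _ _ e => Sum.inl_injective (m.inj e)]
  simp only [a, ENat.toNat_natCast]

namespace Fam

variable {F : Fam S Λ R J K} [DecidableEq R] {k D : ℕ} {g : ℤ} {d : R → ℤ} {u : ν → J → ℕ}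
  {P : AM Λ R J ν κ → Prop} {fs : List (Fac F.toWt ν κ)}

theorem inv_eq_of_eventually {z : ℂ}
    (h : ∀ᶠ D in atTop, F.intg (F.vir κ k D g d u) P fs = z) : F.inv k g d u P fs = z := by
  have a := Classical.epsilon_spec
    (p := fun z => ∀ᶠ D in atTop, z = F.intg (F.vir κ k D g d u) P fs) ⟨z, h.mono fun _ => Eq.symm⟩
  obtain ⟨_, b, c⟩ := (a.and h).exists
  exact b.trans c

variable (F) in
theorem cor_eq (k : ℕ) (e : F.Ex) (δ : J → ℕ) (A A' : Set ((Λ → ℂ) × (J → ℂ))) (d : R → ℤ) (j : ℤ)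
    (l₁ : List (ℕ × H (F.X A))) (l₂ : List (ℕ × ℕ)) (l₃ : List (ℕ × H (F.X A'))) :
    F.cor k e δ A A' d j l₁ l₂ l₃ =
      F.inv (ν := Fin l₁.length ⊕ Fin l₃.length) (κ := Fin l₂.length) k (j + 1 - l₂.length) d
        (fun n => (Sum.elim 0 (fun s => (l₃.get s).1 + 1) n : ℕ) • δ) (e.P _ _)
        (.tw e.Θ :: .par e.B e.c :: (F.fsD A l₁ fun i => .inl (.inl i)) ++ F.fsN l₂ ++
          List.ofFn fun s => .ev (.inl (.inr s)) A' (l₃.get s).2) := by
  have : (Sum.elim 0 fun s => ((l₃.get s).1 + 1) • δ : Fin l₁.length ⊕ Fin l₃.length → J → ℕ) =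
      fun n => (Sum.elim 0 (fun s => (l₃.get s).1 + 1) n : ℕ) • δ :=
    funext fun n => by rcases n with n | n; exacts [(zero_smul ℕ δ).symm, rfl]
  rw [cor, this]

theorem intg_of_empty {v : BM (F.Mod κ k D g d u)}
    (h : (F.sel P : Set (F.Mod κ k D g d u)) = ∅) : F.intg v P fs = 0 := by
  rw [intg, h, ind_empty, zero_mul, ev_zero_right]

theorem inv_eq_zero (h : ∀ D, F.BigD k D → (F.sel P : Set (F.Mod κ k D g d u)) = ∅) :
    F.inv k g d u P fs = 0 :=
  inv_eq_of_eventually ((F.eventually_bigD k).mono fun D a => intg_of_empty (h D a))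

/-- a point of the selected part gives a stable solution -/
theorem exists_of_mem_sel (hF : F.Inv) (hD : F.BigD k D) {y : F.Mod κ k D g d u}
    (h : y ∈ F.sel P) : ∃ m, m.Sol F ∧ m.Stable F.θ ∧ m.Typ g d ∧ P m :=
  let ⟨m, a, b⟩ := h
  have c := (Quo.out y).2.1
  ⟨m, (a.mem_solF c.1.2.1 hF chart_wd').1 c, rep_stable hD a c.1.2.1, rep_typ a c.1.2.1, b⟩

/-- a point of the main stratum forces the degree condition -/
theorem deg_of_mem_main (hD : F.BigD k D) {x : (F.sch ν κ k D g d).WF ν κ Λ}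
    (h : x ∈ (F.sch ν κ k D g d).main κ F u) {j : J} (hj : j ∉ F.mov) (hz : j ∉ F.zer) :
    ∑ r, F.w j r * d r = ∑ n, (u n j : ℕ) := by
  obtain ⟨m, a⟩ := (chart_lat hD).exists_rep_adm h.1
  rw [← (rep_typ a h.1.1.2.1).deg_bz]
  exact ((a.mem_main chart_wd' Subset.rfl h.1).1 h).deg_eq hj hz
    (a.sec h.1.1.2.1 (W := F.toWt) chart_wd' hj).1

theorem deg_of_mod (hD : F.BigD k D) (y : F.Mod κ k D g d u) {j : J} (hj : j ∉ F.mov)
    (hz : j ∉ F.zer) : ∑ r, F.w j r * d r = ∑ n, (u n j : ℕ) :=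
  let ⟨_, a⟩ := closure_nonempty_iff.1 ⟨_, (Quo.out y).2.2.1⟩
  deg_of_mem_main hD a hj hz

theorem exists_of_inv_ne (h : F.inv k g d u P fs ≠ 0) :
    ∃ D, F.BigD k D ∧ ∃ y : F.Mod κ k D g d u, y ∈ F.sel P :=
  by_contra fun a => h (inv_eq_zero fun D b => eq_empty_of_forall_notMem fun y c => a ⟨D, b, y, c⟩)

theorem isClopen_sel_of_same (hD : F.BigD k D)
    (h : ∀ m m' : AM Λ R J ν κ, m.Same m' → P m → P m') :
    IsClopen (F.sel P : Set (F.Mod κ k D g d u)) :=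
  Ch.isClopen_selQ (chart_lat hD) inter_subset_left (fun _ _ e => h _ _ e.same) fun _ b _ c =>
    ((c.eventually_same (A' := univ) (chart_cuts hD) b.1.1.2.1).filter_mono
      nhdsWithin_le_nhds).mp (eventually_mem_nhdsWithin.mono fun _ e f _ r =>
        have s := f e.1.1.2.1 _ r
        ⟨h _ _ s, h _ _ s.symm⟩)

/-- A property that only depends on the numerical types of the components is a selector. -/
theorem Sel.of_same (h : ∀ m m' : AM Λ R J ν κ, m.Same m' → P m → P m') : F.Sel k g d u P :=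
  ⟨fun _ _ e => h _ _ e.same, (F.eventually_bigD k).mono fun _ a => isClopen_sel_of_same a h⟩

theorem Sel.conn : F.Sel k g d u fun m : AM Λ R J ν κ => m.Conn :=
  .of_same fun _ _ => AM.Same.conn

end Fam

theorem St.selC : St.SelC := fun _ _ _ _ _ _ _ hB hc =>
  ⟨⟨fun _ _ _ _ _ _ _ => .top, fun _ _ _ _ _ _ _ => Iff.rfl, hB, hc⟩,
    ⟨fun _ _ _ _ _ _ _ => .conn, fun _ _ _ _ _ _ _ => Iff.rfl, hB, hc⟩⟩

theorem St.supp : St.Supp := fun _ _ _ _ _ _ _ _ hF _ h =>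
  let ⟨_, a, y, b⟩ := Fam.exists_of_inv_ne h
  ⟨Fam.exists_of_mem_sel hF.toInv a b, fun _ c e => Fam.deg_of_mod a y c e⟩

end Vale.Agent.P269
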