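import Vale.Agent.P269.Bas.NF
import Vale.Agent.P269.Bas.Supp
import Vale.Agent.P269.Vir.Std
import Vale.Agent.P269.Vir.Ind
import Vale.Agent.P269.Map.Psi
import Vale.Agent.P269.Map.Gy

/-!
# The moduli spaces in the standard charts; the normal form of the invariants
-/

set_option linter.unusedSectionVars false

namespace Vale.Agent.P269

open P291Z Set Function Topology Filter

variable {S Λ R J K ι ν κ : Type} [Fintype S] [Fintype Λ] [Fintype R] [Fintype J] [Fintype K]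
  [Fintype ι] [DecidableEq ι] [Fintype ν] [Fintype κ]

namespace Ch

variable {ch : Ch ι J} {F : Fam S Λ R J K} {e : K → ι → ℕ} {K₀ : Set K} {ℓ : R → ι → ℤ}
  {S₀ O M Z : Set (ch.WF ν κ Λ)} {d : ℕ}

theorem Std.gz (hs : ch.Std F e K₀ ℓ) (h1 : Z ⊆ ch.solF ν κ F) (h2 : Z ⊆ ch.adm ν κ F)
    [Holo.IsAct (actF F.toWt) Z] (ho : Orb.Orb (ch.AF ν κ S)ˣ (Holo.Sp (actF F.toWt) Z)) :
    GZ F ℓ Z :=
  have b : ∀ x ∈ Z, x.2 ∈ ch.base _ := fun _ hx => (h1 hx).1.2.1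
  ⟨⟨hs.cuts, b, inferInstance, ho⟩, hs.inv, hs.wt, h1, h2, hs.cuts.okψ b,
    fun j => ⟨_, okX Z j⟩, fun j => ⟨_, _, hs.cuts.okK b j⟩⟩

theorem Std.gd (hs : ch.Std F e K₀ ℓ) (hA : S₀ ⊆ ch.adm ν κ F) (h : Dom F e S₀ O) :
    ∃ n, (ch.kd ν κ F e).Gd (actF F.toWt) (ch.solF ν κ F ∩ S₀) O n (ch.rk F ℓ K₀).toNat :=
  hs.ok.imp fun _ a => ⟨h.self, a.mono (Dom.subset_dom hA h)⟩

namespace Vd

variable (h : Vd F e S₀ O M d) (hs : ch.Std F e K₀ ℓ)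
include h hs

theorem gd : ∃ n, (ch.kd ν κ F e).Gd (actF F.toWt) (ch.solF ν κ F ∩ S₀) O n (ch.rk F ℓ K₀).toNat :=
  hs.gd h.adm h.dom

theorem gz : GZ F ℓ (ch.solF ν κ F ∩ S₀) :=
  let ⟨_, a⟩ := h.gd hs
  haveI := a.isActZ
  hs.gz inter_subset_left (inter_subset_right.trans h.adm) a.orbZ

theorem virF_vr :
    virF F e S₀ = (ch.kd ν κ F e).vr (actF F.toWt) (ch.solF ν κ F ∩ S₀) O (h.dom.fnd d) := by
  obtain ⟨k, i, a, -⟩ := h.exists_isKP hs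
  rw [h.virF_eq a, h.dom.vr_eq a]
  rfl

end Vd

end Ch

namespace Fam

variable [DecidableEq R] {F : Fam S Λ R J K} {δ : J → ℕ} {k D : ℕ} {g : ℤ} {d : R → ℤ} {u : ν → ℕ}
  {P : AM Λ R J ν κ → Prop} {fs : List (Fac F.toWt ν κ)}

variable (κ) in
theorem Nice.gz (h : F.Nice δ) (hk : F.Big k) (hD : F.BigD k D) (g : ℤ) (d : R → ℤ) (u : ν → ℕ) :
    Ch.GZ F ℓs (F.Zs κ k D g d fun n => u n • δ) :=
  let ⟨_, _, _, _, a⟩ := h.vd' κ hk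
  let ⟨_, _, b, c⟩ := a D hD g d u
  c.gz b.toStd

theorem Nice.mv (h : F.Nice δ) : ∀ j ∈ F.mov, δ j = 0 := let ⟨_, _, _, _, s⟩ := h.sh; s.mv

theorem Nice.at_of_ok (h : F.Nice δ) (hk : F.Big k) (hD : F.BigD k D) {f : Fac F.toWt ν κ}
    (hf : f.Ok F fun n => u n • δ) : f.At (F.Zs κ k D g d fun n => u n • δ) :=
  (h.gz κ hk hD g d u).cuts.at_of_ok h.toInv h.mv hf

theorem Nice.dg (hd : St.Dg) (h : F.Nice δ) : F.IsDiag F.diag ∧ (∃ r : ℤ, IsDeg (2 * r) F.diag) ∧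
    ∀ t t', F.IsDiag t → F.IsDiag t' → Cohom F.Δ2 t t' :=
  let ⟨K₀, a⟩ := h.reg
  let ⟨b, c, e⟩ := hd F K₀ h.toGood a
  ⟨b, ⟨_, c⟩, e⟩

variable (F) in
/-- The facts that hold at a large level `D`. -/
structure Lvl (k D : ℕ) (g : ℤ) (d : R → ℤ) (u : ν → J → ℕ) (P : AM Λ R J ν κ → Prop)
    (fs : List (Fac F.toWt ν κ)) : Prop where
  big : F.BigD k D
  gz : Ch.GZ F ℓs (F.Zs κ k D g d u)
  clo : IsClopen (F.sel P : Set (F.Mod κ k D g d u))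
  cpt : IsCompact (Ch.dia F.toWt (F.Zs κ k D g d u))
  fac : ∀ f ∈ fs, f.At (F.Zs κ k D g d u)
  dg : ∀ q, .dg q ∈ fs

theorem Iv.lvl (h : F.Iv δ k g d u P fs) :
    ∀ᶠ D in atTop, F.Lvl k D g d (fun n => u n • δ) P fs := by
  filter_upwards [F.eventually_bigD k, h.sel.2] with D a b
  exact ⟨a, h.nice.gz κ h.big a g d u, b, h.nice.toGood.isCompact_dia h.cp h.big a _,
    fun f hf => h.nice.at_of_ok h.big a (h.ok f hf), h.dg⟩

theorem Lvl.intg_eq {u : ν → J → ℕ} (h : F.Lvl k D g d u P fs) (hd : F.IsDiag F.diag) {r : ℤ}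
    (hr : IsDeg (2 * r) F.diag) (v : BM (F.Mod κ k D g d u)) :
    F.intg v P fs = F.itg v (hcls (ind (F.sel P)) * F.clL _ fs) :=
  h.gz.ev_nf hd hr h.cpt h.fac h.dg (cocycle_ind' h.clo) v

theorem Iv.intg_eq (hd : St.Dg) (h : F.Iv δ k g d u P fs) : ∀ᶠ D in atTop,
    F.intg (F.vir κ k D g d fun n => u n • δ) P fs =
      F.itg (F.vir κ k D g d fun n => u n • δ) (hcls (ind (F.sel P)) * F.clL _ fs) :=
  let ⟨a, ⟨_, b⟩, _⟩ := h.nice.dg hd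
  h.lvl.mono fun _ c => c.intg_eq a b _

theorem Iv.well (hW : St.Well) (h : F.Iv δ k g d u P fs) : ∀ᶠ D in atTop,
    F.inv k g d (fun n => u n • δ) P fs = F.intg (F.vir κ k D g d fun n => u n • δ) P fs :=
  hW F δ k g d u P fs h.nice h.cp h.big h.sel h.ok h.dg

/-- **the normal form of the invariants** -/
theorem Iv.nf (hW : St.Well) (hd : St.Dg) (h : F.Iv δ k g d u P fs) : ∀ᶠ D in atTop,
    F.inv k g d (fun n => u n • δ) P fs =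
      F.itg (F.vir κ k D g d fun n => u n • δ) (hcls (ind (F.sel P)) * F.clL _ fs) :=
  ((h.well hW).and (h.intg_eq hd)).mono fun _ a => a.1.trans a.2

/-- invariants with the same integrals are equal -/
theorem inv_eq_inv {S' Λ' R' J' K' ν' κ' : Type} [Fintype S'] [Fintype Λ'] [Fintype R'] [Fintype J']
    [Fintype K'] [Fintype ν'] [Fintype κ'] [DecidableEq R'] {F' : Fam S' Λ' R' J' K'} {k' g' d'}
    {u : ν → J → ℕ} {u' : ν' → J' → ℕ} {P' : AM Λ' R' J' ν' κ' → Prop} {fs'}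
    (h : ∀ᶠ D in atTop, F.intg (F.vir κ k D g d u) P fs = F'.intg (F'.vir κ' k' D g' d' u') P' fs') :
    F.inv k g d u P fs = F'.inv k' g' d' u' P' fs' :=
  congrArg Classical.epsilon (funext fun _ => propext (eventually_congr (h.mono fun _ a => by rw [a])))

section cor

variable {e : F.Ex} {A A' : Set ((Λ → ℂ) × (J → ℂ))} {a b c : ℕ} {v₁ : Fin a → ℕ × H (F.X A)}
  {v₂ : Fin b → ℕ × ℕ} {v₃ : Fin c → ℕ × H (F.X A')}

theorem mem_fsC {f : Fac F.toWt (Fin a ⊕ Fin c) (Fin b)} (h : f ∈ F.fsC e A A' v₁ v₂ v₃) :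
    f = .tw e.Θ ∨ f = .par e.B e.c ∨ (∃ n, f = .psi n) ∨ (∃ i, f = .ev (.inl (.inl i)) A (v₁ i).2) ∨
      (∃ q, f = .dg q) ∨ ∃ s, f = .ev (.inl (.inr s)) A' (v₃ s).2 := by
  simp only [Wt.fsC, List.mem_cons, List.mem_append, List.mem_flatten, List.mem_ofFn,
    exists_exists_eq_and, List.mem_replicate, List.not_mem_nil, or_false] at h
  rcases h with h | h | (⟨i, h | h⟩ | ⟨q, (h | h) | h⟩) | ⟨s, h⟩
  exacts [.inl h, .inr (.inl h), .inr (.inr (.inl ⟨_, h.2⟩)), .inr (.inr (.inr (.inl ⟨_, h⟩))),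
    .inr (.inr (.inl ⟨_, h.2⟩)), .inr (.inr (.inl ⟨_, h.2⟩)),
    .inr (.inr (.inr (.inr (.inl ⟨_, h⟩)))), .inr (.inr (.inr (.inr (.inr ⟨_, h.symm⟩))))]

theorem dg_mem_fsC (q : Fin b) : .dg q ∈ F.fsC e A A' v₁ v₂ v₃ :=
  .tail _ (.tail _ (List.mem_append_left _ (List.mem_append_right _ (List.mem_flatten.2
    ⟨_, List.mem_ofFn.2 ⟨q, rfl⟩, List.mem_append_right _ (List.mem_singleton_self _)⟩))))

theorem ok_fsC (hB : F.B ⊆ e.B) (hA : F.cone ⊆ A) (hA' : F.dvs δ ⊆ A') :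
    ∀ f ∈ F.fsC e A A' v₁ v₂ v₃, f.Ok F fun n => ord₃ v₃ n • δ := fun f hf => by
  rcases mem_fsC hf with rfl | rfl | ⟨n, rfl⟩ | ⟨i, rfl⟩ | ⟨q, rfl⟩ | ⟨s, rfl⟩
  exacts [trivial, hB, trivial, fun _ h => hA h.1, trivial, fun _ h => hA' ⟨h.1, fun j hj =>
    h.2 _ rfl j (mul_ne_zero (Nat.succ_ne_zero _) hj)⟩]

theorem iv_fsC (h : F.Nice δ) (hc : F.Cp) (hk : F.Big k) (he : F.ExOk k e) (hA : F.cone ⊆ A)
    (hA' : F.dvs δ ⊆ A') (g : ℤ) (d : R → ℤ) :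
    F.Iv δ k g d (ord₃ v₃) (e.P _ _) (F.fsC e A A' v₁ v₂ v₃) :=
  ⟨h, hc, hk, he.sel _ _ _ _ _, ok_fsC he.sub hA hA', dg_mem_fsC⟩

end cor

end Fam

end Vale.Agent.P269
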