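import Vale.Agent.P269.Orb.Ori

/-!
# Products of cocycles with supports
-/

namespace Vale.Agent.P269.NF

open P291Z Set Function Topology

variable {X α β κ : Type} [TopologicalSpace X] {a a' : Coch X} {L : List α} {c c' : α → Coch X}
  {A : α → Set X} {K : Set X}

theorem cocycle_prod {L : List (Coch X)} (h : ∀ b ∈ L, supp (δ b) = ∅) : supp (δ L.prod) = ∅ := by
  induction L with
  | nil => exact cocycle_one
  | cons b L ih =>
    rw [List.forall_mem_cons] at h
    exact cocycle_mul h.1 (ih h.2)

theorem hcls_prod {L : List (Coch X)} (h : ∀ b ∈ L, supp (δ b) = ∅) :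
    hcls L.prod = (L.map hcls).prod := by
  induction L with
  | nil => exact hcls_one
  | cons b L ih =>
    rw [List.forall_mem_cons] at h
    rw [List.prod_cons, hcls_mul h.1 (cocycle_prod h.2), ih h.2, List.map_cons, List.prod_cons]

theorem supp_prod {L : List (Coch X)} {b : Coch X} (h : b ∈ L) : supp L.prod ⊆ supp b := by
  induction L with
  | nil => cases h
  | cons b' L ih =>
    rcases List.mem_cons.1 h with rfl | h
    exacts [(supp_mul _ _).trans inter_subset_left,
      (supp_mul _ _).trans (inter_subset_right.trans (ih h))]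

theorem cohom_of_hcls (ha : supp (δ a) = ∅) (ha' : supp (δ a') = ∅) (e : hcls a = hcls a') :
    Cohom univ a a' :=
  let ⟨b, h⟩ := (hcls_eq_iff ha ha').1 e; ⟨b, subset_univ _, h⟩

/-- replacing the factors of a product one by one -/
theorem cohom_prod {M : List (Coch X)} (hc : ∀ f ∈ L, supp (δ (c f)) = ∅ ∧ supp (c f) ⊆ A f)
    (h : List.Forall₂ (fun f b => Cohom (A f) (c f) b) L M) :
    Cohom {x | ∀ f ∈ L, x ∈ A f} (L.map c).prod M.prod := by
  induction h with
  | nil => exact Cohom.refl _ _
  | @cons f b L M h _ ih =>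
    rw [List.forall_mem_cons] at hc
    have hL : supp (δ (L.map c).prod) = ∅ :=
      cocycle_prod (List.forall_mem_map.2 fun f hf => (hc.2 f hf).1)
    refine ((h.mul_right hL).mono fun x hx => ?_).trans
      (((ih hc.2).mul_left (h.symm.cocycle hc.1.1)).mono fun x hx => ?_)
    · exact List.forall_mem_cons.2 ⟨hx.1, fun g hg =>
        (hc.2 g hg).2 (supp_prod (List.mem_map_of_mem hg) hx.2)⟩
    · exact List.forall_mem_cons.2 ⟨h.symm.supp_subset hc.1.2 hx.1, hx.2⟩

/-- **the class of a product only depends on the classes with supports of the factors** -/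
theorem cls_congr {M : List (Coch X)} (hc : ∀ f ∈ L, supp (δ (c f)) = ∅ ∧ supp (c f) ⊆ A f)
    (h : List.Forall₂ (fun f b => Cohom (A f) (c f) b) L M) {B : Set X} (ha : supp (δ a) = ∅)
    (hB : supp a ⊆ B) (e : Cohom B a a') (hK : IsCompact K)
    (hA : ∀ x ∈ B, (∀ f ∈ L, x ∈ A f) → x ∈ K) :
    a * (L.map c).prod ∈ Zc X ∧ a' * M.prod ∈ Zc X ∧ cls (a * (L.map c).prod) = cls (a' * M.prod) := by
  have hL : supp (δ (L.map c).prod) = ∅ :=
    cocycle_prod (List.forall_mem_map.2 fun f hf => (hc f hf).1)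
  have s : ∀ x ∈ supp (L.map c).prod, ∀ f ∈ L, x ∈ A f := fun x hx g hg =>
    (hc g hg).2 (supp_prod (List.mem_map_of_mem hg) hx)
  have k : Cohom K (a * (L.map c).prod) (a' * M.prod) :=
    ((e.mul_right hL).mono fun x hx => hA x hx.1 (s x hx.2)).trans
      (((cohom_prod hc h).mul_left (e.symm.cocycle ha)).mono fun x hx =>
        hA x (e.symm.supp_subset hB hx.1) hx.2)
  have z : supp (a * (L.map c).prod) ⊆ K := fun x hx =>
    hA x (hB (supp_mul _ _ hx).1) (s x (supp_mul _ _ hx).2)
  exact ⟨⟨isCompact_supp_of_subset hK z, cocycle_mul ha hL⟩,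
    ⟨isCompact_supp_of_subset hK (k.symm.supp_subset z), k.symm.cocycle (cocycle_mul ha hL)⟩,
    cls_eq_of_cohom hK k⟩

/-- an even factor can be moved to the front -/
theorem cohom_front {L₁ L₂ : List (Coch X)} {t : Coch X} {d : ℤ} (h₁ : ∀ b ∈ L₁, supp (δ b) = ∅)
    (h₂ : ∀ b ∈ L₂, supp (δ b) = ∅) (ht : supp (δ t) = ∅) (hd : IsDeg (2 * d) t) :
    Cohom (supp t ∩ (supp L₁.prod ∩ supp L₂.prod)) (L₁ ++ t :: L₂).prod (t * (L₁ ++ L₂).prod) := by
  rw [List.prod_append, List.prod_append, List.prod_cons, ← mul_assoc, ← mul_assoc]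
  exact ((cohom_comm_even (cocycle_prod h₁) ht hd).mul_right (cocycle_prod h₂)).mono
    fun x hx => ⟨hx.1.2, hx.1.1, hx.2⟩

/-- even factors can be permuted -/
theorem cohom_perm {d : α → ℤ} {L' : List α} (h : L.Perm L')
    (hc : ∀ f ∈ L, supp (δ (c f)) = ∅ ∧ IsDeg (2 * d f) (c f)) :
    Cohom {x | ∀ f ∈ L, x ∈ supp (c f)} (L.map c).prod (L'.map c).prod := by
  induction h with
  | nil => exact Cohom.refl _ _
  | cons f _ ih =>
    rw [List.forall_mem_cons] at hc
    exact ((ih hc.2).mul_left hc.1.1).mono fun x hx => List.forall_mem_cons.2 hx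
  | swap f g L =>
    simp only [List.forall_mem_cons] at hc
    simp only [List.map_cons, List.prod_cons, ← mul_assoc]
    exact ((cohom_comm_even hc.1.1 hc.2.1.1 hc.2.1.2).mul_right (cocycle_prod
      (List.forall_mem_map.2 fun f hf => (hc.2.2 f hf).1))).mono fun x hx =>
        List.forall_mem_cons.2 ⟨hx.1.1, List.forall_mem_cons.2 ⟨hx.1.2, fun g hg =>
          supp_prod (List.mem_map_of_mem hg) hx.2⟩⟩
  | trans h _ ih ih' =>
    exact (ih hc).trans ((ih' fun f hf => hc f (h.mem_iff.2 hf)).mono fun x hx f hf =>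
      hx f (h.mem_iff.1 hf))

variable {dq : α → Option κ} {t : κ → Coch X} {d : ℤ}

/-- the marked factors are moved to the front -/
theorem cohom_split (hc : ∀ f ∈ L, supp (δ (c f)) = ∅) (ht : ∀ f ∈ L, ∀ q, dq f = some q →
    c f = t q ∧ IsDeg (2 * d) (t q)) : Cohom {x | ∀ f ∈ L, ∀ q, dq f = some q → x ∈ supp (t q)}
      (L.map c).prod (((L.filterMap dq).map t).prod *
        (L.map fun f => (dq f).elim (c f) fun _ => 1).prod) := by
  induction L with
  | nil => simpa using Cohom.refl _ _
  | cons f L ih =>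
    rw [List.forall_mem_cons] at hc ht
    have k := (ih hc.2 ht.2).mul_left hc.1
    have u : ∀ b ∈ (L.filterMap dq).map t, supp (δ b) = ∅ ∧ IsDeg (2 * d) b :=
      List.forall_mem_map.2 fun q hq => by
        obtain ⟨g, hg, e⟩ := List.mem_filterMap.1 hq
        exact ⟨(ht.2 g hg q e).1 ▸ hc.2 g hg, (ht.2 g hg q e).2⟩
    have w : supp (δ (L.map fun f => (dq f).elim (c f) fun _ => 1).prod) = ∅ :=
      cocycle_prod (List.forall_mem_map.2 fun g hg => by
        cases dq g
        exacts [hc.2 g hg, cocycle_one])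
    rcases e : dq f with _ | q
    · simp only [List.map_cons, List.prod_cons, List.filterMap_cons_none e, e, Option.elim]
      refine (k.mono fun x hx => List.forall_mem_cons.2 ⟨by simp [e], hx.2⟩).trans ?_
      rw [← mul_assoc, ← mul_assoc]
      refine ((cohom_comm_even (d := ((L.filterMap dq).map t).length * d) hc.1
        (cocycle_prod fun b hb => (u b hb).1) ((IsDeg.prod fun b hb => (u b hb).2).cast
          (by ring))).mul_right w).mono fun x hx => List.forall_mem_cons.2 ⟨by simp [e], ?_⟩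
      exact fun g hg q h => supp_prod (List.mem_map_of_mem (List.mem_filterMap.2 ⟨g, hg, h⟩)) hx.1.2
    · obtain ⟨e', -⟩ := ht.1 q e
      simp only [List.map_cons, List.prod_cons, List.filterMap_cons_some e, e, Option.elim, one_mul,
        mul_assoc, ← e']
      refine k.mono fun x hx => List.forall_mem_cons.2 ⟨fun q' h => ?_, hx.2⟩
      cases e.symm.trans h
      exact e' ▸ hx.1

open Classical in
/-- **normal form** -/
theorem cls_nf [Fintype κ] (hc : ∀ f ∈ L, supp (δ (c f)) = ∅) (ht : ∀ f ∈ L, ∀ q, dq f = some q →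
    c f = t q ∧ IsDeg (2 * d) (t q)) (hq : ∀ q, ∃ f ∈ L, dq f = some q) (ha : supp (δ a) = ∅)
    (hK : IsCompact K) (hA : ∀ x, (∀ q, x ∈ supp (t q)) → x ∈ K) :
    (Finset.univ.toList.map t).prod ∈ Zc X ∧ cls (a * (L.map c).prod) =
      Hc.act (hcls a * ((((L.filterMap dq).diff Finset.univ.toList).map fun q => hcls (t q)).prod *
        (L.map fun f => (dq f).elim (hcls (c f)) fun _ => 1).prod))
        (cls (Finset.univ.toList.map t).prod) := by
  have u : ∀ q, supp (δ (t q)) = ∅ ∧ IsDeg (2 * d) (t q) := fun q =>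
    let ⟨g, hg, e⟩ := hq q; ⟨(ht g hg q e).1 ▸ hc g hg, (ht g hg q e).2⟩
  have u' : ∀ l : List κ, supp (δ (l.map t).prod) = ∅ := fun l =>
    cocycle_prod (List.forall_mem_map.2 fun q _ => (u q).1)
  have w' : ∀ b ∈ L.map fun f => (dq f).elim (c f) fun _ => 1, supp (δ b) = ∅ :=
    List.forall_mem_map.2 fun g hg => by
      cases dq g
      exacts [hc g hg, cocycle_one]
  have w := cocycle_prod w'
  have s : supp (Finset.univ.toList.map t).prod ⊆ K := fun x hx => hA x fun q =>
    supp_prod (List.mem_map_of_mem (Finset.mem_toList.2 (Finset.mem_univ q))) hx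
  have z : (Finset.univ.toList.map t).prod ∈ Zc X := ⟨isCompact_supp_of_subset hK s, u' _⟩
  have p : (L.filterMap dq).Perm (Finset.univ.toList ++ (L.filterMap dq).diff Finset.univ.toList) :=
    (List.subperm_append_diff_self_of_count_le fun q _ => by
      rw [List.count_eq_one_of_mem (Finset.nodup_toList _) (Finset.mem_toList.2 (Finset.mem_univ q))]
      exact List.count_pos_iff.2 (List.mem_filterMap.2 (hq q))).symm
  refine ⟨z, ?_⟩
  have e₁ : (((L.filterMap dq).diff Finset.univ.toList).map fun q => hcls (t q)).prod =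
      hcls (((L.filterMap dq).diff Finset.univ.toList).map t).prod := by
    rw [hcls_prod (List.forall_mem_map.2 fun q _ => (u q).1), List.map_map]; rfl
  have e₂ : (L.map fun f => (dq f).elim (hcls (c f)) fun _ => 1).prod =
      hcls (L.map fun f => (dq f).elim (c f) fun _ => 1).prod := by
    rw [hcls_prod w', List.map_map]
    refine congrArg _ (List.map_congr_left fun f _ => ?_)
    rw [comp_apply]
    cases dq f
    exacts [rfl, hcls_one.symm]
  rw [e₁, e₂, ← hcls_mul (u' _) w, ← hcls_mul ha (cocycle_mul (u' _) w),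
    Hc.act_cls (cocycle_mul ha (cocycle_mul (u' _) w)) z]
  refine cls_eq_of_cohom hK ((((cohom_split hc ht).mul_left ha).mono fun x hx => hA x fun q =>
    let ⟨g, hg, e⟩ := hq q; hx.2 g hg q e).trans ?_)
  refine ((((cohom_perm (d := fun _ => d) p fun q _ => u q).mul_right w).mul_left ha).mono
    fun x hx => hA x fun q => hx.2.1 q (List.mem_filterMap.2 (hq q))).trans ?_
  rw [List.map_append, List.prod_append, mul_assoc, ← mul_assoc a, ← mul_assoc _ a]
  exact ((cohom_comm_even (d := (Finset.univ.toList.map t).length * d) ha (u' _)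
    ((IsDeg.prod (List.forall_mem_map.2 fun q _ => (u q).2)).cast (by ring))).mul_right
      (cocycle_mul (u' _) w)).mono fun x hx => s hx.1.2

end Vale.Agent.P269.NF
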