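import Vale.Agent.P269.Map.SQD
import Vale.Agent.P269.Gen.Num
import Vale.Agent.P269.Vir.Cyc
import Vale.Agent.P269.Cpt.Quo
import Vale.Agent.P269.Pt.Sel
import Vale.Agent.P269.Prj.Quo
import Vale.Agent.P269.LG.Enum

/-!
# Classes of the factors, normal form of the integrals: definitions
-/

set_option linter.unusedSectionVars false

namespace Vale.Agent.P269

open P291Z Set Function Topology Filter

variable {S Λ R J K ι ν κ ν' κ' : Type} [Fintype S] [Fintype Λ] [Fintype R] [Fintype J] [Fintype K]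
  [Fintype ι] [DecidableEq ι] [Fintype ν] [Fintype κ] [Fintype ν'] [Fintype κ']

namespace Ch

variable {ch : Ch ι J}

/-- An invariant set of curves on which the group acts properly. -/
structure OZ (F : Wt S Λ R J) (Z : Set (ch.WF ν κ Λ)) : Prop where
  cuts : ch.Cuts
  base : ∀ x ∈ Z, x.2 ∈ ch.base (Mk ν κ)
  act : Holo.IsAct (actF F) Z
  orb : Orb.Orb (ch.AF ν κ S)ˣ (Holo.Sp (actF F) Z)

/-- An invariant set of solutions on which the group acts properly. -/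
structure GZ (F : Fam S Λ R J K) (ℓ : R → ι → ℤ) (Z : Set (ch.WF ν κ Λ)) : Prop
    extends OZ F.toWt Z where
  inv : F.Inv
  wt : ∀ j i, ch.wd j i = ∑ r, F.w j r * ℓ r i
  sol : Z ⊆ ch.solF ν κ F
  adm : Z ⊆ ch.adm ν κ F
  psi : ∀ n, (ch.sdψ S Λ n).Ok (actF F.toWt) Z (Fintype.card ι + 1) (Fintype.card ι)
  fld : ∀ j, ∃ r, (ch.sdX ν κ F.toWt j).Ok (actF F.toWt) Z r 0
  kos : ∀ j, ∃ r r', (ch.sdK ν κ F.toWt j).Ok (actF F.toWt) Z r r'

/-- The element of the tori of the target by which the values at the marked point `n` change. -/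
noncomputable def θv (ℓ : R → ι → ℤ) (n : Mk ν κ) (s : ch.AF ν κ S) : (S → ℂ) × (R → ℂ) :=
  (s.1, fun r => ∏ i, (dup s.2).2.2 n i ^ ℓ r i)

/-- The points where the values at the two branches of the node `q` agree. -/
def diq (F : Wt S Λ R J) (Z : Set (ch.WF ν κ Λ)) (q : κ) : Set (Quo (actF F) Z) :=
  {z | vl (Quo.out z).1 (.inr (q, false)) = vl (Quo.out z).1 (.inr (q, true))}

/-- The points where the values at the two branches of all nodes agree. -/
def dia (F : Wt S Λ R J) (Z : Set (ch.WF ν κ Λ)) : Set (Quo (actF F) Z) := {z | Dia (Quo.out z).1}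

end Ch

namespace Fac

variable {F : Wt S Λ R J}

/-- The values of the maps in `Z` lie in the sets on which the classes are given. -/
def At {ch : Ch ι J} (Z : Set (ch.WF ν κ Λ)) : Fac F ν κ → Prop
  | .ev n A _ => ∀ x ∈ Z, Ch.vl x n ∈ A
  | .par A _ => ∀ x ∈ Z, x.1 ∈ A
  | _ => True

/-- The node of a diagonal factor. -/
def dq : Fac F ν κ → Option κ
  | .dg q => some q
  | _ => none

/-- Relabelling. -/
def re (a : ν → ν') (b : κ → κ') : Fac F ν κ → Fac F ν' κ'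
  | .psi n => .psi (n.map a (Prod.map b id))
  | .ev n A c => .ev (n.map a (Prod.map b id)) A c
  | .par A c => .par A c
  | .dg q => .dg (b q)
  | .tw Θ => .tw Θ

/-- The cohomological degree of a factor; `r` is the rank of the vertical tangent bundle of the
cone. -/
def Deg (r : ℤ) : Fac F ν κ → ℤ → Prop
  | .psi _, m => m = 2
  | .ev _ _ c, m => H.IsDeg m c
  | .par _ c, m => H.IsDeg m c
  | .dg _, m => m = 2 * r
  | .tw Θ, m => ∃ a : ℕ, m = 2 * a ∧ Θ.IsWeightedHomogeneous Prod.snd a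

end Fac

/-- The factors of a correlator. -/
noncomputable def Wt.fsC (F : Wt S Λ R J) (e : F.Ex) (A A' : Set ((Λ → ℂ) × (J → ℂ))) {a b c : ℕ}
    (v₁ : Fin a → ℕ × H (F.X A)) (v₂ : Fin b → ℕ × ℕ) (v₃ : Fin c → ℕ × H (F.X A')) :
    List (Fac F (Fin a ⊕ Fin c) (Fin b)) :=
  .tw e.Θ :: .par e.B e.c :: ((List.ofFn fun i => List.replicate (v₁ i).1 (.psi (.inl (.inl i))) ++
      [.ev (.inl (.inl i)) A (v₁ i).2]).flatten ++
    (List.ofFn fun q => List.replicate (v₂ q).1 (.psi (.inr (q, false))) ++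
      List.replicate (v₂ q).2 (.psi (.inr (q, true))) ++ [.dg q]).flatten ++
    List.ofFn fun s => .ev (.inl (.inr s)) A' (v₃ s).2)

/-- The contact orders of a correlator. -/
def ord₃ {α : Type} {a c : ℕ} (v₃ : Fin c → ℕ × α) : Fin a ⊕ Fin c → ℕ :=
  Sum.elim 0 fun s => (v₃ s).1 + 1

namespace Fam

variable (F : Fam S Λ R J K)

/-- The member with parameter `l`, without the extra torus (the weights for the empty torus are
arbitrary, so that both `F.atl l` and `F.sub {l} F.zer` are of this form). -/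
@[reducible] def atw (l : Λ → ℂ) (wt : J → Empty → ℤ) (wl : Λ → Empty → ℤ) (wk : K → Empty → ℤ) :
    Fam Empty Λ R J K := { F with toWt := ⟨F.w, wt, wl⟩, wk := wk, B := {l} }

/-- The diagonal in `cone2`. -/
def dg0 : Set ((Λ → ℂ) × (J → ℂ) × (J → ℂ)) := {z | z ∈ F.cone2 ∧ z.2.1 = z.2.2}

/-- The diagonal in `X2`. -/
def Δ2 : Set F.X2 := {z | (Quo.out z).1.2.1 = (Quo.out z).1.2.2}

/-- The Kuranishi data of the diagonal. -/
noncomputable def dgD :
    Ch.KD ((S → ℂ) × (R → ℂ)) ((Λ → ℂ) × (J → ℂ) × (J → ℂ)) (J → ℂ) :=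
  ⟨fun t v => (F.actT t (0, v)).2, ⊤, fun _ => ⊥, fun z => F.vert (z.1, z.2.1),
    fun z => z.2.2 - z.2.1⟩

/-- The rank of the vertical tangent bundle of the cone. -/
noncomputable def rv (K₀ : Set K) : ℤ := F.mov.ncard - K₀.ncard

section cl

variable {ch : Ch ι J} (Z : Set (ch.WF ν κ Λ))

/-- The class of a factor. -/
noncomputable def cl (f : Fac F.toWt ν κ) : H (Quo (Ch.actF F.toWt) Z) := hcls (F.coch Z f)

/-- The class of a factor, with one for the diagonals. -/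
noncomputable def cn : Fac F.toWt ν κ → H (Quo (Ch.actF F.toWt) Z)
  | .dg _ => 1
  | f => F.cl Z f

open Classical in
/-- The class of a list of factors in which one diagonal for each node is left out. -/
noncomputable def clL (fs : List (Fac F.toWt ν κ)) : H (Quo (Ch.actF F.toWt) Z) :=
  (((fs.filterMap Fac.dq).diff Finset.univ.toList).map fun q => F.cl Z (.dg q)).prod *
    (fs.map (F.cn Z)).prod

/-- The product of the diagonal cocycles. -/
noncomputable def dgT : Coch (Quo (Ch.actF F.toWt) Z) :=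
  ((Finset.univ : Finset κ).toList.map fun q => F.coch Z (.dg q)).prod

variable {Z} in
/-- The integral of a class against `v` and the diagonals. -/
noncomputable def itg (v : BM (Quo (Ch.actF F.toWt) Z)) : H (Quo (Ch.actF F.toWt) Z) →ₗ[ℂ] ℂ :=
  Module.Dual.eval ℂ _ (P291Z.cls (F.dgT Z)) ∘ₗ pd v

end cl

variable [DecidableEq R]

variable (κ) in
/-- The solutions in the standard chart. -/
abbrev Zs (k D : ℕ) (g : ℤ) (d : R → ℤ) (u : ν → J → ℕ) : Set ((F.sch ν κ k D g d).WF ν κ Λ) :=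
  (F.sch ν κ k D g d).solF ν κ F ∩ (F.sch ν κ k D g d).cyc κ F u

/-- The correlators as functions of families of insertions. -/
noncomputable def corF (k : ℕ) (e : F.Ex) (δ : J → ℕ) (A A' : Set ((Λ → ℂ) × (J → ℂ))) (d : R → ℤ)
    (j : ℤ) {a b c : ℕ} (v₁ : Fin a → ℕ × H (F.X A)) (v₂ : Fin b → ℕ × ℕ)
    (v₃ : Fin c → ℕ × H (F.X A')) : ℂ :=
  F.inv k (j + 1 - b) d (fun n => ord₃ v₃ n • δ) (e.P _ _) (F.fsC e A A' v₁ v₂ v₃)

theorem cor_eq_corF (k : ℕ) (e : F.Ex) (δ : J → ℕ) (A A' : Set ((Λ → ℂ) × (J → ℂ))) (d : R → ℤ)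
    (j : ℤ) {l₁ : List (ℕ × H (F.X A))} {l₂ : List (ℕ × ℕ)} {l₃ : List (ℕ × H (F.X A'))} {a b c : ℕ}
    (h₁ : a = l₁.length) (h₂ : b = l₂.length) (h₃ : c = l₃.length) :
    F.cor k e δ A A' d j l₁ l₂ l₃ = F.corF k e δ A A' d j (fun i => l₁.get (i.cast h₁))
      (fun i => l₂.get (i.cast h₂)) fun i => l₃.get (i.cast h₃) := by
  subst h₁ h₂ h₃
  refine congrArg (F.inv k _ d · _ _) (funext ?_)
  rintro (_ | _)
  exacts [(zero_smul ℕ δ).symm, rfl]

theorem cor_ofFn (k : ℕ) (e : F.Ex) (δ : J → ℕ) (A A' : Set ((Λ → ℂ) × (J → ℂ))) (d : R → ℤ)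
    (j : ℤ) {a b c : ℕ} (v₁ : Fin a → ℕ × H (F.X A)) (v₂ : Fin b → ℕ × ℕ)
    (v₃ : Fin c → ℕ × H (F.X A')) :
    F.cor k e δ A A' d j (.ofFn v₁) (.ofFn v₂) (.ofFn v₃) = F.corF k e δ A A' d j v₁ v₂ v₃ := by
  rw [F.cor_eq_corF k e δ A A' d j List.length_ofFn.symm List.length_ofFn.symm
    List.length_ofFn.symm]
  simp only [List.get_ofFn, Fin.cast_cast, Fin.cast_eq_self]

theorem cor_map (k : ℕ) (e : F.Ex) (δ : J → ℕ) (A A' : Set ((Λ → ℂ) × (J → ℂ))) (d : R → ℤ)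
    (j : ℤ) {α β : Type} (f : α → ℕ × H (F.X A)) (f' : β → ℕ × H (F.X A')) (l₁ : List α)
    (l₂ : List (ℕ × ℕ)) (l₃ : List β) : F.cor k e δ A A' d j (l₁.map f) l₂ (l₃.map f') =
      F.corF k e δ A A' d j (fun i => f (l₁.get i)) l₂.get fun i => f' (l₃.get i) := by
  have a : ∀ {α β : Type} (f : α → β) (l : List α), l.map f = .ofFn fun i => f (l.get i) :=
    fun f l => (congrArg _ (List.ofFn_get l).symm).trans List.map_ofFn
  rw [← cor_ofFn, List.ofFn_get, a f, a f']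

/-- The hypotheses under which an invariant is well behaved. -/
structure Iv (δ : J → ℕ) (k : ℕ) (g : ℤ) (d : R → ℤ) (u : ν → ℕ) (P : AM Λ R J ν κ → Prop)
    (fs : List (Fac F.toWt ν κ)) : Prop where
  nice : F.Nice δ
  cp : F.Cp
  big : F.Big k
  sel : F.Sel k g d (fun n => u n • δ) P
  ok : ∀ f ∈ fs, f.Ok F fun n => u n • δ
  dg : ∀ q, .dg q ∈ fs

end Fam

/-- Multilinear supersymmetric functions of three lists. -/
structure Cor3 {V V' : Type} [AddCommGroup V] [Module ℂ V] [AddCommGroup V'] [Module ℂ V']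
    (p : Fock.Par ℂ V) (p' : Fock.Par ℂ V')
    (w : List (ℕ × V) → List (ℕ × ℕ) → List (ℕ × V') → ℂ) : Prop where
  one : ∀ l₂ l₃, LG.SW p fun l₁ => w l₁ l₂ l₃
  two : ∀ l₁ l₃ l₂ l₂', l₂.Perm l₂' → w l₁ l₂ l₃ = w l₁ l₂' l₃
  three : ∀ l₁ l₂, LG.SW p' fun l₃ => w l₁ l₂ l₃

namespace St

/-- The diagonal cocycle exists. -/
def Dg : Prop :=
  ∀ {S Λ R J K : Type} [Fintype S] [Fintype Λ] [Fintype R] [Fintype J] [Fintype K] [DecidableEq R]
    (F : Fam S Λ R J K) (K₀ : Set K), F.Good → F.Reg K₀ → F.IsDiag F.diag ∧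
      IsDeg (2 * F.rv K₀) F.diag ∧ ∀ t t', F.IsDiag t → F.IsDiag t' → Cohom F.Δ2 t t'

/-- The invariants do not depend on the labels. -/
def Rel : Prop :=
  ∀ {S Λ R J K ν κ ν' κ' : Type} [Fintype S] [Fintype Λ] [Fintype R] [Fintype J] [Fintype K]
    [Fintype ν] [Fintype κ] [Fintype ν'] [Fintype κ'] [DecidableEq R] (F : Fam S Λ R J K)
    (δ : J → ℕ) (k : ℕ) (g : ℤ) (d : R → ℤ) (a : ν ≃ ν') (b : κ ≃ κ') (u : ν' → ℕ)
    (P : AM Λ R J ν κ → Prop) (P' : AM Λ R J ν' κ' → Prop) (fs : List (Fac F.toWt ν κ)),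
    F.Iv δ k g d (fun n => u (a n)) P fs →
    (∀ m, P' m ↔ P (m.re (a.sumCongr (b.prodCongr (.refl _))).toEmbedding)) →
    F.inv k g d (fun n => u n • δ) P' (fs.map (Fac.re a b)) =
      F.inv k g d (fun n => u (a n) • δ) P fs

/-- The correlators are multilinear and supersymmetric. -/
def Cor : Prop :=
  ∀ {S Λ R J K : Type} [Fintype S] [Fintype Λ] [Fintype R] [Fintype J] [Fintype K] [DecidableEq R]
    (F : Fam S Λ R J K) (δ : J → ℕ) (k : ℕ) (e : F.Ex) {A A' : Set _}, F.Nice δ → F.Cp → F.Big k →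
    F.ExOk k e → F.cone ⊆ A → F.dvs δ ⊆ A' → ∀ d j,
    Cor3 (parH _) (parH _) (F.cor k e δ A A' d j)

end St

end Vale.Agent.P269
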