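import Vale.Agent.P269.Map.GyB
import Vale.Agent.P269.Map.SQD

set_option linter.unusedSectionVars false

/-!
# Virtual pull-backs along arbitrary equivariant maps; point classes
-/

namespace Vale.Agent.P269

open Set Function Topology Filter Module Vale.Agent.P291Z Vale.Agent.P269.Orb Holo

namespace Orb.Ori

variable {X : Type} [TopologicalSpace X] [Nice X] {β : BM X} {n : ℕ}

/-- point classes -/
theorem exists_pt (h : Ori (2 * n) β) (x : X) : ∃ t, IsCo {x} n t ∧ ev β t = 1 :=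
  let ⟨a, h1, h2⟩ := h.gen x
  ⟨(ev β a)⁻¹ • a, ⟨cocycle_smul _ h1.cyc, h1.deg.smul _, (supp_smul _ _).trans h1.pt⟩,
    by rw [ev_smul β _ h1.zc, inv_mul_cancel₀ h2]⟩

/-- top degree classes supported in a connected set are determined by their integrals -/
theorem cls_eq {d : ℤ} (h : Ori d β) {C : Set X} (hC : IsPreconnected C) {a a' : Coch X}
    (ha : a ∈ Zc X) (ha' : a' ∈ Zc X) (hd : IsDeg d a) (hd' : IsDeg d a') (hs : supp a ⊆ C)
    (hs' : supp a' ⊆ C) (e : ev β a = ev β a') : P291Z.cls a = P291Z.cls a' := by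
  rw [← sub_eq_zero]
  refine (Module.forall_dual_apply_eq_zero_iff ℂ _).1 fun γ => ?_
  obtain ⟨f, hf, e'⟩ := h.exists_fn (BM.isDeg_comp d γ)
  obtain ⟨z, hz⟩ : ∃ z, ∀ x ∈ C, f x = z := by
    rcases C.eq_empty_or_nonempty with rfl | ⟨y, hy⟩
    · exact ⟨0, by simp⟩
    · exact ⟨f y, fun x hx => hf.apply_eq_of_isPreconnected hC hx hy⟩
  have k : ∀ b ∈ Zc X, IsDeg d b → supp b ⊆ C → γ (P291Z.cls b) = z * ev β b := fun b hb h1 h2 => by
    rw [← Hc.comp_of_mem (cls_mem_deg h1), ← LinearMap.dualMap_apply, ← e', ← ev_eq,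
      ev_cap (cocycle_fn.2 hf) hb, ← ev_smul β z hb]
    refine ev_congr β fun x => ?_
    rw [show b * fn f - z • b = b * (fn f - z • 1) by rw [mul_sub, mul_smul_comm, mul_one]]
    by_cases hx : x ∈ supp b
    · refine Van.mul_left ?_ b
      rw [← fn_const, ← fn_sub, fn_van]
      exact (hf.eventually_eq x).mono fun y hy => sub_eq_zero.2 (hy.trans (hz x (h2 hx)))
    · exact Van.mul_right hx _
  rw [map_sub, k a ha hd hs, k a' ha' hd' hs', e, sub_self]

theorem eq_smul_pt [CompactSpace X] [PreconnectedSpace X] (h : Ori (2 * n) β) {x : X} {t : Coch X}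
    (ht : IsCo {x} n t) (h1 : ev β t = 1) {c : H X} (hc : H.IsDeg (2 * n) c) :
    c = ev β (rep c) • hcls t := by
  obtain ⟨a, ha, hd, rfl⟩ := H.isDeg_iff.1 hc
  have h2 : supp (δ (rep (hcls a))) = ∅ := (Classical.epsilon fun b : Zs X => H.mk b = hcls a).2
  have h3 : hcls (rep (hcls a)) = hcls a := (hcls_val _).trans
    (Classical.epsilon_spec (p := fun b : Zs X => H.mk b = hcls a) (H.mk_surj _))
  have h4 := cocycle_smul (ev β a) ht.cocycle
  rw [ev_eq, (cls_eq_iff_hcls h2 ha).2 h3, ← ev_eq, ← hcls_smul _ ht.cocycle]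
  exact (cls_eq_iff_hcls ha h4).1 (h.cls_eq isPreconnected_univ (Zc_of_compact ha)
    (Zc_of_compact h4) hd (ht.deg.smul _) (subset_univ _) (subset_univ _)
    (by rw [ev_smul β _ (Zc_of_compact ht.cocycle), h1, mul_one]))

end Orb.Ori

namespace Ch.KD

variable {A A' W W' P P' : Type} [NormedRing A] [NormedAlgebra ℂ A] [NormedAddCommGroup W]
  [NormedSpace ℂ W] [AddCommGroup P] [Module ℂ P] [TopologicalSpace P] [NormedRing A']
  [NormedAlgebra ℂ A'] [NormedAddCommGroup W'] [NormedSpace ℂ W'] [AddCommGroup P'] [Module ℂ P']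
  [TopologicalSpace P'] [IsTopologicalAddGroup P] [ContinuousSMul ℂ P] [T2Space P]
  [IsTopologicalAddGroup P'] [ContinuousSMul ℂ P'] [T2Space P']
  [FiniteDimensional ℂ A] [FiniteDimensional ℂ A'] [FiniteDimensional ℂ W] [FiniteDimensional ℂ W']
  {act : A → W → W} {act' : A' → W' → W'} {Z O : Set W} {Z' O' : Set W'} {D : KD A W P}
  {D' : KD A' W' P'} {n r n' r' : ℕ} {θ : A → A'} {f : W → W'} {B : P →ₗ[ℂ] P'}

namespace Gd

variable (h : D.Gd act Z O n r) (h' : D'.Gd act' Z' O' n' r') (hf : EqM act act' O O' θ f)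
  (hL : D.Lin D' θ f O B) (hi : D.Inj D' f Z B) (hr : Z.Nonempty → r = r')
include h h' hf hL hi hr

theorem exists_cmp : ∃ (k : KP h.dom.sp) (k' : KP h'.dom.sp), k.Cmp k' hf.map ∧
    k.IsZ (Quo.incl act h.dom.sub) ∧ k'.IsZ (Quo.incl act' h'.dom.sub) ∧
    D.vr act Z O = k.vir (Quo.incl act h.dom.sub) ∧
    D'.vr act' Z' O' = k'.vir (Quo.incl act' h'.dom.sub) := by
  obtain ⟨k, i, hk, -, h1, h2⟩ := h.exists_isKP
  obtain ⟨k', i', hk', -, h3, h4⟩ := h'.exists_isKP
  obtain ⟨ρ, c, e⟩ := hf.hom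
  let m : Mor h.dom.sp h'.dom.sp := ⟨ρ, fun x : Holo.Sp act O => .of act' _ (hf.maps x.val_mem), c,
    hf.cont.domRestrict.subtype_mk _, fun (g : Aˣ) (t : Holo.Sp act O) => Subtype.ext
      ((hf.eqv g g.isUnit t.val t.val_mem).trans (congrArg (act' · _) (e g).symm))⟩
  obtain ⟨L, h5, h6⟩ := h.dom.exists_hom h'.dom hk hk' m (fun _ => rfl) e hL
  have h7 := h5.cmp_ne (h.dom.inj_hom h'.dom hk hk' m (fun _ => rfl) hi h6) fun ⟨t, ht⟩ => by
    rw [h1, h3, hr ⟨_, (h.dom.mem_Zs hk).1 ht⟩]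
  rw [← m.map_eq (φ := hf.map) fun _ => rfl] at h7
  exact ⟨k, k', h7, h.dom.isZ hk, h'.dom.isZ hk', h2, h4⟩

variable (hZ : ∀ x ∈ O, f x ∈ Z' → x ∈ Z) (hz : EqM act act' Z Z' θ f)
include hZ

omit hL hi hr hZ in
theorem BCmp.sq (z : Quo act Z) :
    hf.map (Quo.incl act h.dom.sub z) = Quo.incl act' h'.dom.sub (hz.map z) :=
  Quot.inductionOn z fun _ => rfl

omit hL hi hr in
theorem BCmp.lift (y : Quo act O) (z' : Quo act' Z') (e : Quo.incl act' h'.dom.sub z' = hf.map y) :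
    ∃ z, Quo.incl act h.dom.sub z = y ∧ hz.map z = z' := by
  have := h'.dom.isAct
  have := h'.isActZ
  obtain ⟨x, rfl⟩ := Quot.exists_rep y
  have a := hZ x x.2 ((Quo.mk_mem_range h'.dom.sub (x := .of act' _ (hf.maps x.2))).1 ⟨z', e⟩)
  exact ⟨Quo.mk act ⟨x, a⟩, rfl, h'.isClosedEmbedding.injective e.symm⟩

/-- **Gysin maps** -/
theorem vr_gys [Nice (Quo act' Z')] [Nice (Quo act' O')] (hc : IsClosedEmbedding hf.map)
    {t : Coch (Quo act' O')} (ht : supp (δ t) = ∅) (hs : supp t ⊆ range hf.map) (β) :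
    IsClosedEmbedding hz.map ∧
      gys hz.map (pull (Quo.incl act' h'.dom.sub) t) (D'.vr act' Z' O' β) =
        D.vr act Z O (gys hf.map t β) := by
  obtain ⟨k, k', a, b, b', c, c'⟩ := h.exists_cmp h' hf hL hi hr
  have s := BCmp.sq h h' hf hz
  refine ⟨isClosedEmbedding_of_comp b'.emb.isEmbedding (fun z => (s z).symm) (hc.comp b.emb), ?_⟩
  rw [c, c']
  exact a.vir_gys' hc b' b s (fun z' ⟨y, e⟩ =>
    (BCmp.lift h h' hf hZ hz y z' e.symm).imp fun _ e => e.2) ht hs β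

/-- **proper push-forward** -/
theorem vr_prop (hp : IsPr hf.map) (β) :
    IsPr hz.map ∧ D'.vr act' Z' O' (push hf.map β) = push hz.map (D.vr act Z O β) := by
  obtain ⟨k, k', a, b, b', c, c'⟩ := h.exists_cmp h' hf hL hi hr
  have s := BCmp.sq h h' hf hz
  refine ⟨isPr_of_comp b'.emb.isEmbedding s (hp.comp (IsPr.of_isClosedEmbedding b.emb)), ?_⟩
  rw [c, c']
  exact a.vir_push hp b' b s (fun y ⟨z', e⟩ =>
    (BCmp.lift h h' hf hZ hz y z' e).imp fun _ e => e.1) β

/-- **products** -/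
theorem vr_cross {X : Type} [TopologicalSpace X] [Nice X] {p : Quo act O → X}
    (hp : IsHomeomorph fun z => (p z, hf.map z)) (α : BM X) (β : BM (Quo act' O')) :
    IsHomeomorph (fun z => (p (Quo.incl act h.dom.sub z), hz.map z)) ∧
      D.vr act Z O (cross p hf.map α β) =
        cross (fun z => p (Quo.incl act h.dom.sub z)) hz.map α (D'.vr act' Z' O' β) := by
  obtain ⟨k, k', a, b, b', c, c'⟩ := h.exists_cmp h' hf hL hi hr
  have s := BCmp.sq h h' hf hz
  have hq : IsHomeomorph (fun z => (p (Quo.incl act h.dom.sub z), hz.map z)) := by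
    refine isHomeomorph_iff_isEmbedding_surjective.2 ⟨(isClosedEmbedding_of_comp
      (IsEmbedding.id.prodMap b'.emb.isEmbedding) (fun z => ?_)
      (hp.isClosedEmbedding.comp b.emb)).isEmbedding, fun ⟨x, z'⟩ => ?_⟩
    · exact Prod.ext rfl (s z).symm
    obtain ⟨y, e⟩ := hp.surjective (x, Quo.incl act' h'.dom.sub z')
    obtain ⟨z, rfl, rfl⟩ := BCmp.lift h h' hf hZ hz y z' (congrArg Prod.snd e).symm
    exact ⟨z, Prod.ext (Prod.ext_iff.1 e).1 rfl⟩
  have := h.nice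
  have := h'.nice
  have := h.niceZ
  have := h'.niceZ
  have e := lgys_cross hp hq (fun _ => rfl) s IsClosedEmbedding.id b'.emb (d := 0)
    (LCo.of_supp cocycle_one (by simp)) b'.lco isDeg_one k'.eul_deg α β
  rw [lgys_eq_gys IsClosedEmbedding.id cocycle_one (by simp), gys_id_eq_cap cocycle_one, hcls_one,
    cap_one, map_one, one_mul] at e
  refine ⟨hq, ?_⟩
  rw [c, c', a.vir_eq b]
  exact e

end Gd

end Ch.KD

end Vale.Agent.P269
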