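import Vale.Agent.P269.Bas.FibV
import Vale.Agent.P269.Bas.Dg

set_option linter.unusedSectionVars false
set_option linter.style.haveILetI false

/-!
# The invariants of the members of a family; deformation invariance
-/

namespace Vale.Agent.P269

open P291Z Set Function Topology Filter Orb

variable {S Λ R J K ι ν κ : Type} [Fintype S] [Fintype Λ] [Fintype R] [Fintype J] [Fintype K]
  [Fintype ι] [DecidableEq ι] [Fintype ν] [Fintype κ]

namespace Ch.GZ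

variable {F : Fam S Λ R J K} {ch : Ch ι J} {ℓ : R → ι → ℤ} {Z : Set (ch.WF ν κ Λ)}
  {fs : List (Fac F.toWt ν κ)} (h : GZ F ℓ Z) (hd : F.IsDiag F.diag)
include h hd

theorem supp_prod (hq : ∀ q, .dg q ∈ fs) : supp (fs.map (F.coch Z)).prod ⊆ dia F.toWt Z :=
  fun _ a => dia_eq.ge <| mem_iInter.2 fun q =>
    h.supp_dg hd q (NF.supp_prod (List.mem_map_of_mem (hq q)) a)

theorem ev_par (hA : ∀ f ∈ fs, f.At Z) (hq : ∀ q, .dg q ∈ fs) (hc : IsCompact (dia F.toWt Z))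
    {B : Set (Λ → ℂ)} (hB : ∀ x ∈ Z, x.1 ∈ B) {t : Coch (F.Bs B)} (ht : supp (δ t) = ∅) {m : ℤ}
    (hm : IsDeg (2 * m) t) (z : ℂ) {a : Coch _} (ha : supp (δ a) = ∅) (h1 : hcls a = 1) (v : BM _) :
    ev v (a * ((.tw 1 :: .par B (z • hcls t) :: fs).map (F.coch Z)).prod) =
      z * ev v (((.tw 1 :: .par univ 1 :: fs).map (F.coch Z)).prod * parF B t) := by
  have q := h.eqh_par hB
  rw [h.parF_eq hB]
  have T := cocycle_pull q.toEqv.qm.continuous ht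
  have c₁ := h.cocycle hd (f := .tw 1) trivial
  have c₂ := h.cocycle hd (f := .par B (z • hcls t)) hB
  have c₃ := h.cocycle hd (f := .par univ 1) fun _ _ => trivial
  have c₄ := cocycle_mul (cocycle_mul T c₁) c₃
  have c₅ := cocycle_mul c₁ (cocycle_mul c₃ (h.cocycle_prod hd hA))
  have s : supp ((.tw 1 :: .par univ 1 :: fs).map (F.coch Z)).prod ⊆ dia F.toWt Z :=
    h.supp_prod hd fun q => .tail _ (.tail _ (hq q))
  simp only [List.map_cons, List.prod_cons] at s ⊢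
  rw [ev_eq v (_ * pull _ t), cls_eq_of_cohom hc ((cohom_comm_even c₅ T (hm.pull _)).mono
    (inter_subset_left.trans s)), ← ev_eq, ← mul_assoc, ← mul_assoc, ← mul_assoc, ← mul_assoc,
    ← ev_smul v z (h.mem_Zc hd hA hq c₄ hc), ← smul_mul_assoc]
  refine h.ev_congr hd hA (Fam.forall₂_refl fs) hq (cocycle_mul (cocycle_mul ha c₁) c₂)
    (cocycle_smul z c₄) ?_ hc v
  rw [hcls_smul z c₄, hcls_mul (cocycle_mul ha c₁) c₂, hcls_mul ha c₁, hcls_mul (cocycle_mul T c₁) c₃,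
    hcls_mul T c₁, h1, ← H.map_hcls _ ht]
  change 1 * F.cl Z _ * F.cl Z _ = z • (_ * F.cl Z _ * F.cl Z _)
  rw [Fam.cl_tw_one, h.cl_par_one fun _ _ => mem_univ _, h.cl_par hB, H.map_smulC, mul_one, mul_one,
    mul_one, one_mul]

end Ch.GZ

namespace Fam

variable [DecidableEq R] {δ : J → ℕ} {k n a b c : ℕ} {A A' : Set ((Λ → ℂ) × (J → ℂ))} {l l' : Λ → ℂ}
  {wt : J → Empty → ℤ} {wl : Λ → Empty → ℤ} {wk : K → Empty → ℤ}

theorem Nice.corF_fib {F : Fam S Λ R J K} (hW : St.Well) (h : F.Nice δ) (hc : F.Cp)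
    [PreconnectedSpace (F.Bs F.B)] (hb : F.Sm (Fintype.card S + n)) {x : H (F.Bs F.B)}
    (hx : H.IsDeg (2 * n) x) (hk : F.Big k) (hl : l ∈ F.B) (hA : F.cone ⊆ A) (hA' : F.dvs δ ⊆ A')
    (d : R → ℤ) (j : ℤ) (v₁ : Fin a → ℕ × H (F.X A)) (v₂ : Fin b → ℕ × ℕ)
    (v₃ : Fin c → ℕ × H (F.X A')) : F.corF k (F.exB x) δ A A' d j v₁ v₂ v₃ = F.intB _ x *
      (F.atw l wt wl wk).corF k (F.atw l wt wl wk).ex0 δ _ _ d j
        (fun i => Prod.map id ((F.atw l wt wl wk).pb F.toWt id (F.atw l wt wl wk).cone) (v₁ i)) v₂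
        fun i => Prod.map id ((F.atw l wt wl wk).pb F.toWt id ((F.atw l wt wl wk).dvs δ)) (v₃ i) := by
  have h' : (F.atw l wt wl wk).Nice δ := h.atw hl
  have hk' : (F.atw l wt wl wk).Big k := hk.atw hl
  haveI := h.toGood.fpB
  have o := hb.dim.ori
  obtain ⟨t, ht, h1⟩ := o.exists_pt (Quo.mk F.actL ⟨l, hl⟩)
  have e := o.eq_smul_pt ht h1 hx
  change x = F.intB _ x • _ at e
  generalize F.intB _ x = z at e ⊢
  subst e
  have s : (F.atw l wt wl wk).cone ⊆ F.cone := fun _ a => ((mem_cone_atw hl).1 a).1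
  have i := iv_fsC
    (v₁ := fun i => Prod.map id ((F.atw l wt wl wk).pb F.toWt id (F.atw l wt wl wk).cone) (v₁ i))
    (v₂ := v₂)
    (v₃ := fun i => Prod.map id ((F.atw l wt wl wk).pb F.toWt id ((F.atw l wt wl wk).dvs δ)) (v₃ i))
    h' cp_atw hk' (St.selC _ k 1 univ 1 h'.toGood hk' (subset_univ _) (one_mem _)).1 Subset.rfl
    Subset.rfl (j + 1 - b) d
  refine inv_eq_of_eventually ?_
  filter_upwards [F.eventually_bigD k, i.well hW] with D hD w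
  have s' := sel_true (κ := Fin b) (g := j + 1 - b) (d := d)
    (u := fun n => ord₃ (a := a) v₃ n • δ) hD
  refine Eq.trans ?_ (congrArg (z * ·) (w.trans (h.intg_atw St.dg hk hD hl hb.dim ht h1
    (s.trans hA) (fun _ a => hA' ⟨s a.1, a.2⟩) hA hA' Subset.rfl Subset.rfl 1 _ d v₁ v₂ v₃))).symm
  exact (h.gz _ hk hD _ d _).ev_par (h.dg St.dg).1 (fun f hf => h.at_of_ok hk hD
    (ok_fsC (e := F.ex0) (subset_univ _) hA hA' f (.tail _ (.tail _ hf))))
    (fun q => by simp)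
    (h.toGood.isCompact_dia hc hk hD _) (fun _ a => a.1.1.1) ht.cocycle ht.deg z
    (cocycle_ind' (s' ▸ isClopen_univ)) ((congrArg (fun x => hcls (ind x)) s').trans hcls_ind_univ) _

theorem Nice.corF_def {F : Fam Empty Λ R J K} (h : F.Nice δ) (hk : F.Big k) (hA : F.cone ⊆ A)
    (hA' : F.dvs δ ⊆ A') (hj : JoinedIn F.B l l') (Θ : MvPolynomial (J × ℕ) ℂ) (d : R → ℤ) (j : ℤ)
    (v₁ : Fin a → ℕ × H (F.X A)) (v₂ : Fin b → ℕ × ℕ) (v₃ : Fin c → ℕ × H (F.X A')) :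
    (F.atw l wt wl wk).corF k ((F.atw l wt wl wk).exT Θ) δ A A' d j
      (fun i => Prod.map id ((F.atw l wt wl wk).pb F.toWt id A) (v₁ i)) v₂
      (fun i => Prod.map id ((F.atw l wt wl wk).pb F.toWt id A') (v₃ i)) =
    (F.atw l' wt wl wk).corF k ((F.atw l' wt wl wk).exT Θ) δ A A' d j
      (fun i => Prod.map id ((F.atw l' wt wl wk).pb F.toWt id A) (v₁ i)) v₂
      fun i => Prod.map id ((F.atw l' wt wl wk).pb F.toWt id A') (v₃ i) := by
  haveI := h.toGood.fpB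
  obtain ⟨n, hb⟩ := h.sm
  have hB : Tq.Dim F.actL F.B n := Sm.dim (by simpa using hb)
  have hl := hj.source_mem
  have hl' := hj.target_mem
  obtain ⟨t, ht, h1⟩ := hB.ori.exists_pt (Quo.mk F.actL ⟨l, hl⟩)
  obtain ⟨t', ht', h1'⟩ := hB.ori.exists_pt (Quo.mk F.actL ⟨l', hl'⟩)
  obtain ⟨γ⟩ := hj.joined_subtype
  have z : t ∈ Zc _ := ⟨isCompact_supp_of_subset isCompact_singleton ht.supp, ht.cocycle⟩
  have z' : t' ∈ Zc _ := ⟨isCompact_supp_of_subset isCompact_singleton ht'.supp, ht'.cocycle⟩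
  obtain ⟨y, y₁, y₂⟩ := (cls_eq_iff z z').1 (hB.ori.cls_eq
    (isPreconnected_range (Tq.continuous_mk.comp γ.continuous)) z z' ht.deg ht'.deg
    (ht.supp.trans (singleton_subset_iff.2 ⟨0, congrArg _ γ.source⟩))
    (ht'.supp.trans (singleton_subset_iff.2 ⟨1, congrArg _ γ.target⟩)) (h1.trans h1'.symm))
  have s : ∀ {l}, l ∈ F.B → (F.atw l wt wl wk).cone ⊆ F.cone := fun hl _ a =>
    ((mem_cone_atw hl).1 a).1
  refine inv_eq_inv ((F.eventually_bigD k).mono fun D hD => ?_)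
  refine (h.intg_atw St.dg hk hD hl hB ht h1 Subset.rfl Subset.rfl hA hA' ((s hl).trans hA)
    (fun _ a => hA' ⟨s hl a.1, a.2⟩) Θ _ d v₁ v₂ v₃).trans (Eq.trans ?_
    (h.intg_atw St.dg hk hD hl' hB ht' h1' Subset.rfl Subset.rfl hA hA' ((s hl').trans hA)
    (fun _ a => hA' ⟨s hl' a.1, a.2⟩) Θ _ d v₁ v₂ v₃).symm)
  have hz := h.gz (Fin b) hk hD (j + 1 - b) d (ord₃ (a := a) v₃)
  have hd := (h.dg St.dg).1
  rw [hz.parF_eq fun _ a => a.1.1.1, hz.parF_eq fun _ a => a.1.1.1, ev_eq, ev_eq]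
  exact congrArg _ (cls_mul_congr (Cohom.pull (A := supp y) ⟨y, Subset.rfl, y₂⟩
    (hz.eqh_par fun _ a => a.1.1.1).toEqv.qm.continuous) (h.toGood.isCompact_dia' hk hD _ hz y₁)
    (inter_subset_inter_left _ (hz.supp_prod hd dg_mem_fsC)) fun _ _ => supp_eq_empty.1
      (hz.cocycle_prod hd fun f hf => h.at_of_ok hk hD (ok_fsC (subset_univ _) hA hA' f hf)) _)

end Fam

theorem St.fib (hW : St.Well) : St.Fib := fun F δ k n c A A' l h hc _ hb hx hk hl hA hA' =>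
  ⟨h.atw hl, fun d j l₁ l₂ l₃ => by
    rw [Fam.cor_map, F.cor_eq_corF _ _ _ _ _ _ _ rfl rfl rfl]
    exact h.corF_fib hW hc hb hx hk hl hA hA' d j _ _ _⟩

theorem St.dfm : St.Def := fun F k Θ A l l' h hk hA hj d j l₁ l₂ => by
  have := h.corF_def (wt := F.wt) (wl := F.wl) (wk := F.wk) hk hA (fun _ a => hA a.1) hj Θ d j
    l₁.get l₂.get (List.get [])
  have e : ∀ l, (F.atw l F.wt F.wl F.wk).pb F.toWt id A = fun c => c := fun _ =>
    funext fun c => (Wt.pb_id (F := F.toWt) Subset.rfl c).trans (Wt.rs_self _ c)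
  rw [e] at this
  rw [Fam.cor_eq_corF _ _ _ _ _ _ _ _ rfl rfl rfl, Fam.cor_eq_corF _ _ _ _ _ _ _ _ rfl rfl rfl]
  exact this

end Vale.Agent.P269
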