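import Vale.Agent.P269.Bas.NF
import Vale.Agent.P269.Map.W
import Vale.Agent.P269.Vir.KP

set_option linter.unusedSectionVars false
set_option linter.unusedVariables false
set_option linter.style.haveILetI false

/-!
# Base change of the factors
-/

namespace Vale.Agent.P269

open P291Z Set Function Topology Filter

variable {S S' Λ Λ' R J K K' ι ν κ ν' κ' : Type} [Fintype S] [Fintype S'] [Fintype Λ] [Fintype Λ']
  [Fintype R] [Fintype J] [Fintype K] [Fintype K'] [Fintype ι] [DecidableEq ι] [Fintype ν]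
  [Fintype κ] [Fintype ν'] [Fintype κ']

namespace Ch

/-- pull-back of the classes of a bundle along a map that identifies the fibres -/
theorem SD.Ok.pull_id {A A' W W' P : Type} [NormedRing A] [NormedAlgebra ℂ A]
    [NormedAddCommGroup W] [NormedSpace ℂ W] [NormedRing A'] [NormedAlgebra ℂ A']
    [NormedAddCommGroup W'] [NormedSpace ℂ W'] [AddCommGroup P] [Module ℂ P] [TopologicalSpace P]
    [IsTopologicalAddGroup P] [ContinuousSMul ℂ P] [T2Space P] {act : A → W → W}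
    {act' : A' → W' → W'} {T : Set W} {T' : Set W'} {E : SD A W P} {E' : SD A' W' P}
    {r r' q q' : ℕ} {θ : A' → A} {f : W' → W} [Holo.IsAct act T] [Holo.IsAct act' T']
    (h' : E'.Ok act' T' q q') (h : E.Ok act T r r') (ho' : Orb.Orb A'ˣ (Holo.Sp act' T'))
    (ho : Orb.Orb Aˣ (Holo.Sp act T)) (hf : EqM act' act T' T θ f)
    (hB : ∀ x ∈ T', E.B (f x) = E'.B x) (hN : ∀ x ∈ T', E.N (f x) = E'.N x)
    (hρ : ∀ x ∈ T', ∀ a, IsUnit a → ∀ w ∈ E'.B x, E'.ρ a w = E.ρ (θ a) w) :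
    hcls (E'.eu act' T') = H.map hf.map (hcls (E.eu act T)) ∧
      E'.ch act' T' = PowerSeries.map (Hev.map hf.map).toRingHom (E.ch act T) := by
  rw [H.map_hcls _ (h.cocycle ho)]
  exact h'.pull ho' ho h hf (L := fun _ => .id) ⟨fun _ _ => continuousOn_const,
    fun x a _ c => (hB x a).ge c, fun x a _ c => (hN x a).ge c, fun x a s hs w c =>
      mem_of_eq_of_mem (sub_eq_zero.2 (hρ x a s hs w c)) (zero_mem _)⟩
    (fun x a _ _ c => (hN x a).le c) fun x a w c =>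
      ⟨w, (hB x a).le c, mem_of_eq_of_mem (sub_self _) (zero_mem _)⟩

variable {ch : Ch ι J}

section same

variable {μ μ' : Type} [Fintype μ] [Fintype μ'] {s : ch.A μ} {s' : ch.A μ'}

theorem sub_congr (h : s.1 = s'.1) {σ : Type} [Fintype σ] (τ : σ → ι) : sub s τ = sub s' τ := by
  simp only [sub, h]

theorem ρ_congr (h : s.1 = s'.1) (h' : s.2.1 = s'.2.1) (w : ch.P K) : ρ s w = ρ s' w := by
  simp only [ρ, sub, h, h']

end same

/-- A map that keeps the curve and the fields; the parameters change by `p`, the marked point `n` of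
the image is the marked point `m n`. -/
structure BC (W' : Wt S' Λ' R J) (W : Wt S Λ R J) (Z' : Set (ch.WF ν' κ' Λ'))
    (Z : Set (ch.WF ν κ Λ)) (m : Mk ν κ → Mk ν' κ') (φ : (S' → ℂ) → S → ℂ)
    (p : (Λ' → ℂ) → Λ → ℂ) (θ : ch.AF ν' κ' S' → ch.AF ν κ S)
    (f : ch.WF ν' κ' Λ' → ch.WF ν κ Λ) : Prop extends EqM (actF W') (actF W) Z' Z θ f where
  θS : ∀ s, (θ s).1 = φ s.1
  θV : ∀ s, (θ s).2.1 = s.2.1
  θE : ∀ s, (θ s).2.2.1 = s.2.2.1
  θn : ∀ s n, (dup (θ s).2).2.2 n = (dup s.2).2.2 (m n)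
  fL : ∀ x ∈ Z', (f x).1 = p x.1
  fQ : ∀ x ∈ Z', (f x).2.Q = x.2.Q
  fX : ∀ x ∈ Z', (f x).2.X = x.2.X
  fp : ∀ x ∈ Z', ∀ n, (f x).2.p n = x.2.p (m n)

namespace BC

variable {m : Mk ν κ → Mk ν' κ'} {φ : (S' → ℂ) → S → ℂ} {p : (Λ' → ℂ) → Λ → ℂ}
  {θ : ch.AF ν' κ' S' → ch.AF ν κ S} {f : ch.WF ν' κ' Λ' → ch.WF ν κ Λ}
  {Z' Z₀' : Set (ch.WF ν' κ' Λ')} {Z Z₀ : Set (ch.WF ν κ Λ)} {x : ch.WF ν' κ' Λ'}

section wt

variable {W' : Wt S' Λ' R J} {W : Wt S Λ R J} (b : BC W' W Z' Z m φ p θ f)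
include b

theorem mono (e : Z₀' ⊆ Z') (e' : MapsTo f Z₀' Z₀) : BC W' W Z₀' Z₀ m φ p θ f :=
  ⟨b.toEqM.mono e e', b.θS, b.θV, b.θE, b.θn, fun x a => b.fL x (e a), fun x a => b.fQ x (e a),
    fun x a => b.fX x (e a), fun x a => b.fp x (e a)⟩

theorem gr_eq (hx : x ∈ Z') : gr (f x).2 = gr x.2 := by simp only [gr, b.fQ x hx]

theorem crv_eq (hx : x ∈ Z') : crv (f x).2 = crv x.2 := congrArg (Prod.fst '' ·) (b.gr_eq hx)

theorem fld_eq (hx : x ∈ Z') : fld (f x).2 = fld x.2 := funext₂ fun c j =>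
  congrArg Classical.epsilon (funext fun y => by simp only [Val, b.gr_eq hx, b.fX x hx])

theorem vl_eq (hx : x ∈ Z') (n : Mk ν κ) : vl (f x) n = (p x.1, (vl x (m n)).2) := by
  rw [vl, b.fL x hx, b.fld_eq hx, b.fp x hx, vl]

theorem ρ_eq (s : ch.AF ν' κ' S') (w : ch.P K) : ρ (dup s.2) w = ρ (dup (θ s).2) w :=
  ρ_congr (b.θV s).symm (b.θE s).symm w

end wt

/-- comparison of the Kuranishi data -/
theorem lin {F' : Fam S' Λ' R J K} {F : Fam S Λ R J K} (b : BC F'.toWt F.toWt Z' Z m φ p θ f)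
    (e : K → ι → ℕ) (hs : ∀ k, (F'.G k).support = (F.G k).support) (hm : F'.mov = F.mov)
    (hF : ∀ x ∈ Z', (F'.fib x.1).F = (F.fib (p x.1)).F)
    (hw : ∀ s, IsUnit s → ∀ j, ∏ i, s i ^ F'.wt j i = ∏ i, φ s i ^ F.wt j i)
    (hk : ∀ s, IsUnit s → ∀ k, ∏ i, s i ^ F'.wk k i = ∏ i, φ s i ^ F.wk k i) :
    (ch.kd ν' κ' F' e).Lin (ch.kd ν κ F e) θ f Z' LinearMap.id ∧
      (ch.kd ν' κ' F' e).Inj (ch.kd ν κ F e) f Z' LinearMap.id ∧
      (ch.kd ν' κ' F' e).Srj (ch.kd ν κ F e) f Z' LinearMap.id := by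
  have a : ch.polF F e = ch.polF F' e := congrArg (ch.polS e) (funext hs).symm
  have c : ∀ x ∈ Z', hmg (ch := ch) (F.fib (f x).1) e = hmg (F'.fib x.1) e := fun x hx => by
    funext k ζ c y
    simp only [hmg, b.fL x hx, hF x hx]
  have v : ∀ x ∈ Z', vanM F e (f x) = vanM F' e x := fun x hx => by
    rw [vanM, vanM, a, b.gr_eq hx]
  have o : ∀ x ∈ Z', obsM F e (f x) = obsM F' e x := fun x hx => Submodule.ext fun w => by
    rw [← mem_obsF, ← mem_obsF]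
    simp only [obsF, a, b.gr_eq hx, c x hx, b.fX x hx, hm]
  have s : ∀ x ∈ Z', sctF F e (f x) = sctF F' e x := fun x hx => by
    simp only [sctF, sct, c x hx, b.fX x hx]
  refine ⟨⟨fun w h => a.ge h, fun t ht w _ => ?_, fun x hx w h => (v x hx).ge h, fun x hx =>
    mem_of_eq_of_mem (sub_eq_zero.2 (s x hx).symm) (zero_mem _), fun x hx _ w h => (o x hx).ge h⟩,
    fun x hx w _ h => (v x hx).le h, fun x hx w h =>
      ⟨w, (o x hx).le h, mem_of_eq_of_mem (sub_self _) (zero_mem _)⟩⟩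
  change ρF F' t w = ρF F (θ t) w
  simp only [ρF, b.θS, ← hw _ (isUnit_S ht), ← hk _ (isUnit_S ht)]
  exact b.ρ_eq t _

variable {F' : Fam S' Λ' R J K'} {F : Fam S Λ R J K} {ℓ ℓ' : R → ι → ℤ}
  (b : BC F'.toWt F.toWt Z' Z m φ p θ f) (h' : GZ F' ℓ' Z') (h : GZ F ℓ Z)
include b h' h

theorem cl_psi (n : Mk ν κ) :
    F'.cl Z' (.psi (m n)) = H.map b.toEqM.map (F.cl Z (.psi n)) := by
  haveI := h.act
  haveI := h'.act
  rw [h.cl_psi, h'.cl_psi, map_neg, ((h'.psi (m n)).pull_id (h.psi n) h'.orb h.orb b.toEqM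
    (fun x hx => by simp only [b.crv_eq hx, b.fp x hx]) (fun x hx => by simp only [b.fp x hx])
    fun x hx s _ w _ => by simp only [b.θn, b.θV]).1]

theorem cl_ev {A' A : Set _} (e : Tq.Eqv F'.actT F.actT A' A fun z => (p z.1, z.2)) {n : Mk ν κ}
    (hA' : ∀ x ∈ Z', vl x (m n) ∈ A') (hA : ∀ x ∈ Z, vl x n ∈ A) (c : H (F.X A)) :
    F'.cl Z' (.ev (m n) A' (H.map e.qm c)) = H.map b.toEqM.map (F.cl Z (.ev n A c)) := by
  rw [h.cl_ev n hA, h'.cl_ev _ hA', H.map_map, H.map_map]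
  exact congrArg (H.map · c) (ContinuousMap.ext fun z => Quot.inductionOn z fun x =>
    congrArg (Quo.mk _) (Subtype.ext (b.vl_eq x.2 n).symm))

theorem cl_par {A' A : Set _} (e : Tq.Eqv F'.actL F.actL A' A p) (hA' : ∀ x ∈ Z', x.1 ∈ A')
    (hA : ∀ x ∈ Z, x.1 ∈ A) (c : H (F.Bs A)) :
    F'.cl Z' (.par A' (H.map e.qm c)) = H.map b.toEqM.map (F.cl Z (.par A c)) := by
  rw [h.cl_par hA, h'.cl_par hA', H.map_map, H.map_map]
  exact congrArg (H.map · c) (ContinuousMap.ext fun z => Quot.inductionOn z fun x =>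
    congrArg (Quo.mk _) (Subtype.ext (b.fL x x.2).symm))

theorem indC_eq {j : J} (hw : ∀ s, IsUnit s → ∏ i, s i ^ F'.wt j i = ∏ i, φ s i ^ F.wt j i) :
    indC F'.toWt Z' j = PowerSeries.map (Hev.map b.toEqM.map).toRingHom (indC F.toWt Z j) := by
  haveI := h.act
  haveI := h'.act
  obtain ⟨_, a⟩ := h.fld j
  obtain ⟨_, a'⟩ := h'.fld j
  obtain ⟨_, _, c⟩ := h.kos j
  obtain ⟨_, _, c'⟩ := h'.kos j
  have u := (a'.pull_id a h'.orb h.orb b.toEqM (fun _ _ => rfl) (fun _ _ => rfl)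
    fun x hx s hs w _ => by
      simp only [ρX, b.θS, b.θE, hw _ (isUnit_S hs),
        sub_congr (s := dup s.2) (s' := dup (θ s).2) (b.θV s).symm]).2
  have v := (c'.pull_id c h'.orb h.orb b.toEqM (fun x hx => by simp only [b.gr_eq hx])
    (fun x hx => by simp only [b.gr_eq hx]) fun x hx s hs w hw' => by
      have k : ∀ i ≠ j, w.1 i = 0 := fun i hi => by
        refine Submodule.span_induction (fun _ g => g.1.2 i hi) rfl (fun _ _ _ _ g g' => ?_)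
          (fun _ _ _ g => ?_) hw'
        · rw [Prod.fst_add, Pi.add_apply, g, g', add_zero]
        · rw [Prod.smul_fst, Pi.smul_apply, g, smul_zero]
      change ρK F'.toWt s w = ρK F.toWt (θ s) w
      rw [ρK, ρK, b.ρ_eq]
      refine congrArg (fun g => ρ _ (g, w.2)) (funext fun i => ?_)
      rcases eq_or_ne i j with rfl | hi
      · rw [b.θS, hw _ (isUnit_S hs)]
      · rw [k i hi, smul_zero, smul_zero]).2
  rw [Ch.indC_eq, Ch.indC_eq, u, v, map_mul, map_invOfUnit]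

theorem cl_tw (hw : ∀ s, IsUnit s → ∀ j, ∏ i, s i ^ F'.wt j i = ∏ i, φ s i ^ F.wt j i)
    (Θ : MvPolynomial (J × ℕ) ℂ) :
    F'.cl Z' (.tw Θ) = H.map b.toEqM.map (F.cl Z (.tw Θ)) := by
  rw [Fam.cl_tw, Fam.cl_tw, ← Hev.coe_map, MvPolynomial.comp_aeval_apply]
  simp only [fun j => b.indC_eq h' h (j := j) fun s hs => hw s hs j, PowerSeries.coeff_map]
  rfl

theorem qm_nd (e : Tq.Eqv F'.act2 F.act2 F'.cone2 F.cone2 fun z => (p z.1, z.2)) {q : κ} {q' : κ'}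
    (hq : ∀ a, m (.inr (q, a)) = .inr (q', a)) :
    (h.eqh_nd q).toEqv.qm ∘ b.toEqM.map = e.qm ∘ (h'.eqh_nd q').toEqv.qm :=
  funext fun z => Quot.inductionOn z fun x => congrArg (Quo.mk _) (Subtype.ext (by
    change vl2 (f x) _ _ = (p x.1.1, (vl2 x.1 _ _).2)
    rw [vl2, b.fL x x.2, b.fld_eq x.2, b.fp x x.2, b.fp x x.2, hq, hq, vl2]))

/-- the evaluation maps at a node commute with the base change -/
theorem coch_dg (e : Tq.Eqv F'.act2 F.act2 F'.cone2 F.cone2 fun z => (p z.1, z.2)) {q : κ} {q' : κ'}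
    (hq : ∀ a, m (.inr (q, a)) = .inr (q', a)) :
    pull b.toEqM.map (F.coch Z (.dg q)) = evN q' F'.cone2 (pull e.qm F.diag) := by
  rw [show F.coch Z (.dg q) = _ from h.evN_eq q _, h'.evN_eq, pull_pull, pull_pull,
    b.qm_nd h' h e hq]

theorem rp_dg (hd' : F'.IsDiag F'.diag)
    (e : Tq.Eqv F'.act2 F.act2 F'.cone2 F.cone2 fun z => (p z.1, z.2))
    (hc : Cohom F'.Δ2 F'.diag (pull e.qm F.diag)) {q : κ} {q' : κ'}
    (hq : ∀ a, m (.inr (q, a)) = .inr (q', a)) :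
    F'.Rp Z' (.dg q') (pull b.toEqM.map (F.coch Z (.dg q))) := by
  rw [b.coch_dg h' h e hq, Fam.Rp, show F'.coch Z' (.dg q') = _ from h'.evN_eq q' _, h'.evN_eq,
    show Fac.spt Z' (.dg q') = _ from h'.diq_eq q']
  exact hc.pull (h'.eqh_nd q').toEqv.qm.continuous

theorem rp_of_cl (hd' : F'.IsDiag F'.diag) (hd : F.IsDiag F.diag) {g' : Fac F'.toWt ν' κ'}
    {g : Fac F.toWt ν κ} (hA' : g'.At Z') (hA : g.At Z) (hg : g'.dq = none)
    (e : F'.cl Z' g' = H.map b.toEqM.map (F.cl Z g)) :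
    F'.Rp Z' g' (pull b.toEqM.map (F.coch Z g)) :=
  (NF.cohom_of_hcls (h'.cocycle hd' hA') (cocycle_pull b.toEqM.map.continuous (h.cocycle hd hA))
    (e.trans (H.map_hcls _ (h.cocycle hd hA)))).mono (Fac.spt_of_dq Z' hg).ge

end BC

theorem GZ.cl_par_one {F : Fam S Λ R J K} {ℓ : R → ι → ℤ} {Z : Set (ch.WF ν κ Λ)} (h : GZ F ℓ Z)
    {A : Set _} (hA : ∀ x ∈ Z, x.1 ∈ A) : F.cl Z (.par A 1 : Fac F.toWt ν κ) = 1 := by
  rw [h.cl_par hA, map_one]

end Ch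

end Vale.Agent.P269
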