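import Vale.Agent.P269.Bas.TrivC
import Vale.Agent.P269.Bas.BC
import Vale.Agent.P269.Bas.Lv
import Vale.Agent.P269.Bas.Dg

set_option linter.unusedSectionVars false
set_option linter.style.haveILetI false

/-!
# The invariants of trivial families
-/

namespace Vale.Agent.P269

open P291Z Set Function Topology Filter

variable {S Λ Λ₀ R J K K' ι ν κ : Type} [Fintype S] [Fintype Λ] [Fintype Λ₀] [Fintype R] [Fintype J]
  [Fintype K] [Fintype K'] [Fintype ι] [DecidableEq ι] [Fintype ν] [Fintype κ]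

namespace Fac

variable (W : Wt S Λ R J) {W₀ : Wt Empty Λ₀ R J} (l₀ : Λ₀ → ℂ)
  (T : Ch.Mk ν κ → Set ((Λ → ℂ) × (J → ℂ)))

/-- The factor on the trivial family. -/
noncomputable def tv : Fac W₀ ν κ → Fac W ν κ
  | .psi n => .psi n
  | .ev n _ c => .ev n (T n) (W.pb W₀ (fun z => (l₀, z.2)) (T n) c)
  | .dg q => .dg q
  | _ => .tw 1

/-- The factors that can be transferred to the trivial family. -/
def Tv : Fac W₀ ν κ → Prop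
  | .ev n A _ => Tq.Eqv W.actT W₀.actT (T n) A fun z => (l₀, z.2)
  | .par _ c => c = 1
  | .tw Θ => Θ = 1
  | _ => True

end Fac

theorem Wt.fsC_tv (W : Wt S Λ R J) {W₀ : Wt Empty Λ₀ R J} (l₀ : Λ₀ → ℂ) (e : W.Ex) (e₀ : W₀.Ex)
    (A A') {A₀ A₀'} {a b c : ℕ} (v₁ : Fin a → ℕ × H (W₀.X A₀)) (v₂ : Fin b → ℕ × ℕ)
    (v₃ : Fin c → ℕ × H (W₀.X A₀')) :
    W.fsC e A A' (fun i => Prod.map id (W.pb W₀ (fun z => (l₀, z.2)) A) (v₁ i)) v₂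
      (fun i => Prod.map id (W.pb W₀ (fun z => (l₀, z.2)) A') (v₃ i)) =
    .tw e.Θ :: .par e.B e.c :: (W₀.fsC e₀ A₀ A₀' v₁ v₂ v₃).tail.tail.map
      (Fac.tv W l₀ (Sum.elim (Sum.elim (fun _ => A) fun _ => A') fun _ => A)) := by
  simp only [Wt.fsC, List.tail_cons, List.map_append, List.map_flatten, List.map_ofFn,
    Function.comp_def, List.map_replicate, List.map_cons, List.map_nil]
  rfl

variable {F : Fam S Λ R J K} {F₀ : Fam Empty Λ₀ R J K'} {l₀ : Λ₀ → ℂ}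

namespace Fam.Triv

variable (h : F.Triv F₀ l₀)
include h

theorem eqvT {A A₀} (m : MapsTo (fun z => (l₀, z.2)) A A₀) (hz : ∀ j ∈ F.zer, ∀ z ∈ A, z.2 j = 0) :
    Tq.Eqv F.actT F₀.actT A A₀ fun z => (l₀, z.2) :=
  ⟨m, (continuous_const.prodMk continuous_snd).continuousOn, fun t a z b => ⟨(1, t.2),
    isUnit_T.2 ⟨fun _ => one_ne_zero, (isUnit_T.1 a).2⟩, h.actT_eq t fun j c => hz j c z b⟩⟩

theorem eqv2 : Tq.Eqv F.act2 F₀.act2 F.cone2 F₀.cone2 fun z => (l₀, z.2) :=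
  ⟨fun _ a => ⟨⟨(h.mem_cone.1 a.1.1).2, (h.mem_cone.1 a.1.2).2⟩,
    fun j b => a.2 j fun c => b (h.mov.ge c)⟩, (continuous_const.prodMk continuous_snd).continuousOn,
    fun t a _ b => ⟨(1, t.2), isUnit_T.2 ⟨fun _ => one_ne_zero, (isUnit_T.1 a).2⟩,
      Prod.ext (F₀.actL_empty _ _).symm (Prod.ext
        (congrArg Prod.snd (h.actT_eq t ((Fam.mem_cone _).1 b.1.1).1.2.2) :)
        (congrArg Prod.snd (h.actT_eq t ((Fam.mem_cone _).1 b.1.2).1.2.2) :))⟩⟩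

theorem cp [DecidableEq R] : F₀.Cp :=
  haveI : CompactSpace F₀.B := isCompact_iff_compactSpace.1 (h.B ▸ isCompact_singleton)
  Tq.mk_surj.compactSpace Tq.continuous_mk

theorem cohom [DecidableEq R] {δ : J → ℕ} (hN : F.Nice δ) (hN₀ : F₀.Nice δ) :
    Cohom F.Δ2 F.diag (pull h.eqv2.qm F₀.diag) := by
  obtain ⟨_, r⟩ := hN.reg
  obtain ⟨_, r₀⟩ := hN₀.reg
  exact (hN.dg St.dg).2.2 _ _ (hN.dg St.dg).1 (IsDiag.pull (p := fun _ => l₀) hN₀.toInv hN.toInv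
    h.eqv2 (fun _ a => vert_eq hN₀.toInv hN.toInv r₀ r h.mov.symm (h.cone _ a.1)
      (h.mem_cone.1 a).2) (hN₀.dg St.dg).1)

end Fam.Triv

namespace Ch

variable {ch : Ch ι J} {ℓ ℓ' : R → ι → ℤ} {Z : Set (ch.WF ν κ Λ)} {Z' : Set (ch.WF ν κ Λ₀)}

theorem Vm.main {e : K → ι → ℕ} {u : ν → J → ℕ} {n : ℕ} (v : Vm F e u Z n) :
    Vd F e (ch.cyc κ F u) (ch.cyc κ F u ∩ Z ∩ ch.dom ν κ F e)
      (ch.cyc κ F u ∩ Z ∩ ch.dom ν κ F e ∩ ch.main κ F u) n :=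
  (subset_antisymm (fun _ a => ⟨v.cyc.sub a, a.1.1⟩) fun _ a => ⟨⟨a.2, a.1.1.2⟩, a.1.2⟩ :
    ch.main κ F u ∩ Z ∩ _ = ch.cyc κ F u ∩ Z ∩ ch.dom ν κ F e ∩ ch.main κ F u) ▸ v

/-- the integrand is a product -/
theorem ev_tv (h : F.Triv F₀ l₀) (hz : GZ F ℓ Z) (hz' : GZ F₀ ℓ' Z') (b : PrT F F₀ l₀ Z Z')
    [Mono.FP F.actL F.B] [CompactSpace (F.Bs F.B)] (hd : F.IsDiag F.diag) (hd' : F₀.IsDiag F₀.diag)
    (hu : Cohom F.Δ2 F.diag (pull h.eqv2.qm F₀.diag)) {T} {L : List (Fac F₀.toWt ν κ)}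
    (hL : ∀ x ∈ L, x.Tv F.toWt l₀ T) (hA : ∀ f ∈ L.map (Fac.tv F.toWt l₀ T), f.At Z)
    (hA' : ∀ x ∈ L, x.At Z') (hq : ∀ q, .dg q ∈ L) (hc : IsCompact (dia F.toWt Z))
    (hc' : IsCompact (dia F₀.toWt Z')) {s} (hs : IsClopen s) {B} (hB : F.B ⊆ B) {c : H (F.Bs B)}
    (hE : c ∈ Hev _) (α β) :
    ev (cross b.eqh.toEqv.qm b.eqM.map α β) (ind (b.eqM.map ⁻¹' s) *
      ((.tw 1 :: .par B c :: L.map (Fac.tv F.toWt l₀ T)).map (F.coch Z)).prod) =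
    ev α (rep (F.rsB hB c)) * ev β (ind s * ((.tw 1 :: .par univ 1 :: L).map (F₀.coch Z')).prod) := by
  haveI := hz'.act
  haveI := hz.act
  haveI := nice_of_orb hz'.orb
  haveI := nice_of_orb hz.orb
  haveI := nice_of_orb (Tq.orb F.actL F.B)
  have bc : BC F.toWt F₀.toWt Z Z' id (fun _ => 1) (fun _ => l₀) _ _ := ⟨b.eqM, fun _ => rfl,
    fun _ => rfl, fun _ => rfl, fun _ _ => rfl, fun _ _ => rfl, fun _ _ => rfl, fun _ _ => rfl,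
    fun _ _ _ => rfl⟩
  have p : ∀ x ∈ Z, x.1 ∈ B := fun x a => hB ((b.mem x).1 a).1
  have p' : ∀ x ∈ Z', x.1 ∈ univ := fun _ _ => trivial
  have a₁ := cocycle_ind' (hs.preimage b.eqM.map.continuous)
  have a₂ := hz.cocycle hd (f := .tw 1) trivial
  have a₃ := hz.cocycle hd (f := .par B c) p
  have b₂ := hz'.cocycle hd' (f := .tw 1) trivial
  have b₃ := hz'.cocycle hd' (f := .par univ 1) p'
  have b₄ := cocycle_mul (cocycle_mul (cocycle_ind' hs) b₂) b₃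
  have c₁ := Mono.DgI.rep_cocycle (F.rsB hB c)
  have c₂ := cocycle_pull b.eqh.toEqv.qm.continuous c₁
  have c₃ := cocycle_pull b.eqM.map.continuous b₄
  have m : List.Forall₂ (fun f x => F.Rp Z f (pull b.eqM.map (F₀.coch Z' x)))
      (L.map (Fac.tv F.toWt l₀ T)) L := by
    refine List.forall₂_map_left_iff.2 (List.forall₂_same.2 fun x hx => ?_)
    have f := hA _ (List.mem_map_of_mem hx)
    have g := hL x hx
    have k := hA' x hx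
    cases x with
    | psi n => exact bc.rp_of_cl hz hz' hd hd' f k rfl (bc.cl_psi hz hz' n)
    | ev n A c => exact bc.rp_of_cl hz hz' hd hd' f k rfl ((congrArg (fun c => F.cl Z (.ev n _ c))
        (Wt.pb_eq g c)).trans (bc.cl_ev hz hz' g f k c))
    | par A c =>
      obtain rfl : c = 1 := g
      exact bc.rp_of_cl hz hz' hd hd' f k rfl (Fam.cl_tw_one.trans (by rw [hz'.cl_par_one k, map_one]))
    | dg q => exact bc.rp_dg hz hz' hd h.eqv2 hu fun _ => rfl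
    | tw Θ =>
      obtain rfl : Θ = 1 := g
      exact bc.rp_of_cl hz hz' hd hd' f k rfl (Fam.cl_tw_one.trans (by rw [Fam.cl_tw_one, map_one]))
  simp only [List.map_cons, List.prod_cons, ← mul_assoc]
  rw [hz.ev_pull hd hA m (fun q => List.mem_map_of_mem (hq q))
    (cocycle_mul (cocycle_mul a₁ a₂) a₃) (cocycle_mul c₂ c₃) ?_ hc, mul_assoc, ← map_mul]
  · exact cross_spec b.isHomeomorph α β _ (Zc_of_compact c₁) _ (hz'.mem_Zc hd' hA' hq b₄ hc')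
  · rw [hcls_mul (cocycle_mul a₁ a₂) a₃, hcls_mul a₁ a₂, hcls_mul c₂ c₃, ← H.map_hcls _ c₁,
      ← H.map_hcls _ b₄, hcls_mul (cocycle_mul (cocycle_ind' hs) b₂) b₃,
      hcls_mul (cocycle_ind' hs) b₂, Mono.DgI.hcls_rep]
    change _ * F.cl Z _ * F.cl Z _ = _ * H.map _ (_ * F₀.cl Z' _ * F₀.cl Z' _)
    rw [Fam.cl_tw_one, Fam.cl_tw_one, hz'.cl_par_one p', mul_one, mul_one, mul_one,
      H.map_hcls _ (cocycle_ind' hs), pull_ind, hz.cl_par p, ← Hev.commute (map_mem_Hev _ hE)]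
    exact congrArg (· * _) ((congrArg (H.map · c) (ContinuousMap.ext fun z =>
      Quot.inductionOn z fun _ => rfl)).trans (H.map_map _ _ c).symm)

/-- the integrals in a chart -/
theorem Ok.ev_tv [DecidableEq R] {δ : J → ℕ} (h : F.Triv F₀ l₀) (hN : F.Nice δ) (hN₀ : F₀.Nice δ)
    (hC : F.Cp) {e e₀ K₁ K₀ n n₀ d d₀} {u : ν → J → ℕ} (o : ch.Ok F e K₁ ℓ n Z)
    (o₀ : ch.Ok F₀ e₀ K₀ ℓ n₀ Z') (v : Vm F e u Z d) (v₀ : Vm F₀ e₀ u Z' d₀)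
    {T} {L : List (Fac F₀.toWt ν κ)} (hL : ∀ x ∈ L, x.Tv F.toWt l₀ T)
    (hA : ∀ f ∈ L.map (Fac.tv F.toWt l₀ T), f.At (ch.solF ν κ F ∩ ch.cyc κ F u))
    (hA' : ∀ x ∈ L, x.At (ch.solF ν κ F₀ ∩ ch.cyc κ F₀ u)) (hq : ∀ q, .dg q ∈ L)
    (hc : IsCompact (dia F.toWt (ch.solF ν κ F ∩ ch.cyc κ F u)))
    (hc' : IsCompact (dia F₀.toWt (ch.solF ν κ F₀ ∩ ch.cyc κ F₀ u))) {P P₀}
    (i : AM.Ivt F.toWt P) (i₀ : AM.Ivt F₀.toWt P₀) (hP : ∀ m, m.Sol F → (P m ↔ P₀ (m.atl l₀)))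
    (hs : IsClopen (selQ F₀.toWt ℓ (ch.solF ν κ F₀ ∩ ch.cyc κ F₀ u) P₀)) {B} (hB : F.B ⊆ B)
    {c : H (F.Bs B)} (hE : c ∈ Hev _) :
    ev (virF F e (ch.cyc κ F u)) (ind (selQ _ ℓ _ P) *
      ((.tw 1 :: .par B c :: L.map (Fac.tv F.toWt l₀ T)).map (F.coch _)).prod) =
    F.intB _ (F.rsB hB c) * ev (virF F₀ e₀ (ch.cyc κ F₀ u)) (ind (selQ _ ℓ _ P₀) *
      ((.tw 1 :: .par univ 1 :: L).map (F₀.coch _)).prod) := by
  haveI := hN.toGood.fpB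
  have b := prT h (fun _ => tv_inter h fun _ => tv_cyc h) (v₀.gz o₀.toStd).adm
  rw [virF_tv h (.of_mfd fun x hx => ⟨hx, o.sm ⟨x, hx⟩⟩) o.toStd o₀.toStd (fun _ => tv_cyc h)
    (fun _ => tv_main h) v.main v₀.main b, selQ_ext o.lat inter_subset_left i
      (U := b.eqM.map ⁻¹' selQ _ ℓ _ P₀) fun x m r => (mem_selQ (x := ⟨_, b.eqM.maps x.2⟩) o₀.wt
        (fun _ a => a.1.1.2.1) i₀ (m := m.atl l₀) ⟨rfl, r.2⟩).trans
          (hP m ((r.mem_solF x.2.1.1.2.1 o.inv o.wt).1 x.2.1)).symm]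
  exact Ch.ev_tv h (v.gz o.toStd) (v₀.gz o₀.toStd) b (hN.dg St.dg).1 (hN₀.dg St.dg).1
    (h.cohom hN hN₀) hL hA hA' hq hc hc' hs hB hE _ _

end Ch

theorem Fam.Triv.inv_eq [DecidableEq R] (hW : St.Well) (h : F.Triv F₀ l₀) {δ k g d} {u : ν → ℕ}
    {P P₀ T} {L : List (Fac F₀.toWt ν κ)} {B} (hB : F.B ⊆ B) {c : H (F.Bs B)} (hE : c ∈ Ch.Hev _)
    (I : F.Iv δ k g d u P (.tw 1 :: .par B c :: L.map (Fac.tv F.toWt l₀ T)))
    (I₀ : F₀.Iv δ k g d u P₀ (.tw 1 :: .par univ 1 :: L))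
    (hP : ∀ m, m.Sol F → (P m ↔ P₀ (m.atl l₀))) (hL : ∀ x ∈ L, x.Tv F.toWt l₀ T) :
    F.inv k g d (fun n => u n • δ) P (.tw 1 :: .par B c :: L.map (Fac.tv F.toWt l₀ T)) =
      F.intB _ (F.rsB hB c) * F₀.inv k g d (fun n => u n • δ) P₀ (.tw 1 :: .par univ 1 :: L) := by
  obtain ⟨_, _, -, -, v⟩ := I.nice.vd κ I.big g d u
  obtain ⟨_, _, -, -, v₀⟩ := I₀.nice.vd κ I₀.big g d u
  refine Fam.inv_eq_of_eventually ?_
  filter_upwards [I.lvl, I₀.lvl, I₀.well hW, v, v₀] with D a a₀ f ⟨_, _, _, o, v⟩ ⟨_, _, _, o₀, v₀⟩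
  rw [f]
  obtain ⟨⟨w, wt, wl⟩, θ, χ, wk, G, B₀, U, E, mov, zer⟩ := F₀
  obtain rfl : w = F.w := h.w
  obtain rfl : θ = F.θ := h.θ
  exact o.ev_tv h I.nice I₀.nice I.cp o₀ v v₀ hL (fun x hx => a.fac x (.tail _ (.tail _ hx)))
    (fun x hx => a₀.fac x (.tail _ (.tail _ hx))) (fun q => ((List.mem_cons.1 ((List.mem_cons.1
      (a₀.dg q)).resolve_left nofun)).resolve_left nofun)) a.cpt a₀.cpt I.sel.1 I₀.sel.1 hP a₀.clo
    hB hE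

theorem St.triv (hW : St.Well) : St.Triv := by
  intro S Λ Λ₀ R J K K' _ _ _ _ _ _ _ _ F F₀ l₀ δ k P P₀ B c hB A A' A₀ A₀' hN hC hN₀ h hk hk₀ hE hE₀
    hP hA hA' m m' hz d j l₁ l₂ l₃
  rw [Fam.cor_map, F₀.cor_eq_corF k _ δ A₀ A₀' d j rfl rfl rfl]
  rcases F.B.eq_empty_or_nonempty with e | ⟨l, hl⟩
  · haveI : IsEmpty (F.Bs F.B) := ⟨fun y => (e.le (Quo.out y).2).elim⟩
    rw [Wt.intB, Subsingleton.elim (rep _) 0, ev_zero_right, zero_mul]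
    exact Fam.inv_eq_zero fun D _ => eq_empty_of_forall_notMem fun y _ => e.le (Quo.out y).2.1.1.1
  have c₀ : ∀ z ∈ F₀.cone, z = (l₀, z.2) := fun z a => Prod.ext (h.B.le a.1) rfl
  have I := Fam.iv_fsC (v₁ := fun i => Prod.map id (F.pb F₀.toWt (fun z => (l₀, z.2)) A) (l₁.get i))
    (v₂ := l₂.get) (v₃ := fun i => Prod.map id (F.pb F₀.toWt (fun z => (l₀, z.2)) A') (l₃.get i))
    hN hC hk hE hA hA' (j + 1 - l₂.length) d
  rw [Wt.fsC_tv _ _ _ ⟨P₀, 1, univ, 1⟩] at I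
  rw [Fam.corF, Wt.fsC_tv _ _ _ ⟨P₀, 1, univ, 1⟩]
  refine h.inv_eq hW hB hE.ev I (Fam.iv_fsC (v₁ := l₁.get) (v₂ := l₂.get) (v₃ := l₃.get) hN₀ h.cp hk₀
    hE₀ (fun z a => mem_of_eq_of_mem (c₀ z a) (m (hA ((h.cone l hl z.2).2 (c₀ z a ▸ a)))))
    (fun z a => mem_of_eq_of_mem (c₀ z a.1) (m' (hA' ⟨(h.cone l hl z.2).2 (c₀ z a.1 ▸ a.1), a.2⟩)))
    _ d) (hP _ _) fun x hx => ?_
  rcases Fam.mem_fsC (List.mem_of_mem_tail (List.mem_of_mem_tail hx)) with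
    rfl | rfl | ⟨_, rfl⟩ | ⟨_, rfl⟩ | ⟨_, rfl⟩ | ⟨_, rfl⟩
  exacts [rfl, rfl, trivial, h.eqvT m fun j a z b => hz j a z (.inl b), trivial,
    h.eqvT m' fun j a z b => hz j a z (.inr b)]

end Vale.Agent.P269
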