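import Vale.Agent.P269.Bas.RelA
import Vale.Agent.P269.Bas.Lv
import Vale.Agent.P269.Bas.BC
import Vale.Agent.P269.Br.Tr

set_option linter.unusedSectionVars false

/-!
# The invariants do not depend on the labels
-/

namespace Vale.Agent.P269

open P291Z Set Function Topology Filter

variable {S Λ R J K ι ν κ ν' κ' : Type} [Fintype S] [Fintype Λ] [Fintype R] [Fintype J] [Fintype K]
  [Fintype ι] [DecidableEq ι] [Fintype ν] [Fintype κ] [Fintype ν'] [Fintype κ']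

namespace Ch

variable {ch ch' : Ch ι J} (a : ν ≃ ν') (b : κ ≃ κ') {F : Fam S Λ R J K} {ℓ : R → ι → ℤ}
  {Z : Set (ch.WF ν κ Λ)} {Z' : Set (ch.WF ν' κ' Λ)} {P : AM Λ R J ν κ → Prop}
  {P' : AM Λ R J ν' κ' → Prop}

theorem bc_rl (W : Wt S Λ R J) (h : MapsTo (ch.rlW Λ a b) Z' Z) :
    BC W W Z' Z (mkE a b) id id (ch.rlA S a b) (ch.rlW Λ a b) :=
  ⟨(linI a b W).eqM h, fun _ => rfl, fun _ => rfl, fun _ => rfl, dup_rlA a b, fun _ _ => rfl,
    fun _ _ => rfl, fun _ _ => rfl, fun _ _ _ => rfl⟩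

theorem at_rl {W : Wt S Λ R J} (h : MapsTo (ch.rlW Λ a b) Z' Z) {f : Fac W ν κ} (hf : f.At Z) :
    (f.re a b).At Z' := by
  cases f
  exacts [trivial, fun _ hx => hf _ (h hx), fun _ hx => hf _ (h hx), trivial, trivial]

/-- the factors correspond -/
theorem rp_rl (h' : GZ F ℓ Z') (h : GZ F ℓ Z) (hd : F.IsDiag F.diag)
    (hm : MapsTo (ch.rlW Λ a b) Z' Z) {f : Fac F.toWt ν κ} (hf : f.At Z) :
    F.Rp Z' (f.re a b) (pull ((linI a b F.toWt).eqM hm).map (F.coch Z f)) := by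
  have B := bc_rl a b F.toWt hm
  have hf' := at_rl a b hm hf
  cases f with
  | psi n => exact B.rp_of_cl h' h hd hd hf' hf rfl (B.cl_psi h' h n)
  | ev n A c =>
    have e := B.cl_ev h' h (Tq.Eqv.incl Subset.rfl) hf' hf c
    rw [H.map_id (f := Tq.Eqv.qm _) fun z => Quot.inductionOn z fun _ => rfl] at e
    exact B.rp_of_cl h' h hd hd hf' hf rfl e
  | par A c =>
    have e := B.cl_par h' h (Tq.Eqv.incl Subset.rfl) hf' hf c
    rw [H.map_id (f := Tq.Eqv.qm _) fun z => Quot.inductionOn z fun _ => rfl] at e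
    exact B.rp_of_cl h' h hd hd hf' hf rfl e
  | dg q =>
    refine B.rp_dg h' h hd (Tq.Eqv.incl Subset.rfl) ?_ fun _ => rfl
    rw [show ⇑(Tq.Eqv.qm _) = id from funext fun z => Quot.inductionOn z fun _ => rfl, pull_id]
    exact Cohom.refl _ _
  | tw Θ => exact B.rp_of_cl h' h hd hd hf' hf rfl (B.cl_tw h' h (fun _ _ _ => rfl) Θ)

/-- the selected parts correspond -/
theorem selQ_rl {S₀ : Set (ch.WF ν κ Λ)} {S₀' : Set (ch.WF ν' κ' Λ)} (hl : ch.Lat F.toWt ℓ)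
    (h : ∀ x, x ∈ S₀' ↔ ch.rlW Λ a b x ∈ S₀) (hP : AM.Ivt F.toWt P)
    (hP' : ∀ m, P' m ↔ P (m.re (mkE a b).toEmbedding)) :
    rlH a b F h ⁻¹' selQ _ ℓ _ P = selQ _ ℓ _ P' :=
  (selQ_ext hl inter_subset_left
    (fun _ _ e c => (hP' _).2 (hP _ _ ((AM.iso_re a b).2 e) ((hP' _).1 c))) fun x m r =>
      (mem_selQ (x := ⟨_, (rl_sol a b h _).1 x.2⟩) hl.wd (fun _ c => c.1.1.2.1) hP
        ((rep_rlW a b).2 r)).trans (hP' m).symm).symm

/-- **the integrals agree** -/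
theorem intg_rl (hc : ch' = ch) {e : Ch ι J → K → ι → ℕ} {u : ν' → J → ℕ} {K₀ : Set K}
    {O M : Set (ch.WF ν κ Λ)} {d : ℕ} (v : Vd F (e ch) (ch.cyc κ F fun n => u (a n)) O M d)
    (hs : ch.Std F (e ch) K₀ ℓ) (hl : ch.Lat F.toWt ℓ) (hd : F.IsDiag F.diag)
    (hP : AM.Ivt F.toWt P) (hP' : ∀ m, P' m ↔ P (m.re (mkE a b).toEmbedding))
    (h1 : IsClopen (selQ F.toWt ℓ (ch.solF ν κ F ∩ ch.cyc κ F fun n => u (a n)) P))
    (h2 : IsCompact (dia F.toWt (ch'.solF ν' κ' F ∩ ch'.cyc κ' F u))) {fs : List (Fac F.toWt ν κ)}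
    (h3 : ∀ f ∈ fs, f.At (ch.solF ν κ F ∩ ch.cyc κ F fun n => u (a n))) (h4 : ∀ q, .dg q ∈ fs) :
    ev (virF F (e ch') (ch'.cyc κ' F u))
      (ind (selQ _ ℓ _ P') * ((fs.map (Fac.re a b)).map (F.coch _)).prod) =
    ev (virF F (e ch) (ch.cyc κ F fun n => u (a n)))
      (ind (selQ _ ℓ _ P) * (fs.map (F.coch _)).prod) := by
  subst hc
  have hZ := fun x => (rlW_mem_cyc (ch := ch') (F := F) a b (u := u) (x := x)).symm
  have hm := fun x => (rl_sol (F := F) a b hZ x).1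
  have s := selQ_rl a b hl hZ hP hP'
  have c := cocycle_ind' (s ▸ h1.preimage (rlH a b F hZ).continuous)
  rw [← v.push_rl a b hs hZ, Br.ev_push_homeo, map_mul, pull_ind, s]
  exact ((v.rl a b hZ).gz hs).ev_pull hd
    (List.forall_mem_map.2 fun f hf => at_rl a b hm (h3 f hf))
    (List.forall₂_map_left_iff.2 (List.forall₂_same.2 fun f hf =>
      rp_rl a b ((v.rl a b hZ).gz hs) (v.gz hs) hd hm (h3 f hf)))
    (b.surjective.forall.2 fun q => List.mem_map_of_mem (f := Fac.re a b) (h4 q)) c c rfl h2 _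

end Ch

theorem Fam.sch_rl [DecidableEq R] (F : Fam S Λ R J K) (a : ν ≃ ν') (b : κ ≃ κ') (k D : ℕ) (g : ℤ)
    (d : R → ℤ) : F.sch ν' κ' k D g d = F.sch ν κ k D g d :=
  congrArg (F.chart g · d k D) (Fintype.card_congr (Ch.mkE a b)).symm

/-- **The invariants do not depend on the labels.** -/
theorem St.rel (hD : St.Dg) : St.Rel :=
  fun {_ _ _ _ _ ν κ _ _} _ _ _ _ _ _ _ _ _ _ F δ k g d a b u _ _ _ h hP => by
  obtain ⟨_, _, _, _, v⟩ := h.nice.vd' (ν := ν) κ h.big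
  refine Fam.inv_eq_inv (h.lvl.mono fun D c => ?_)
  obtain ⟨_, _, o, w⟩ := v D c.big g d fun n => u (a n)
  exact Ch.intg_rl a b (F.sch_rl a b k D g d) (e := F.tdeg) (u := fun n => u n • δ) w o.toStd o.lat
    (h.nice.dg hD).1 h.sel.1 hP c.clo (h.nice.toGood.isCompact_dia h.cp h.big c.big _) c.fac c.dg

end Vale.Agent.P269
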