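import Vale.Agent.P269.Bas.Defs
import Vale.Agent.P269.LG.Alg

set_option linter.unusedSectionVars false

/-!
# Functionals from multilinear supersymmetric correlators
-/

namespace Vale.Agent.P269

open Fock

variable {V V' W W' : Type} [AddCommGroup V] [Module ℂ V] [AddCommGroup V'] [Module ℂ V']
  [AddCommGroup W] [Module ℂ W] [AddCommGroup W'] [Module ℂ W'] {p : Par ℂ V} {p' : Par ℂ V'}
  {q : Par ℂ W} {q' : Par ℂ W'}

namespace SpA

variable {ν A : Type} [Ring A] [Algebra ℂ A]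

theorem sw_comp {w : List (ν × W) → ℂ} (h : LG.SW q w) {i : V →ₗ[ℂ] W} (hi : IsEv p q i) :
    LG.SW p fun l => w (l.map (Prod.map id i)) := by
  constructor
  · intro L₁ n v v' L₂
    simpa using h.add _ n (i v) (i v') _
  · intro L₁ n c v L₂
    simpa using h.smul _ n c (i v) _
  · intro L₁ x y L₂ hy
    simpa using h.ev _ (Prod.map id i x) (Prod.map id i y) _ ((hi _).trans (congrArg i hy))
  · intro L₁ x y L₂ hx hy
    simpa using h.od _ (Prod.map id i x) (Prod.map id i y) _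
      ((hi _).trans ((congrArg i hx).trans (map_neg _ _)))
      ((hi _).trans ((congrArg i hy).trans (map_neg _ _)))

theorem sw_add {a b : List (ν × V) → ℂ} (ha : LG.SW p a) (hb : LG.SW p b) :
    LG.SW p fun l => a l + b l :=
  ⟨fun _ _ _ _ _ => by simp only [ha.add, hb.add]; ring,
    fun _ _ _ _ _ => by simp only [ha.smul, hb.smul]; ring,
    fun L x y L' hy => by simp only [ha.ev L x y L' hy, hb.ev L x y L' hy],
    fun L x y L' hx hy => by simp only [ha.od L x y L' hx hy, hb.od L x y L' hx hy]; ring⟩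

theorem sw_smul (c : ℂ) {a : List (ν × V) → ℂ} (ha : LG.SW p a) : LG.SW p fun l => c * a l :=
  ⟨fun _ _ _ _ _ => by simp only [ha.add]; ring, fun _ _ _ _ _ => by simp only [ha.smul]; ring,
    fun L x y L' hy => by simp only [ha.ev L x y L' hy],
    fun L x y L' hx hy => by simp only [ha.od L x y L' hx hy]; ring⟩

theorem sw_zero : LG.SW p fun _ : List (ν × V) => 0 :=
  ⟨fun _ _ _ _ _ => by simp, fun _ _ _ _ _ => by simp, fun _ _ _ _ _ => rfl,
    fun _ _ _ _ _ _ => by simp⟩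

theorem lsum_mul (a : ν → V →ₗ[ℂ] A) {z z' : A} {f : V →ₗ[ℂ] V}
    (h : ∀ n v, z * a n v = a n (f v) * z') (u : ν →₀ V) :
    z * Finsupp.lsum ℂ a u = Finsupp.lsum ℂ a (Finsupp.mapRange.linearMap f u) * z' := by
  induction u using Finsupp.induction_linear with
  | zero => simp
  | add u v hu hv => simp only [map_add, mul_add, add_mul, hu, hv]
  | single n v => simpa using h n v

theorem lsum_comm (a : ν → V →ₗ[ℂ] A) {z : A} (h : ∀ n v, Commute z (a n v)) (u : ν →₀ V) :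
    Commute z (Finsupp.lsum ℂ a u) := Commute.sum_right _ _ _ fun n _ => h n _

theorem sc_lsum (a : ν → V →ₗ[ℂ] A)
    (hev : ∀ n n' v w, p.σ w = w → a n' w * a n v = a n v * a n' w)
    (hod : ∀ n n' v w, p.σ v = -v → p.σ w = -w → a n v * a n' w = -(a n' w * a n v)) :
    SC (p.fs ν) (Finsupp.lsum ℂ a) := by
  constructor
  · intro v w h
    exact Commute.sum_left _ _ _ fun n' _ => lsum_comm a
      (fun n u => hev n n' u _ (DFunLike.congr_fun h n')) v
  · intro v w hv hw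
    simp only [Finsupp.lsum_apply, Finsupp.sum, Finset.sum_mul, Finset.mul_sum]
    rw [Finset.sum_comm, ← Finset.sum_neg_distrib]
    refine Finset.sum_congr rfl fun n _ => ?_
    rw [← Finset.sum_neg_distrib]
    exact Finset.sum_congr rfl fun n' _ =>
      hod _ _ _ _ (DFunLike.congr_fun hv n) (DFunLike.congr_fun hw n')

/-- The super tensor product of two representations. -/
theorem sc_prod {f : V →ₗ[ℂ] A} {g : W →ₗ[ℂ] A} (hf : SC p f) (hg : SC q g)
    (h : ∀ v w, Commute (f v) (g w)) {τ : A} (h1 : τ * τ = 1) (h2 : ∀ v, τ * f v = f (p.σ v) * τ)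
    (h3 : ∀ w, Commute τ (g w)) :
    SC (p.prod q) (f.coprod (g ∘ₗ q.ev + LinearMap.mulLeft ℂ τ ∘ₗ g ∘ₗ q.od)) := by
  constructor
  · rintro ⟨v, v'⟩ ⟨w, w'⟩ hw
    obtain ⟨e, e'⟩ := Prod.mk.inj hw
    have e : p.σ w = w := e
    have e' : q.σ w' = w' := e'
    have h4 : Commute (f w) τ := ((h2 w).trans (by rw [e])).symm
    have h5 : ∀ u, Commute (g w') (g u) := fun u => hg.ev u w' e'
    simp only [LinearMap.coprod_apply, LinearMap.add_apply, LinearMap.comp_apply,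
      LinearMap.mulLeft_apply, Par.ev_of_ev e', Par.od_of_ev e', map_zero, add_zero]
    exact Commute.add_left
      (Commute.add_right (hf.ev v w e) ((h _ _).add_right (h4.mul_right (h _ _))))
      (Commute.add_right (h _ _).symm ((h5 _).add_right ((h3 _).symm.mul_right (h5 _))))
  · rintro ⟨v, v'⟩ ⟨w, w'⟩ hv hw
    obtain ⟨a, a'⟩ := Prod.mk.inj hv
    obtain ⟨e, e'⟩ := Prod.mk.inj hw
    have a : p.σ v = -v := a
    have a' : q.σ v' = -v' := a'
    have e : p.σ w = -w := e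
    have e' : q.σ w' = -w' := e'
    have h4 : ∀ {u} (x), p.σ u = -u → f u * (τ * g x) = -(τ * g x * f u) := fun {u} x hu => by
      rw [mul_assoc, ← (h u x).eq, ← mul_assoc, ← mul_assoc, h2, hu, map_neg, neg_mul, neg_mul,
        neg_neg]
    have h5 : ∀ x y, τ * g x * (τ * g y) = g x * g y := fun x y => by
      rw [(h3 x).eq, mul_assoc, ← mul_assoc τ, h1, one_mul]
    simp only [LinearMap.coprod_apply, LinearMap.add_apply, LinearMap.comp_apply,
      LinearMap.mulLeft_apply, Par.ev_of_od e', Par.od_of_od e', Par.ev_of_od a', Par.od_of_od a',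
      map_zero, zero_add, mul_add, add_mul, h5, h4 _ a, h4 _ e, hf.od v w a e, hg.od v' w' a' e']
    abel

theorem sc_triv {f : V →ₗ[ℂ] A} {g : W →ₗ[ℂ] A} (hf : SC p f) (hg : ∀ v w, Commute (g v) (g w))
    (h : ∀ v w, Commute (f v) (g w)) : SC (p.prod (Par.triv ℂ W)) (f.coprod g) := by
  constructor
  · intro v w hw
    exact Commute.add_left (Commute.add_right (hf.ev _ _ (congrArg Prod.fst hw)) (h _ _))
      (Commute.add_right (h _ _).symm (hg _ _))
  · intro v w hv hw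
    have a : v.2 = 0 := eq_zero_of_eq_neg (K := ℂ) (congrArg Prod.snd hv)
    have e : w.2 = 0 := eq_zero_of_eq_neg (K := ℂ) (congrArg Prod.snd hw)
    simp only [LinearMap.coprod_apply, a, e, map_zero, add_zero]
    exact hf.od _ _ (congrArg Prod.fst hv) (congrArg Prod.fst hw)

theorem map_σ_σ (l : List (ν × V)) : (l.map (Prod.map id p.σ)).map (Prod.map id p.σ) = l := by
  induction l with
  | nil => rfl
  | cons x l ih => simp only [List.map_cons, ih, Prod.map, id, p.inv]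

section gen

variable (p') (a : ℕ → V →ₗ[ℂ] A) (b : ℕ × ℕ → A) (c : ℕ → V' →ₗ[ℂ] A) (τ : A)

/-- Descendant insertions and nodes. -/
noncomputable def dT : VV V × Deg.NN →ₗ[ℂ] A :=
  (Finsupp.lsum ℂ a).coprod (Finsupp.lsum ℂ fun x => LinearMap.toSpanSingleton ℂ A (b x))

/-- All insertions. -/
noncomputable def dR : (VV V × Deg.NN) × VV V' →ₗ[ℂ] A :=
  (dT a b).coprod (Finsupp.lsum ℂ c ∘ₗ (p'.fs ℕ).ev +
    LinearMap.mulLeft ℂ τ ∘ₗ Finsupp.lsum ℂ c ∘ₗ (p'.fs ℕ).od)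

theorem dR_a (n : ℕ) (v : V) : dR p' a b c τ ((Finsupp.single n v, 0), 0) = a n v := by
  simp [dR, dT]

theorem dR_b (x : ℕ × ℕ) : dR p' a b c τ ((0, Finsupp.single x 1), 0) = b x := by
  simp [dR, dT]

theorem dR_c (n : ℕ) (v : V') :
    dR p' a b c τ (0, Finsupp.single n v) = c n (p'.ev v) + τ * c n (p'.od v) := by
  simp only [dR, Par.ev_apply, Par.od_apply, LinearMap.coprod_apply, LinearMap.add_apply,
    LinearMap.comp_apply, LinearMap.mulLeft_apply, map_zero, zero_add, Par.fs_σ_single, map_smul,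
    map_add, map_sub, Finsupp.lsum_single, mul_smul_comm, mul_sub]

variable {p' a b c τ}

theorem dT_comm {z : A} (h1 : ∀ n v, Commute z (a n v)) (h2 : ∀ x, Commute z (b x))
    (u : VV V × Deg.NN) : Commute z (dT a b u) :=
  (lsum_comm a h1 u.1).add_right (lsum_comm (fun x => LinearMap.toSpanSingleton ℂ A (b x))
    (fun x c => (h2 x).smul_right c) u.2)

theorem sc_dR (aev : ∀ n n' v w, p.σ w = w → a n' w * a n v = a n v * a n' w)
    (aod : ∀ n n' v w, p.σ v = -v → p.σ w = -w → a n v * a n' w = -(a n' w * a n v))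
    (cev : ∀ n n' v w, p'.σ w = w → c n' w * c n v = c n v * c n' w)
    (cod : ∀ n n' v w, p'.σ v = -v → p'.σ w = -w → c n v * c n' w = -(c n' w * c n v))
    (bb : ∀ x y, Commute (b x) (b y)) (ba : ∀ x n v, Commute (b x) (a n v))
    (ca : ∀ n v n' w, Commute (c n v) (a n' w)) (cb : ∀ n v x, Commute (c n v) (b x))
    (ττ : τ * τ = 1) (τa : ∀ n v, τ * a n v = a n (p.σ v) * τ) (τb : ∀ x, Commute τ (b x))
    (τc : ∀ n v, Commute τ (c n v)) : SC ((Deg.pT p).prod (p'.fs ℕ)) (dR p' a b c τ) := by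
  have hb : ∀ {z : A}, (∀ x, Commute z (b x)) → ∀ u : Deg.NN,
      Commute z (Finsupp.lsum ℂ (fun x => LinearMap.toSpanSingleton ℂ A (b x)) u) :=
    fun h => lsum_comm _ fun x c => (h x).smul_right c
  refine sc_prod (sc_triv (sc_lsum a aev aod) (fun v => hb fun x => (hb (bb x) v).symm)
    fun v => hb fun x => (lsum_comm a (ba x) v).symm) (sc_lsum c cev cod)
    (fun v => lsum_comm c fun n u => (dT_comm (ca n u) (cb n u) v).symm) ττ (fun v => ?_)
    (lsum_comm c τc)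
  exact (mul_add _ _ _).trans ((congrArg₂ (· + ·) (lsum_mul a τa v.1) (hb τb v.2)).trans
    (add_mul _ _ _).symm)

end gen

variable (p p') in
/-- The space of correlators. -/
def G : Submodule ℂ (List (ℕ × V) → List (ℕ × ℕ) → List (ℕ × V') → ℂ) where
  carrier := {w | Cor3 p p' w}
  add_mem' ha hb := ⟨fun _ _ => sw_add (ha.one _ _) (hb.one _ _),
    fun _ _ _ _ h => congrArg₂ (· + ·) (ha.two _ _ _ _ h) (hb.two _ _ _ _ h),
    fun _ _ => sw_add (ha.three _ _) (hb.three _ _)⟩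
  zero_mem' := ⟨fun _ _ => sw_zero, fun _ _ _ _ _ => rfl, fun _ _ => sw_zero⟩
  smul_mem' c _ ha := ⟨fun _ _ => sw_smul c (ha.one _ _),
    fun _ _ _ _ h => congrArg (c * ·) (ha.two _ _ _ _ h), fun _ _ => sw_smul c (ha.three _ _)⟩

theorem ext {a b : Module.End ℂ (G p p')} (h : ∀ g l₁ l₂ l₃, (a g).1 l₁ l₂ l₃ = (b g).1 l₁ l₂ l₃) :
    a = b := LinearMap.ext fun g => Subtype.ext (funext₃ (h g))

variable (p p')

/-- A descendant insertion. -/
def a1 (n : ℕ) : V →ₗ[ℂ] Module.End ℂ (G p p') where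
  toFun v :=
    { toFun := fun g => ⟨fun l₁ => g.1 ((n, v) :: l₁), fun _ _ => (g.2.one _ _).cons _,
        fun _ => g.2.two _, fun _ => g.2.three _⟩
      map_add' := fun _ _ => rfl
      map_smul' := fun _ _ => rfl }
  map_add' v w := ext fun g _ _ _ => (g.2.one _ _).add [] n v w _
  map_smul' c v := ext fun g _ _ _ => (g.2.one _ _).smul [] n c v _

/-- A node. -/
def a2 (x : ℕ × ℕ) : Module.End ℂ (G p p') where
  toFun g := ⟨fun l₁ l₂ => g.1 l₁ (x :: l₂), fun _ => g.2.one _,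
    fun _ _ _ _ h => g.2.two _ _ _ _ (h.cons x), fun _ _ => g.2.three _ _⟩
  map_add' _ _ := rfl
  map_smul' _ _ := rfl

/-- A relative insertion. -/
def a3 (n : ℕ) : V' →ₗ[ℂ] Module.End ℂ (G p p') where
  toFun v :=
    { toFun := fun g => ⟨fun l₁ l₂ l₃ => g.1 l₁ l₂ ((n, v) :: l₃), fun _ _ => g.2.one _ _,
        fun _ _ => g.2.two _ _, fun _ _ => (g.2.three _ _).cons _⟩
      map_add' := fun _ _ => rfl
      map_smul' := fun _ _ => rfl }
  map_add' v w := ext fun g _ _ _ => (g.2.three _ _).add [] n v w _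
  map_smul' c v := ext fun g _ _ _ => (g.2.three _ _).smul [] n c v _

/-- The parity of the descendant insertions. -/
def τ : Module.End ℂ (G p p') where
  toFun g := ⟨fun l₁ => g.1 (l₁.map (Prod.map id p.σ)),
    fun _ _ => sw_comp (g.2.one _ _) fun _ => rfl, fun _ => g.2.two _, fun _ => g.2.three _⟩
  map_add' _ _ := rfl
  map_smul' _ _ := rfl

variable {p p'}

theorem sc_G : SC (A := Module.End ℂ (G p p')) ((Deg.pT p).prod (p'.fs ℕ))
    (dR p' (a1 p p') (a2 p p') (a3 p p') (τ p p')) :=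
  sc_dR (fun n n' v w hw => ext fun g _ _ _ => (g.2.one _ _).ev [] (n, v) (n', w) _ hw)
    (fun n n' v w hv hw => ext fun g _ _ _ => (g.2.one _ _).od [] (n', w) (n, v) _ hw hv)
    (fun n n' v w hw => ext fun g _ _ _ => (g.2.three _ _).ev [] (n, v) (n', w) _ hw)
    (fun n n' v w hv hw => ext fun g _ _ _ => (g.2.three _ _).od [] (n', w) (n, v) _ hw hv)
    (fun _ _ => ext fun g _ _ _ => g.2.two _ _ _ _ (List.Perm.swap _ _ _))
    (fun _ _ _ => rfl) (fun _ _ _ _ => rfl) (fun _ _ _ => rfl)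
    (ext fun g l _ _ => congrArg (g.1 · _ _) (map_σ_σ l))
    (fun n v => ext fun g l _ _ => congrArg (fun u => g.1 ((n, u) :: l.map _) _ _) (p.inv v).symm)
    (fun _ => rfl) fun _ _ => rfl

theorem main {w : List (ℕ × V) → List (ℕ × ℕ) → List (ℕ × V') → ℂ} (h : Cor3 p p' w) :
    ∃ Z : Fock.S ((Deg.pT p).prod (p'.fs ℕ)) →ₗ[ℂ] ℂ, ∀ l₁ l₂ l₃,
      Z (Fock.map _ (Deg.isEv_inl _ _) (monT p l₁ l₂) *
        (l₃.map fun x : ℕ × V' => ι _ (0, Finsupp.single x.1 x.2)).prod) = w l₁ l₂ l₃ := by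
  obtain ⟨Φ, h1, h2⟩ := Deg.exists_unfold _ (sc_G (p := p) (p' := p'))
    (LinearMap.proj [] ∘ₗ LinearMap.proj [] ∘ₗ LinearMap.proj [] ∘ₗ (G p p').subtype)
  have k3 : ∀ (l₃ : List (ℕ × V')) (g : G p p'),
      Φ g (l₃.map fun x => ι _ (0, Finsupp.single x.1 x.2)).prod = g.1 [] [] l₃ := by
    intro l₃
    induction l₃ with
    | nil => exact h1
    | cons x l ih =>
      intro g
      rw [List.map_cons, List.prod_cons, h2, ih, dR_c]
      exact ((g.2.three _ _).add [] x.1 _ _ l).symm.trans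
        (congrArg (fun u => g.1 [] [] ((x.1, u) :: l)) (p'.ev_add_od x.2))
  have k2 : ∀ (l₂ : List (ℕ × ℕ)) (l₃ : List (ℕ × V')) (g : G p p'),
      Φ g (Fock.map _ (Deg.isEv_inl _ _) (monT p [] l₂) *
        (l₃.map fun x => ι _ (0, Finsupp.single x.1 x.2)).prod) = g.1 [] l₂ l₃ := by
    intro l₂ l₃
    induction l₂ with
    | nil => simpa [monT] using k3 l₃
    | cons x l ih =>
      intro g
      rw [show monT p [] (x :: l) = ι _ (0, Finsupp.single x 1) * monT p [] l by simp [monT],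
        map_mul (Fock.map _ _), map_ι, mul_assoc, h2, ih, LinearMap.inl_apply, dR_b]
      rfl
  have k1 : ∀ (l₁ : List (ℕ × V)) (l₂ : List (ℕ × ℕ)) (l₃ : List (ℕ × V')) (g : G p p'),
      Φ g (Fock.map _ (Deg.isEv_inl _ _) (monT p l₁ l₂) *
        (l₃.map fun x => ι _ (0, Finsupp.single x.1 x.2)).prod) = g.1 l₁ l₂ l₃ := by
    intro l₁ l₂ l₃
    induction l₁ with
    | nil => exact k2 l₂ l₃
    | cons x l ih =>
      intro g
      rw [show monT p (x :: l) l₂ = ι _ (Finsupp.single x.1 x.2, 0) * monT p l l₂ by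
        simp [monT, mul_assoc], map_mul (Fock.map _ _), map_ι, mul_assoc, h2, ih,
        LinearMap.inl_apply, dR_a]
      rfl
  exact ⟨Φ ⟨w, h⟩, fun l₁ l₂ l₃ => k1 l₁ l₂ l₃ _⟩

end SpA

theorem Cor3.comp {w : List (ℕ × W) → List (ℕ × ℕ) → List (ℕ × W') → ℂ} (h : Cor3 q q' w)
    {i : V →ₗ[ℂ] W} {i' : V' →ₗ[ℂ] W'} (hi : IsEv p q i) (hi' : IsEv p' q' i') :
    Cor3 p p' fun l₁ l₂ l₃ => w (l₁.map (Prod.map id i)) l₂ (l₃.map (Prod.map id i')) :=
  ⟨fun _ _ => SpA.sw_comp (h.one _ _) hi, fun _ _ => h.two _ _,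
    fun _ _ => SpA.sw_comp (h.three _ _) hi'⟩

theorem Cor3.exists_monT {w : List (ℕ × V) → List (ℕ × ℕ) → List (ℕ × V') → ℂ} (h : Cor3 p p' w) :
    ∃ Z : Fock.S (Deg.pT p) →ₗ[ℂ] ℂ, ∀ l₁ l₂, Z (monT p l₁ l₂) = w l₁ l₂ [] := by
  obtain ⟨Z, hZ⟩ := SpA.main h
  exact ⟨Z ∘ₗ (Fock.map _ (Deg.isEv_inl _ _)).toLinearMap, fun l₁ l₂ =>
    (congrArg Z (mul_one _).symm).trans (hZ l₁ l₂ [])⟩

theorem Cor3.exists_monR {D : Deg.Dv} {w : List (ℕ × V) → List (ℕ × ℕ) → List (ℕ × D.H) → ℂ}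
    (h : Cor3 p D.p w) :
    ∃ Z : Fock.S (Deg.pR p D) →ₗ[ℂ] ℂ, ∀ l₁ l₂ l₃, Z (monR p D l₁ l₂ l₃) = w l₁ l₂ l₃ :=
  SpA.main h

theorem St.spec (h : St.Cor) : St.Spec := by
  intro S Λ R J K _ _ _ _ _ _ F δ k e A A' V _ _ p i hN hC hk he hA hi
  refine ⟨fun hδ d j => ?_, fun D i' hA' hi' d j => Classical.epsilon_spec
    ((h F δ k e hN hC hk he hA hA' d j).comp hi hi').exists_monR⟩
  subst hδ
  exact Classical.epsilon_spec
    ((h F 0 k e hN hC hk he hA (fun _ hz => hA hz.1) d j).comp hi hi).exists_monT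

end Vale.Agent.P269
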