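import Vale.Agent.P269.Bas.Prd

set_option linter.unusedSectionVars false
set_option linter.style.haveILetI false

/-!
# Fibres of cycles over a free orbit space
-/

namespace Vale.Agent.P269

open Set Function Topology Filter Module Vale.Agent.P291Z Vale.Agent.P269.Orb Holo Ch

variable {A A' C W W' V : Type} [NormedRing A] [NormedAlgebra ℂ A] [NormedRing A']
  [NormedAlgebra ℂ A'] [NormedRing C] [NormedAlgebra ℂ C] [NormedAddCommGroup W] [NormedSpace ℂ W]
  [NormedAddCommGroup W'] [NormedSpace ℂ W'] [NormedAddCommGroup V] [NormedSpace ℂ V]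
  [FiniteDimensional ℂ A] [FiniteDimensional ℂ A'] [FiniteDimensional ℂ C] [FiniteDimensional ℂ W]
  [FiniteDimensional ℂ W'] [FiniteDimensional ℂ V]

variable {act : A → W → W} {actB : C → V → V} {e : A ≃L[ℂ] C × A'} {p : W →L[ℂ] V} {B : Set V}
  [IsAct act univ] [IsAct actB univ] [Mono.FP actB B] {n N N₁ : ℕ}

theorem pch_of_fre {S : Set W} [IsAct act S] (ho : Orb Aˣ (Sp act S)) {φ : (Fin n → ℂ) → Sp act S}
    (hφ : IsSlice Aˣ Sp.val φ) (hf : Fre act (φ 0).val) : PCh (Holo.Sp.mk ∘ φ) := by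
  haveI := ho.proper
  have h1 := LH.quot Sp.isOpenQuotientMap_mk (fun _ _ => Sp.mk_eq_iff) hφ.1 (Sp.free_iff.1 hf)
  filter_upwards [h1.eventually_cont,
    (tendsto_id.prodMk (tendsto_const_nhds (x := 0))).eventually h1.eventually_inj] with z a b
  exact ⟨a, b⟩

theorem slK_deriv {E : Type} [NormedAddCommGroup E] [NormedSpace ℂ E] {S : Set W} [IsAct act S]
    [CompleteSpace A] (φ : E → Sp act S) (ha : AnalyticAt ℂ (fun z => (φ z).val) 0) :
    AnalyticAt ℂ (fun y : A × E => act y.1 (φ y.2).val) (1, 0) ∧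
      fderiv ℂ (fun y : A × E => act y.1 (φ y.2).val) (1, 0) =
        (inf (expU : A → Aˣ) Sp.val (φ 0)).coprod (fderiv ℂ (fun z => (φ z).val) 0) :=
  ⟨AnalyticAt.comp (g := fun p : A × W => act p.1 p.2) (f := fun y : A × E => (y.1, (φ y.2).val))
      (IsAct.an 1 isUnit_one _ (φ 0).val_mem)
      (analyticAt_fst.prod (ha.comp (f := Prod.snd) (x := (1, 0)) analyticAt_snd)),
    Sp.fderiv_act (Φ := fun z => (φ z).val) (φ 0) rfl ha (.of_forall fun z => (φ z).val_mem)⟩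

/-- the normalisation of the dual class of a point -/
theorem locCo_pt (hB : Tq.Dim actB B n) {σ : (Fin n → ℂ) → Sp actB B} (hσ : IsSlice Cˣ Sp.val σ)
    {t : Coch (Quo actB B)} (ht : IsCo {(σ 0).mk} n t) (h1 : ev (Tq.fnd actB B) t = 1) :
    LocCo (pull (Holo.Sp.mk ∘ σ) t) 1 := by
  obtain ⟨d, hd⟩ := ((hB.holOrb.gch isQuo_sp hσ).pch.isLoc' ht.cocycle ht.supp).exists_locCo
  have h2 := hB.holOrb.val isQuo_sp hσ t d ht.cocycle ht.supp hd
  rw [← hB.fnd_eq, h1, Mono.FP.stab, Nat.cast_one, one_mul] at h2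
  rwa [h2]

/-- the inclusion of a subset, for two different actions -/
def spIn {act' : A' → W → W} {O O₀ : Set W} (act : A → W → W) (hs : O₀ ⊆ O) (y : Sp act' O₀) :
    Sp act O := Sp.of act y.val (hs y.val_mem)

theorem isEmbedding_spIn {act' : A' → W → W} {O O₀ : Set W} (hs : O₀ ⊆ O) :
    IsEmbedding (spIn act hs : Sp act' O₀ → Sp act O) := IsEmbedding.inclusion hs

namespace Fbr

variable {act' : A' → W → W} [IsAct act' univ] (h : Fbr act act' actB e p) {l : V} {O O₀ O₁ : Set W}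
include h

theorem eqh (hO : MapsTo p O B) : Tq.Eqh act actB O B (fun a => (e a).1) p :=
  ⟨hm_fst h.one h.mul, hO, p.continuous.continuousOn, fun a ha x _ => h.eqv a ha x⟩

theorem eqM (hs : O₀ ⊆ O) : EqM act' act O₀ O (fun a => e.symm (1, a)) id :=
  ⟨⟨(hm_inr h.one h.mul).ρ.toMonoidHom, (hm_inr h.one h.mul).ρ.continuous, fun _ => rfl⟩, hs,
    continuousOn_id, fun a ha x _ => h.sub a ha x⟩

theorem p_act' {a : A'} (ha : IsUnit a) (x : W) : p (act' a x) = p x := by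
  rw [h.sub a ha, h.eqv _ ((hm_inr h.one h.mul).isUnit ha), e.apply_symm_apply]
  exact IsAct.one (S := univ) _ (mem_univ _)

theorem p_inl {c : C} (hc : IsUnit c) (x : W) : p (act (e.symm (c, 1)) x) = actB c (p x) := by
  rw [h.eqv _ ((hm_inl h.one h.mul).isUnit hc), e.apply_symm_apply]

theorem act_split {a : A} (ha : IsUnit a) (x : W) :
    act a x = act (e.symm ((e a).1, 1)) (act' (e a).2 x) := by
  have h1 := (hm_fst h.one h.mul).isUnit ha
  have h2 := (hm_snd h.one h.mul).isUnit ha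
  rw [h.sub _ h2, ← IsAct.mul (act := act) (S := univ) _ _ ((hm_inl h.one h.mul).isUnit h1)
    ((hm_inr h.one h.mul).isUnit h2) _ (mem_univ _), ← symm_mul h.one h.mul]
  simp

theorem ivt (hi : Ivt act O) : Ivt act' (O ∩ p ⁻¹' {l}) := fun a ha x hx =>
  ⟨h.sub a ha x ▸ hi _ ((hm_inr h.one h.mul).isUnit ha) x hx.1,
    (h.p_act' ha x).trans hx.2⟩

/-- an element which preserves the fibre lies in `A'` -/
theorem act_eq (hl : l ∈ B) {a : A} (ha : IsUnit a) {x : W} (hx : p x = l) (hy : p (act a x) = l) :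
    (e a).1 = 1 ∧ act a x = act' (e a).2 x := by
  have h1 := (hm_fst h.one h.mul).isUnit ha
  have h3 : (e a).1 = 1 := (Sp.free_iff (x := Sp.of actB l hl)).2 (Mono.FP.free _) _ h1
    (by rw [Sp.val_of, ← hx, ← h.eqv a ha, hy, hx])
  refine ⟨h3, ?_⟩
  rw [h.sub _ ((hm_snd h.one h.mul).isUnit ha), ← h3]
  simp

theorem fre (hl : l ∈ B) {x : W} (hx : p x = l) (hf : Fre act' x) : Fre act x := fun a ha k => by
  obtain ⟨h1, h2⟩ := h.act_eq hl ha hx (by rw [k, hx])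
  have h3 := hf _ ((hm_snd h.one h.mul).isUnit ha) (h2 ▸ k)
  exact e.injective (by rw [h.one]; exact Prod.ext h1 h3)

variable (hl : l ∈ B) (hO : MapsTo p O B) [IsAct act O] (h0 : O₀ = O ∩ p ⁻¹' {l})
include hl hO h0

theorem range_map : range (h.eqM (h0.le.trans inter_subset_left)).map =
    (h.eqh hO).toEqv.qm ⁻¹' {Quo.mk actB ⟨l, hl⟩} := by
  ext z
  obtain ⟨x, rfl⟩ := Sp.surjective_mk z
  constructor
  · rintro ⟨y, hy⟩
    obtain ⟨y, rfl⟩ := Sp.surjective_mk y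
    rw [← hy]
    exact congrArg (Quo.mk actB) (Subtype.ext (h0.le y.val_mem).2)
  · intro hx
    obtain ⟨g, hg⟩ := (Sp.mk_eq_iff (x := Sp.of actB (p x.val) (hO x.val_mem))
      (y := Sp.of actB l hl)).1 hx
    let y := (hm_inl h.one h.mul).ρ g • x
    have hy : y.val ∈ O₀ := h0.ge ⟨y.val_mem, (h.p_inl g.isUnit _).trans (congrArg Sp.val hg)⟩
    exact ⟨(Sp.of act' _ hy).mk, Sp.mk_smul _ x⟩

omit hl hO in
theorem isAct₀ : IsAct act' O₀ :=
  IsAct.mono ‹IsAct act' univ› (subset_univ _) (h0 ▸ h.ivt IsAct.mem)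

theorem isProperMap : IsProperMap fun y : Cˣ × Sp act' O₀ =>
    (hm_inl h.one h.mul).ρ y.1 • spIn act (h0.le.trans inter_subset_left) y.2 := by
  have hc : Continuous (spIn act (h0.le.trans inter_subset_left) : Sp act' O₀ → Sp act O) :=
    (isEmbedding_spIn _).continuous
  have hρ : Continuous (hm_inl h.one h.mul).ρ := map_continuous _
  refine isProperMap_iff_ultrafilter_of_t2.2
    ⟨(hρ.comp continuous_fst).smul (hc.comp continuous_snd), fun U y hU => ?_⟩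
  have k : Tendsto (fun z : Cˣ × Sp act' O₀ => z.1 • Sp.of actB l hl) U
      (𝓝 (Sp.of actB (p y.val) (hO y.val_mem))) := by
    refine Sp.isEmbedding_val.tendsto_nhds_iff.2 ?_
    refine (((p.continuous.comp Sp.continuous_val).tendsto y).comp hU).congr fun z => ?_
    exact (h.p_inl z.1.isUnit _).trans (congrArg _ (h0.le z.2.val_mem).2)
  obtain ⟨g, hg, h1⟩ := (properSMul_iff_continuousSMul_ultrafilter_tendsto.1
    (inferInstance : ProperSMul Cˣ (Sp actB B))).2 (U.map fun y => (y.1, Sp.of actB l hl))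
    (Sp.of actB (p y.val) (hO y.val_mem)) (Sp.of actB l hl)
    (Tendsto.prodMk_nhds (x := Sp.of actB (p y.val) (hO y.val_mem)) k
      (tendsto_const_nhds (x := Sp.of actB l hl)))
  have h1' : Tendsto Prod.fst (U : Filter (Cˣ × Sp act' O₀)) (𝓝 g) := h1
  let x := (hm_inl h.one h.mul).ρ g⁻¹ • y
  have hx : x.val ∈ O₀ := h0.ge ⟨x.val_mem, (h.p_inl g⁻¹.isUnit _).trans
    (congrArg Sp.val (inv_smul_eq_iff.2 hg.symm))⟩
  have h3 : Tendsto Prod.snd (U : Filter (Cˣ × Sp act' O₀)) (𝓝 (Sp.of act' _ hx)) := by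
    refine Sp.isEmbedding_val.tendsto_nhds_iff.2 ?_
    have h2 := (Sp.continuous_val.tendsto _).comp (((hρ.tendsto _).comp h1'.inv).smul hU)
    refine h2.congr fun z => ?_
    simp only [Function.comp_def, map_inv, inv_smul_smul]
    rfl
  exact ⟨(g, Sp.of act' _ hx), h1'.prodMk_nhds h3⟩

theorem isClosedEmbedding : IsClosedEmbedding (h.eqM (h0.le.trans inter_subset_left)).map := by
  haveI := h.isAct₀ h0
  refine .of_continuous_injective_isClosedMap (ContinuousMap.continuous _) (fun x y k => ?_)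
    fun Z hZ => ?_
  · obtain ⟨x, rfl⟩ := Sp.surjective_mk x
    obtain ⟨y, rfl⟩ := Sp.surjective_mk y
    obtain ⟨g, hg⟩ := (Sp.mk_eq_iff (x := Sp.of act x.val (h0.le x.val_mem).1)
      (y := Sp.of act y.val (h0.le y.val_mem).1)).1 k
    have hg' : act g x.val = y.val := congrArg Sp.val hg
    exact Sp.mk_eq_iff.2 ⟨(hm_snd h.one h.mul).ρ g, Sp.ext ((h.act_eq hl g.isUnit
      (h0.le x.val_mem).2 (hg' ▸ (h0.le y.val_mem).2)).2.symm.trans hg')⟩
  · refine Sp.isQuotientMap_mk.isClosed_preimage.1 ?_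
    have h1 := (h.isProperMap hl hO h0).isClosedMap _
      ((hZ.preimage Sp.continuous_mk).preimage continuous_snd)
    refine Eq.subst (motive := IsClosed) (Set.ext fun y => ?_) h1
    constructor
    · rintro ⟨z, h2, rfl⟩
      exact ⟨z.2.mk, h2, (Sp.mk_smul _ _).symm⟩
    · rintro ⟨x, h2, h3⟩
      obtain ⟨x, rfl⟩ := Sp.surjective_mk x
      obtain ⟨g, rfl⟩ := (Sp.mk_eq_iff (x := Sp.of act x.val (h0.le x.val_mem).1)).1 h3
      refine ⟨((hm_fst h.one h.mul).ρ g, (hm_snd h.one h.mul).ρ g • x), ?_,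
        Sp.ext (h.act_split g.isUnit _).symm⟩
      show Holo.Sp.mk _ ∈ Z
      rwa [Sp.mk_smul]

omit hl hO in
theorem orb [IsAct act' O₀] (ho : Orb Aˣ (Sp act O)) : Orb A'ˣ (Sp act' O₀) := by
  haveI := ho.proper
  haveI := ho.nice
  have hs : O₀ ⊆ O := h0.le.trans inter_subset_left
  have hi : IsClosedEmbedding (spIn act hs : Sp act' O₀ → Sp act O) := by
    refine ⟨isEmbedding_spIn hs, Eq.subst (motive := IsClosed) (Set.ext fun y => ?_)
      ((isClosed_singleton (x := l)).preimage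
        (p.continuous.comp (Sp.continuous_val (act := act) (S := O))))⟩
    exact ⟨fun k => ⟨Sp.of act' y.val (h0.ge ⟨y.val_mem, k⟩), rfl⟩,
      by rintro ⟨z, rfl⟩; exact (h0.le z.val_mem).2⟩
  have he : ∀ (g : A'ˣ) (y : Sp act' O₀), spIn act hs (g • y) =
      (hm_inr h.one h.mul).ρ g • spIn act hs y := fun g y => Sp.ext (h.sub g g.isUnit _)
  have hli : LeftInverse (hm_snd h.one h.mul).ρ (hm_inr h.one h.mul).ρ := fun g =>
    Units.ext (by simp)
  have c1 : Continuous (hm_snd h.one h.mul).ρ := map_continuous _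
  have c2 : Continuous (hm_inr h.one h.mul).ρ := map_continuous _
  refine ⟨inferInstance, properSMul_of_hom (hli.isClosedEmbedding c1 c2).isProperMap
    hi.continuous he, Nice.of_isEmbedding hi.isEmbedding hi.isClosed_range.isLocallyClosed,
    fun t => ?_⟩
  obtain ⟨τ, h1, h2⟩ := ho.loc (spIn act hs t)
  refine ⟨fun y => (hm_snd h.one h.mul).ρ (τ (spIn act hs y)),
    (hi.continuous.continuousAt.eventually h1).mono fun x hx =>
      c1.continuousAt.comp (hx.comp hi.continuous.continuousAt), ?_⟩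
  have h3 := (c2.prodMap hi.continuous).tendsto ((1 : A'ˣ), t)
  rw [Prod.map_apply, map_one] at h3
  refine (h3.eventually h2).mono fun y hy => ?_
  have hy' : τ ((hm_inr h.one h.mul).ρ y.1 • spIn act hs y.2) =
    (hm_inr h.one h.mul).ρ y.1 * τ (spIn act hs y.2) := hy
  show (hm_snd h.one h.mul).ρ (τ (spIn act hs (y.1 • y.2))) = y.1 * _
  rw [he, hy', map_mul, hli]

omit hl hO h0 in
/-- the product of a slice of the base and a slice of the fibre is a slice -/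
theorem isSlK {k : ℕ} [IsAct act' O₁] [CompleteSpace A] [CompleteSpace A'] [CompleteSpace C]
    {σ : (Fin n → ℂ) → Sp actB B} (hσ : IsSlK (expU : C → Cˣ) Sp.val σ 0)
    {φ : (Fin k → ℂ) → Sp act' O₁} (hφ : IsSlK (expU : A' → A'ˣ) Sp.val φ 0)
    {Φ : (Fin k → ℂ) × (Fin n → ℂ) → Sp act O} (ha : AnalyticAt ℂ (fun z => (Φ z).val) 0)
    (h1 : ∀ᶠ z in 𝓝 0, p (Φ z).val = (σ z.2).val) (h2 : ∀ᶠ v in 𝓝 0, (Φ (v, 0)).val = (φ v).val)
    (hm : IsMfd Sp.val (finrank ℂ A + (k + n)) (Φ 0)) : IsSlK (expU : A → Aˣ) Sp.val Φ 0 := by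
  refine IsSlK.of_transverse isExp_expU hm (Sp.holAct _)
    (Sp.isEmbedding_val.isInducing.continuousAt_iff.2 ha.continuousAt) ha ?_
    (by rw [finrank_prod, finrank_fin_fun, finrank_fin_fun])
  obtain ⟨a1, d1⟩ := slK_deriv Φ ha
  obtain ⟨a2, d2⟩ := slK_deriv σ (hσ.an isExp_expU)
  obtain ⟨a3, d3⟩ := slK_deriv φ (hφ.an isExp_expU)
  have i2 := hσ.injective isExp_expU (Sp.holAct _)
  have i3 := hφ.injective isExp_expU (Sp.holAct _)
  rw [← d2] at i2
  rw [← d3] at i3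
  rw [← d1, injective_iff_map_eq_zero]
  rintro ⟨α, v, w⟩ hz
  let L : A × (Fin k → ℂ) × (Fin n → ℂ) →L[ℂ] C × (Fin n → ℂ) :=
    ((ContinuousLinearMap.fst ℂ C A').comp (e : A →L[ℂ] C × A')).prodMap
      (ContinuousLinearMap.snd ℂ _ _)
  have L1 : L (1, 0) = (1, 0) := Prod.ext (congrArg Prod.fst h.one : (e 1).1 = 1) rfl
  have u1 : ∀ᶠ a in 𝓝 (1 : A), IsUnit a := Units.isOpen.mem_nhds isUnit_one
  have u2 : ∀ᶠ a in 𝓝 (1 : A'), IsUnit a := Units.isOpen.mem_nhds isUnit_one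
  have e1 : (fun y : A × (Fin k → ℂ) × (Fin n → ℂ) => p (act y.1 (Φ y.2).val)) =ᶠ[𝓝 (1, 0)]
      fun y => actB (L y).1 (σ (L y).2).val := by
    filter_upwards [(continuousAt_fst (p := ((1 : A), (0 : (Fin k → ℂ) × (Fin n → ℂ))))).eventually
      u1, (continuousAt_snd (p := ((1 : A), (0 : (Fin k → ℂ) × (Fin n → ℂ))))).eventually h1]
      with y b1 b2
    rw [h.eqv _ b1, b2]
    rfl
  have f1 := (p.hasFDerivAt.comp _ a1.differentiableAt.hasFDerivAt).unique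
    (((L1 ▸ a2.differentiableAt.hasFDerivAt).comp _ L.hasFDerivAt).congr_of_eventuallyEq e1)
  have z1 : L (α, v, w) = 0 := i2 (by
    have := DFunLike.congr_fun f1 (α, v, w)
    rw [ContinuousLinearMap.comp_apply, ContinuousLinearMap.comp_apply, hz, map_zero, L1] at this
    rw [← this, map_zero])
  have z2 : (e α).1 = 0 := congrArg Prod.fst z1
  have z3 : w = 0 := congrArg Prod.snd z1
  let J : A' × (Fin k → ℂ) →L[ℂ] A × (Fin k → ℂ) × (Fin n → ℂ) :=
    ((e.symm : C × A' →L[ℂ] A).comp (ContinuousLinearMap.inr ℂ C A')).prodMap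
      (ContinuousLinearMap.inl ℂ _ _)
  have J1 : ∀ y, (e.symm (1, 0), 0) + J y = (e.symm (1, y.1), y.2, 0) := fun y =>
    Prod.ext (by simp [J, ← map_add]) (by simp [J])
  have J2 : (e.symm (1, 0), 0) + J (1, 0) = (1, 0) := by
    rw [J1, (hm_inr h.one h.mul).one]
    rfl
  have e2 : (fun y : A' × (Fin k → ℂ) => act' y.1 (φ y.2).val) =ᶠ[𝓝 (1, 0)]
      fun y => act ((e.symm (1, 0), 0) + J y).1 (Φ ((e.symm (1, 0), 0) + J y).2).val := by
    filter_upwards [(continuousAt_fst (p := ((1 : A'), (0 : Fin k → ℂ)))).eventually u2,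
      (continuousAt_snd (p := ((1 : A'), (0 : Fin k → ℂ)))).eventually h2] with y b1 b2
    rw [J1, h.sub _ b1, b2]
  have a4 := a1.differentiableAt.hasFDerivAt
  nth_rw 2 [← J2] at a4
  have f2 := a3.differentiableAt.hasFDerivAt.unique
    ((HasFDerivAt.comp (f := fun y => (e.symm (1, 0), 0) + J y)
      (g := fun y : A × (Fin k → ℂ) × (Fin n → ℂ) => act y.1 (Φ y.2).val) (1, 0) a4
      (J.hasFDerivAt.const_add (e.symm (1, 0), 0))).congr_of_eventuallyEq e2)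
  have z4 : J ((e α).2, v) = (α, v, w) :=
    Prod.ext (e.injective (Prod.ext (by simp [J, z2]) (by simp [J]))) (by simp [J, z3])
  have z5 : ((e α).2, v) = 0 := i3 (by
    rw [f2, ContinuousLinearMap.comp_apply, z4, hz, map_zero])
  rw [← z4, z5, map_zero]

/-- **the fundamental class of a fibre** -/
theorem res_gys [IsAct act' O₀] [IsAct act' O₁] [Nice (Quo act O)] [Nice (Quo act' O₀)]
    (ho : Orb Aˣ (Sp act O)) {M : Set W} {T : V → W → W} {T' : W → W} (hT : LTr act' p B l M T T')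
    (hB : Tq.Dim actB B n) (hM : ∃ U, IsOpen U ∧ M ∩ O = M ∩ U) (hc : Cyc act O (M ∩ O) N)
    (e₁ : O₁ ⊆ O₀) (hU : ∃ U, IsOpen U ∧ O₁ = O₀ ∩ U) (hc₁ : Cyc act' O₁ (M ∩ O₁) N₁)
    {t : Coch (Quo actB B)} (ht : IsCo {Quo.mk actB ⟨l, hl⟩} n t) (h1 : ev (Tq.fnd actB B) t = 1) :
    res (Quo.incl act' e₁) (gys (h.eqM (h0.le.trans inter_subset_left)).map
      (pull (h.eqh hO).toEqv.qm t) (fnd act O N)) = fnd act' O₁ N₁ := by
  classical
  haveI := FiniteDimensional.complete ℂ A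
  haveI := FiniteDimensional.complete ℂ A'
  haveI := FiniteDimensional.complete ℂ C
  haveI := FiniteDimensional.complete ℂ W
  haveI := FiniteDimensional.complete ℂ V
  have ho₁ := orb_mono (h.orb h0 ho) e₁ hc₁.lc
  haveI := nice_of_orb ho₁
  have hs : O₁ ⊆ O := e₁.trans (h0.le.trans inter_subset_left)
  have hp : ∀ x ∈ O₁, p x = l := fun x hx => (h0.le (e₁ hx)).2
  have k1 : ∀ x ∈ M ∩ O₁, ∀ᶠ y in 𝓝 x, y ∈ O ↔ y ∈ M := fun x hx => by
    obtain ⟨U, a, b⟩ := hM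
    filter_upwards [a.mem_nhds (b.le ⟨hx.1, hs hx.2⟩).2,
      eventually_nhdsWithin_iff.1 (hc.mem_nhds ⟨hx.1, hs hx.2⟩)] with y c d
    exact ⟨fun f => (d f).1, fun f => (b.ge ⟨f, c⟩).2⟩
  have k2 : ∀ x ∈ M ∩ O₁, ∀ᶠ y in 𝓝 x, y ∈ O₁ ↔ y ∈ M ∧ p y = l := fun x hx => by
    obtain ⟨U, a, b⟩ := hU
    filter_upwards [a.mem_nhds (b.le hx.2).2, k1 x hx] with y c d
    exact ⟨fun f => ⟨d.1 (hs f), hp y f⟩, fun f => b.ge ⟨h0.ge ⟨d.2 f.1, f.2⟩, c⟩⟩
  have k3 : ∀ x ∈ M ∩ O₁, MfdAt O (finrank ℂ A + N) x := fun x hx =>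
    ⟨hs hx.2, (isMfd_of_nhdsWithin (M := M ∩ O) ⟨hx.1, hs hx.2⟩ hc.sub
      (hc.mem_nhds ⟨hx.1, hs hx.2⟩)).1 (hc.mfd _)⟩
  have k4 : ∀ x ∈ M ∩ O₁, MfdAt O₁ (finrank ℂ A' + N₁) x := fun x hx =>
    ⟨hx.2, (isMfd_of_nhdsWithin hx hc₁.sub (hc₁.mem_nhds hx)).1 (hc₁.mfd _)⟩
  have k5 : ∀ x ∈ M ∩ O₁, ∀ᶠ y : V × W in 𝓝 (l, x), y.1 ∈ B → y.2 ∈ O₁ →
      T y.1 y.2 ∈ O ∧ p (T y.1 y.2) = y.1 ∧ T' (T y.1 y.2) = y.2 := fun x hx => by
    have c := (hT.an x (hp x hx.2)).continuousAt.tendsto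
    rw [hT.self x (hp x hx.2)] at c
    filter_upwards [c.eventually (k1 x hx), (continuousAt_fst (p := (l, x))).eventually hT.fwd,
      (continuousAt_snd (p := (l, x))).eventually (k2 x hx)] with y a b d f g
    obtain ⟨b1, b2, b3, -⟩ := b y.2 (hp _ g)
    exact ⟨a.2 (b3 f (d.1 g).1), b1, b2⟩
  rcases (M ∩ O₁).eq_empty_or_nonempty with he | ⟨x₀, hx₀⟩
  · haveI : IsEmpty (Quo act' O₁) := ⟨fun z => by
      obtain ⟨x, rfl⟩ := Sp.surjective_mk z
      have := hc₁.dense x.val_mem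
      rw [he, closure_empty] at this
      exact this⟩
    exact BM_eq_of_isEmpty _ _
  obtain rfl : N = N₁ + n := by
    have c := (hT.an' x₀ (hp _ hx₀.2)).continuousAt.tendsto
    rw [hT.inv_self (hp _ hx₀.2)] at c
    have c2 : Tendsto p (𝓝 x₀) (𝓝 l) := hp _ hx₀.2 ▸ p.continuous.continuousAt.tendsto
    have k6 := ((hB l hl).prod (k4 x₀ hx₀)).iso (S' := O) (F := fun y => T y.1 y.2)
      (G := fun y => (p y, T' y)) (hT.an _ (hp _ hx₀.2))
      (by rw [hT.self _ (hp _ hx₀.2)]; exact (p.analyticAt _).prod (hT.an' _ (hp _ hx₀.2)))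
      ((k5 x₀ hx₀).mono fun y a b => ⟨(a b.1 b.2).1, Prod.ext (a b.1 b.2).2.1 (a b.1 b.2).2.2⟩) (by
        rw [hT.self _ (hp _ hx₀.2)]
        filter_upwards [k1 x₀ hx₀, c.eventually (k2 x₀ hx₀), c2.eventually hT.bwd] with y a b d f
        obtain ⟨d1, d2, d3⟩ := d y rfl
        exact ⟨⟨hO f, b.2 ⟨d3 (a.1 f), d1⟩⟩, d2⟩)
    rw [hT.self _ (hp _ hx₀.2)] at k6
    have k7 := k6.unique (k3 x₀ hx₀)
    rw [finrank_split e] at k7
    omega
  have hi := h.isClosedEmbedding hl hO h0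
  have hq := (h.eqh hO).toEqv.qm.continuous
  have ht' : IsCo (range (h.eqM (h0.le.trans inter_subset_left)).map) n
      (pull (h.eqh hO).toEqv.qm t) := ⟨cocycle_pull hq ht.cocycle, ht.deg.pull _, by
    rw [h.range_map hl hO h0]
    exact (supp_pull hq t).trans (preimage_mono ht.supp)⟩
  have hdg : BM.IsDeg (2 * N₁) (gys (h.eqM (h0.le.trans inter_subset_left)).map
      (pull (h.eqh hO).toEqv.qm t) (fnd act O (N₁ + n))) := by
    have := (hc.deg ho).gys (h.eqM (h0.le.trans inter_subset_left)).map ht'.deg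
    rwa [show (2 * (N₁ + n : ℕ) - 2 * n : ℤ) = 2 * N₁ by push_cast; ring] at this
  refine hc₁.eq_of_ptVal' ho₁ (hdg.res _) (hc₁.deg ho₁) (dimLt_empty _) fun x hx _ hf =>
    ⟨1, ?_, hc₁.ptVal ho₁ hf⟩
  obtain ⟨σ, s0, hσ⟩ := Sp.exists_slK (n := n) (hB.isMfd (Sp.of actB l hl)) (Mono.FP.finite _) rfl
  obtain ⟨φ, rfl, hφ⟩ := Sp.exists_slK (x := x) (n := N₁) ((k4 _ hx).isMfd x.val_mem)
    (ho₁.finite_stabilizer x) rfl
  have s1 : (σ 0).val = l := congrArg Sp.val s0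
  have a1 : AnalyticAt ℂ (fun z : (Fin N₁ → ℂ) × (Fin n → ℂ) => ((σ z.2).val, (φ z.1).val)) 0 :=
    (AnalyticAt.comp (g := fun z => (σ z).val) (f := Prod.snd) (hσ.an isExp_expU)
      analyticAt_snd).prod (AnalyticAt.comp (g := fun z => (φ z).val) (f := Prod.fst)
        (hφ.an isExp_expU) analyticAt_fst)
  have a2 : AnalyticAt ℂ (fun z : (Fin N₁ → ℂ) × (Fin n → ℂ) => T (σ z.2).val (φ z.1).val) 0 :=
    AnalyticAt.comp (g := fun y : V × W => T y.1 y.2) (by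
      rw [Prod.snd_zero, Prod.fst_zero, s1]; exact hT.an _ (hp _ hx.2)) a1
  have a3 := a1.continuousAt.tendsto
  rw [Prod.snd_zero, Prod.fst_zero, s1] at a3
  let Φ : (Fin N₁ → ℂ) × (Fin n → ℂ) → Sp act O := fun z =>
    if k : T (σ z.2).val (φ z.1).val ∈ O then Sp.of act _ k else spIn act hs (φ 0)
  have a4 : ∀ᶠ z in 𝓝 0, (Φ z).val = T (σ z.2).val (φ z.1).val ∧ p (Φ z).val = (σ z.2).val :=
    (a3.eventually (k5 _ hx)).mono fun z a => by
      obtain ⟨b1, b2, -⟩ := a (σ z.2).val_mem (φ z.1).val_mem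
      have : (Φ z).val = T (σ z.2).val (φ z.1).val := congrArg Sp.val (dif_pos b1)
      exact ⟨this, this ▸ b2⟩
  have a5 : ∀ᶠ v in 𝓝 0, (Φ (v, 0)).val = (φ v).val :=
    ((tendsto_inl (0 : Fin N₁ → ℂ) (0 : Fin n → ℂ)).eventually a4).mono fun v a => by
      rw [a.1, s1, hT.self _ (hp _ (φ v).val_mem)]
  have a6 : (Φ 0).val = (φ 0).val := a5.self_of_nhds
  have a7 := isSlice_of_prod ((h.isSlK hσ hφ (a2.congr (a4.mono fun z a => a.1.symm))
    (a4.mono fun z a => a.2) a5 ((a6 ▸ k3 _ hx : MfdAt O _ (Φ 0).val).isMfd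
      (Φ 0).val_mem)).isSl isExp_expU)
  have a8 : Fre act (Φ (splitL N₁ n 0)).val := by
    rw [map_zero, a6]
    exact h.fre hl (hp _ hx.2) hf
  have a9 := hc.val ho a7
  rw [stab_eq_one (Sp.free_iff.1 a8), Nat.cast_one, ← mul_one (1 : ℂ)] at a9
  have hσ' := isSlice_iff.2 (hσ.isSl isExp_expU)
  have hφ' := isSlice_iff.2 (hφ.isSl isExp_expU)
  have b1 : ∀ᶠ z in 𝓝 0, (h.eqh hO).toEqv.qm (Φ z).mk = (σ z.2).mk :=
    a4.mono fun z a => congrArg Holo.Sp.mk (Sp.ext a.2)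
  have b2 := Val.gys hi ht' (hc.deg ho) (pch_of_fre ho a7 a8) a9 one_ne_zero
    (ψ := Quo.incl act' e₁ ∘ Holo.Sp.mk ∘ φ) (a5.mono fun v a => by
      simp only [comp_apply, splitL_append]
      exact congrArg Holo.Sp.mk (Sp.ext a.symm)) (by
      filter_upwards [b1, (continuousAt_snd (p := (0 : (Fin N₁ → ℂ) × (Fin n → ℂ)))).eventually
        (hB.holOrb.gch isQuo_sp hσ').pch] with z a b c
      simp only [comp_apply, splitL_append] at c
      refine b.2 (a.symm.trans ((ht.supp (supp_pull hq t c)).trans ?_))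
      rw [comp_apply, s0]
      rfl) (by
      rw [pull_pull]
      refine (locCo_pt hB hσ' (by rw [s0]; exact ht) h1).pull_congr
        (((tendsto_inr (0 : Fin N₁ → ℂ) (0 : Fin n → ℂ)).eventually b1).mono fun w a => ?_)
      simp only [comp_apply, splitL_append]
      exact a)
  have b3 := Val.res (Quo.isOpenEmbedding_incl e₁ hU)
    (Sp.continuous_mk.continuousAt.comp hφ'.cont) b2
  exact PtVal.of_slice ho₁ hφ' fun a c c1 c2 c3 => by
    rw [← b3 a c c1 c2 c3, one_mul, one_mul]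

end Fbr

end Vale.Agent.P269
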