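import Vale.Agent.P269.Bas.FibA
import Vale.Agent.P269.Bas.Fbr
import Vale.Agent.P269.Bas.Cmp
import Vale.Agent.P269.Bas.Lv
import Vale.Agent.P269.Bas.Dg0
import Vale.Agent.P269.Loc.Sum

set_option linter.unusedSectionVars false
set_option linter.style.haveILetI false

/-!
# The virtual class of a member of a family is the Gysin pull-back
-/

namespace Vale.Agent.P269

open P291Z Set Function Topology Filter Orb

variable {S Λ R J K I ι ν κ : Type} [Fintype S] [Fintype Λ] [Fintype R] [Fintype J] [Fintype K]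
  [Fintype I] [Fintype ι] [DecidableEq ι] [Fintype ν] [Fintype κ] {F : Fam S Λ R J K} {l : Λ → ℂ}
  {wt : J → Empty → ℤ} {wl : Λ → Empty → ℤ} {wk : K → Empty → ℤ} {K₀ : Set K}

namespace Ch

variable {ch : Ch ι J} {e : K → ι → ℕ} {ℓ : R → ι → ℤ} {U : Set (ch.WF ν κ Λ)} {b m : ℕ}
  [DecidableEq I] {φ : I → J} {n : J → I → ℤ} {ψ : J → (Λ → ℂ) → ℂ}

variable (F l wt wl wk) in
/-- the inclusion of the member is a base change -/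
abbrev BCa (Z' Z : Set (ch.WF ν κ Λ)) : Prop :=
  BC (F.atw l wt wl wk).toWt F.toWt Z' Z id (fun _ => 1) id (fun a => (ch.eF S ν κ).symm (1, a)) id

theorem Gr.sol_atw {u : ν → J → ℕ} (h : Gr ch F u φ n ψ) (hF : F.Inv) (hl : l ∈ F.B) :
    ch.solF ν κ (F.atw l wt wl wk) ∩ ch.cyc κ (F.atw l wt wl wk) u =
      ch.solF ν κ F ∩ ch.cyc κ F u ∩ ch.pF Λ ν κ ⁻¹' {l} := by
  rw [solF_atw hl, Gr.cyc_atw hl h hF, ← inter_inter_distrib_right]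

theorem Vd.vir_atw {S₀ S₀' O O' M : Set (ch.WF ν κ Λ)} {d d' : ℕ} (v : Vd F e S₀ O (M ∩ O) d)
    (v' : Vd (F.atw l wt wl wk) e S₀' O' (M ∩ O') d') (h : ch.Std F e K₀ ℓ) (hl : l ∈ F.B)
    [Mono.FP F.actL F.B] (hB : Tq.Dim F.actL F.B m) (h0 : O' = O ∩ ch.pF Λ ν κ ⁻¹' {l})
    (hZ : ch.solF ν κ F ∩ S₀ ∩ ch.pF Λ ν κ ⁻¹' {l} ⊆ ch.solF ν κ (F.atw l wt wl wk) ∩ S₀')
    {T T'} (hT : LTr (actF (F.atw l wt wl wk).toWt : ch.AF ν κ Empty → _) (ch.pF Λ ν κ) F.B l M T T')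
    (hM : ∃ U, IsOpen U ∧ M ∩ O = M ∩ U) {t : Coch (F.Bs F.B)}
    (ht : IsCo {Quo.mk F.actL ⟨l, hl⟩} m t) (h1 : ev (Tq.fnd F.actL F.B) t = 1)
    (hz : GZ F ℓ (ch.solF ν κ F ∩ S₀))
    (c₁ : BCa F l wt wl wk (ch.solF ν κ (F.atw l wt wl wk) ∩ S₀') (ch.solF ν κ F ∩ S₀)) :
    haveI := hz.nice
    IsClosedEmbedding c₁.toEqM.map ∧ gys c₁.toEqM.map
      (pull (hz.eqh_par fun _ a => a.1.1.1).toEqv.qm t) (virF F e S₀) =
        virF (F.atw l wt wl wk) e S₀' := by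
  have h' : ch.Std (F.atw l wt wl wk) e K₀ ℓ := Std.atw hl h
  rw [v.virF_vr h, v'.virF_vr h']
  obtain ⟨_, g⟩ := v.gd h
  obtain ⟨_, g'⟩ := v'.gd h'
  have e₀ := h0.le.trans inter_subset_left
  have hO : MapsTo (ch.pF Λ ν κ) O F.B := fun _ a => (Dom.subset_dom v.adm v.dom a).1.1.1
  haveI := g.dom.isAct
  haveI := g'.dom.isAct
  haveI := nice_of_orb g.dom.orb
  haveI := nice_of_orb g'.dom.orb
  haveI := hz.nice
  have f := fbr_atw (ch := ch) (ν := ν) (κ := κ) (F := F) (l := l) (wt := wt) (wl := wl) (wk := wk)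
  have r := f.res_gys hl hO h0 g.dom.orb hT hB hM v.cyc Subset.rfl ⟨univ, isOpen_univ,
    (inter_univ _).symm⟩ v'.cyc ht h1
  rw [show Quo.incl (actF (F.atw l wt wl wk).toWt) (Subset.rfl : O' ⊆ O') = id from
    funext fun z => Quot.inductionOn z fun _ => rfl, Loc.res_id'] at r
  have L := BC.lin (bc_atw e₀ : BCa F l wt wl wk _ _) e (fun _ => rfl) rfl
    (fun _ _ => rfl) (fun _ _ _ => by simp) fun _ _ _ => by simp
  have L' := BC.lin c₁ e (fun _ => rfl) rfl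
    (fun _ _ => rfl) (fun _ _ _ => by simp) fun _ _ _ => by simp
  have c := g'.vr_gys g (f.eqM e₀) L.1 L'.2.1 (fun _ => by rw [rk_atw hl])
    (fun x a a' => hZ ⟨a', (h0.le a).2⟩) c₁.toEqM (f.isClosedEmbedding hl hO h0)
    (t := pull (f.eqh hO).toEqv.qm t) (cocycle_pull (f.eqh hO).toEqv.qm.continuous ht.cocycle)
    ((supp_pull (f.eqh hO).toEqv.qm.continuous t).trans
      ((preimage_mono ht.supp).trans (f.range_map hl hO h0).ge)) (fnd _ O d)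
  refine ⟨c.1, Eq.trans ?_ (c.2.trans (congrArg _ r))⟩
  rw [pull_pull]
  exact congrArg (fun q => gys _ (pull q t) _) (funext fun z => Quot.inductionOn z fun _ => rfl)

theorem Ok.vir_atw {δ : J → ℕ} (h : ch.Ok F e K₀ ℓ b U) (hE : F.PolE) (hs : F.Sh δ φ n ψ)
    (hl : l ∈ F.B) [Mono.FP F.actL F.B] (hB : Tq.Dim F.actL F.B m) (u : ν → ℕ)
    {t : Coch (F.Bs F.B)} (ht : IsCo {Quo.mk F.actL ⟨l, hl⟩} m t)
    (h1 : ev (Tq.fnd F.actL F.B) t = 1)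
    (hz : GZ F ℓ (ch.solF ν κ F ∩ ch.cyc κ F fun a => u a • δ))
    (c₁ : BCa F l wt wl wk
      (ch.solF ν κ (F.atw l wt wl wk) ∩ ch.cyc κ (F.atw l wt wl wk) fun a => u a • δ)
      (ch.solF ν κ F ∩ ch.cyc κ F fun a => u a • δ)) :
    haveI := hz.nice
    IsClosedEmbedding c₁.toEqM.map ∧
      gys c₁.toEqM.map (pull (hz.eqh_par fun _ a => a.1.1.1).toEqv.qm t)
        (virF F e (ch.cyc κ F fun a => u a • δ)) =
      virF (F.atw l wt wl wk) e (ch.cyc κ (F.atw l wt wl wk) fun a => u a • δ) := by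
  have G := h.lat.gr h.inv hs u
  have v := h.vd_sh hE hs u
  have v' := (Ok.atw hl h : ch.Ok (F.atw l wt wl wk) e K₀ ℓ 0 U).vd_sh hE (hs.atw hl) u
  obtain ⟨T, T', hT⟩ := G.exists_ltr (κ := κ) (wt := wt) (wl := wl) (wk := wk) h.inv hl
  obtain ⟨V, hV, eV⟩ := h.toStd.dom_open (ν := ν) (κ := κ)
  have hZ := G.sol_atw (κ := κ) (wt := wt) (wl := wl) (wk := wk) h.inv hl
  have hC := Gr.cyc_atw (κ := κ) (wt := wt) (wl := wl) (wk := wk) hl G h.inv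
  generalize (fun a => u a • δ) = w at *
  have m₁ : ch.main κ F w ⊆ ch.cyc κ F w := fun _ a => ⟨subset_closure a, a.1.1⟩
  have h0 : ch.cyc κ (F.atw l wt wl wk) w ∩ U ∩ ch.dom ν κ (F.atw l wt wl wk) e =
      ch.cyc κ F w ∩ U ∩ ch.dom ν κ F e ∩ ch.pF Λ ν κ ⁻¹' {l} := by
    rw [hC, dom_atw hl]
    exact Set.ext fun _ => ⟨fun a => ⟨⟨⟨a.1.1.1, a.1.2⟩, a.2.1⟩, a.2.2⟩,
      fun a => ⟨⟨⟨a.1.1.1, a.2⟩, a.1.1.2⟩, a.1.2, a.2⟩⟩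
  have a₁ : ch.main κ F w ∩ U ∩ ch.dom ν κ F e =
      ch.main κ F w ∩ (ch.cyc κ F w ∩ U ∩ ch.dom ν κ F e) :=
    Set.ext fun _ => ⟨fun a => ⟨a.1.1, ⟨m₁ a.1.1, a.1.2⟩, a.2⟩, fun a => ⟨⟨a.1, a.2.1.2⟩, a.2.2⟩⟩
  have a₂ : ch.main κ (F.atw l wt wl wk) w ∩ U ∩ ch.dom ν κ (F.atw l wt wl wk) e = ch.main κ F w ∩
      (ch.cyc κ (F.atw l wt wl wk) w ∩ U ∩ ch.dom ν κ (F.atw l wt wl wk) e) := by
    rw [h0, main_atw hl, dom_atw hl]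
    exact Set.ext fun _ => ⟨fun a => ⟨a.1.1.1, ⟨⟨m₁ a.1.1.1, a.1.2⟩, a.2.1⟩, a.2.2⟩,
      fun a => ⟨⟨⟨a.1, a.2.2⟩, a.2.1.1.2⟩, a.2.1.2, a.2.2⟩⟩
  rw [Vm, a₁] at v
  rw [Vm, a₂] at v'
  refine v.vir_atw v' h.toStd hl hB h0 hZ.ge hT ⟨U ∩ V, h.pr.opn.inter hV, ?_⟩ ht h1 hz c₁
  rw [← a₁, eV]
  exact Set.ext fun _ => ⟨fun a => ⟨a.1.1, a.1.2, a.2.2⟩, fun a => ⟨⟨a.1, a.2.1⟩, a.1.1, a.2.2⟩⟩

namespace BCa

variable {Z' Z : Set (ch.WF ν κ Λ)} (c : BCa F l wt wl wk Z' Z) (hz' : GZ (F.atw l wt wl wk) ℓ Z')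
  (hz : GZ F ℓ Z) (hd' : (F.atw l wt wl wk).IsDiag (F.atw l wt wl wk).diag) (hd : F.IsDiag F.diag)
include c hz' hz hd' hd

theorem rp_psi (n : Mk ν κ) :
    (F.atw l wt wl wk).Rp Z' (.psi n) (pull c.toEqM.map (F.coch Z (.psi n))) :=
  BC.rp_of_cl c hz' hz hd' hd trivial trivial rfl (BC.cl_psi c hz' hz n)

theorem rp_tw (Θ : MvPolynomial (J × ℕ) ℂ) :
    (F.atw l wt wl wk).Rp Z' (.tw Θ) (pull c.toEqM.map (F.coch Z (.tw Θ))) :=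
  BC.rp_of_cl c hz' hz hd' hd trivial trivial rfl (BC.cl_tw c hz' hz (fun _ _ _ => by simp) Θ)

theorem rp_par {A' A : Set _} (hA' : ∀ x ∈ Z', x.1 ∈ A') (hA : ∀ x ∈ Z, x.1 ∈ A) :
    (F.atw l wt wl wk).Rp Z' (.par A' 1) (pull c.toEqM.map (F.coch Z (.par A 1))) :=
  BC.rp_of_cl c hz' hz hd' hd hA' hA rfl (by rw [hz'.cl_par_one hA', hz.cl_par_one hA, map_one])

theorem rp_ev {n : Mk ν κ} {A' A : Set _} (e : A' ⊆ A) (hA' : ∀ x ∈ Z', vl x n ∈ A')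
    (hA : ∀ x ∈ Z, vl x n ∈ A) (a : H (F.X A)) : (F.atw l wt wl wk).Rp Z'
      (.ev n A' ((F.atw l wt wl wk).pb F.toWt id A' a)) (pull c.toEqM.map (F.coch Z (.ev n A a))) :=
  BC.rp_of_cl c hz' hz hd' hd hA' hA rfl ((congrArg (fun a => (F.atw l wt wl wk).cl Z' (.ev n A' a))
    (Wt.pb_eq (Fam.eqv_atw e) a)).trans (BC.cl_ev c hz' hz (Fam.eqv_atw e) hA' hA a))

theorem rp_dg (hl : l ∈ F.B) (hu : ∀ t t', (F.atw l wt wl wk).IsDiag t →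
    (F.atw l wt wl wk).IsDiag t' → Cohom (F.atw l wt wl wk).Δ2 t t') (q : κ) :
    (F.atw l wt wl wk).Rp Z' (.dg q) (pull c.toEqM.map (F.coch Z (.dg q))) :=
  BC.rp_dg c hz' hz hd' (Fam.eqv2_atw hl)
    (hu _ _ hd' (hd.pull hz.inv hz'.inv (Fam.eqv2_atw hl) fun _ _ => rfl)) fun _ => rfl

theorem ev_gys [Nice (Quo (actF F.toWt) Z)] (hΦ : IsClosedEmbedding c.toEqM.map) {T : Coch _}
    (hT : supp (δ T) = ∅) (hs : supp T ⊆ range c.toEqM.map) (v : BM (Quo (actF F.toWt) Z))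
    {fs' : List (Fac (F.atw l wt wl wk).toWt ν κ)} {fs : List (Fac F.toWt ν κ)}
    (hM : List.Forall₂ (fun f' f => (F.atw l wt wl wk).Rp Z' f' (pull c.toEqM.map (F.coch Z f)))
      fs' fs) (hA' : ∀ f ∈ fs', f.At Z') (hA : ∀ f ∈ fs, f.At Z) (hq' : ∀ q, .dg q ∈ fs')
    (hq : ∀ q, .dg q ∈ fs) (hc : IsCompact (dia (F.atw l wt wl wk).toWt Z')) {a : Coch _}
    (ha : supp (δ a) = ∅) (h1 : hcls a = 1) :
    ev (gys c.toEqM.map T v) (a * (fs'.map ((F.atw l wt wl wk).coch Z')).prod) =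
      ev v ((fs.map (F.coch Z)).prod * T) := by
  rw [hz'.ev_pull hd' hA' hM hq' ha cocycle_one (h1.trans hcls_one.symm) hc, one_mul, ev_eq, ev_eq,
    gys_apply, cgys_eq hΦ hT hs, Hc.gys_cls' hΦ hT hs
      (fun _ => supp_eq_empty.1 (hz.cocycle_prod hd hA) _) hc]
  intro z a
  obtain ⟨x, rfl⟩ := Tq.mk_surj z
  exact GZ.dia_eq.ge <| mem_iInter.2 fun q => hz'.mk_mem_diq.2 (hz.mk_mem_diq.1 (hz.supp_dg hd q
    (NF.supp_prod (List.mem_map_of_mem (hq q)) a)))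

end BCa

end Ch

theorem hcls_ind_univ {Y : Type} [TopologicalSpace Y] : hcls (ind (univ : Set Y)) = 1 := by
  refine (congrArg hcls (fn_one ▸ Subtype.ext (funext fun l => ?_))).trans hcls_one
  rcases l with _ | ⟨y, _ | ⟨z, l⟩⟩ <;> simp [ind, fn]

theorem forall₂_ofFn {α β : Type} {r : α → β → Prop} {n : ℕ} {f : Fin n → α} {g : Fin n → β}
    (h : ∀ i, r (f i) (g i)) : List.Forall₂ r (.ofFn f) (.ofFn g) := by
  rw [List.ofFn_eq_map, List.ofFn_eq_map, List.forall₂_map_left_iff, List.forall₂_map_right_iff]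
  exact List.forall₂_same.2 fun i _ => h i

theorem forall₂_replicate {α β : Type} {r : α → β → Prop} {a : α} {b : β} (h : r a b) :
    ∀ n, List.Forall₂ r (.replicate n a) (.replicate n b)
  | 0 => .nil
  | n + 1 => .cons h (forall₂_replicate h n)

/-- relations between the factors of two correlators -/
theorem forall₂_fsC {S' Λ' R' J' : Type} [Fintype S'] [Fintype Λ'] [Fintype R'] [Fintype J']
    {W' : Wt S' Λ' R' J'} {W : Wt S Λ R J} {e' : W'.Ex} {e : W.Ex} {A₁ A₁' : Set _} {A A' : Set _}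
    {a b c : ℕ} {v₁ : Fin a → ℕ × H (W.X A)} {v₂ : Fin b → ℕ × ℕ} {v₃ : Fin c → ℕ × H (W.X A')}
    {p : H (W.X A) → H (W'.X A₁)} {p' : H (W.X A') → H (W'.X A₁')}
    {r : Fac W' (Fin a ⊕ Fin c) (Fin b) → Fac W (Fin a ⊕ Fin c) (Fin b) → Prop}
    (h₁ : r (.tw e'.Θ) (.tw e.Θ)) (h₂ : r (.par e'.B e'.c) (.par e.B e.c))
    (h₃ : ∀ n, r (.psi n) (.psi n)) (h₄ : ∀ q, r (.dg q) (.dg q))
    (h₅ : ∀ i, r (.ev (.inl (.inl i)) A₁ (p (v₁ i).2)) (.ev (.inl (.inl i)) A (v₁ i).2))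
    (h₆ : ∀ i, r (.ev (.inl (.inr i)) A₁' (p' (v₃ i).2)) (.ev (.inl (.inr i)) A' (v₃ i).2)) :
    List.Forall₂ r (W'.fsC e' A₁ A₁' (fun i => Prod.map id p (v₁ i)) v₂ fun i => Prod.map id p' (v₃ i))
      (W.fsC e A A' v₁ v₂ v₃) :=
  .cons h₁ (.cons h₂ (List.rel_append (List.rel_append
    (List.rel_flatten (forall₂_ofFn fun i =>
      List.rel_append (forall₂_replicate (h₃ _) _) (.cons (h₅ i) .nil)))
    (List.rel_flatten (forall₂_ofFn fun q => List.rel_append (List.rel_append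
      (forall₂_replicate (h₃ _) _) (forall₂_replicate (h₃ _) _)) (.cons (h₄ q) .nil))))
    (forall₂_ofFn h₆)))

namespace Fam

variable [DecidableEq R] {δ : J → ℕ} {k D m : ℕ}

theorem Sm.dim (h : F.Sm (Fintype.card S + m)) : Tq.Dim F.actL F.B m := fun x hx =>
  ⟨hx, by rw [Module.finrank_fintype_fun_eq_card]; exact h ⟨x, hx⟩⟩

theorem mem_fsC₁ {e : F.Ex} {A A' : Set _} {a b c : ℕ} {v₁ : Fin a → ℕ × H (F.X A)}
    {v₂ : Fin b → ℕ × ℕ} {v₃ : Fin c → ℕ × H (F.X A')} (i : Fin a) :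
    .ev (.inl (.inl i)) A (v₁ i).2 ∈ F.fsC e A A' v₁ v₂ v₃ :=
  .tail _ (.tail _ (List.mem_append_left _ (List.mem_append_left _ (List.mem_flatten.2
    ⟨_, List.mem_ofFn.2 ⟨i, rfl⟩, List.mem_append_right _ (List.mem_singleton_self _)⟩))))

theorem mem_fsC₃ {e : F.Ex} {A A' : Set _} {a b c : ℕ} {v₁ : Fin a → ℕ × H (F.X A)}
    {v₂ : Fin b → ℕ × ℕ} {v₃ : Fin c → ℕ × H (F.X A')} (i : Fin c) :
    .ev (.inl (.inr i)) A' (v₃ i).2 ∈ F.fsC e A A' v₁ v₂ v₃ :=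
  .tail _ (.tail _ (List.mem_append_right _ (List.mem_ofFn.2 ⟨i, rfl⟩)))

end Fam

theorem Ch.Ok.ev_atw [DecidableEq R] {a b c : ℕ} {ch : Ch ι J} {e : K → ι → ℕ} {ℓ : R → ι → ℤ} {δ : J → ℕ}
    {U : Set (ch.WF (Fin a ⊕ Fin c) (Fin b) Λ)} {b₀ m : ℕ} [DecidableEq I] {φ : I → J} {n ψ}
    (h : ch.Ok F e K₀ ℓ b₀ U) (hE : F.PolE) (hs : F.Sh δ φ n ψ) (hl : l ∈ F.B)
    [Mono.FP F.actL F.B] (hB : Tq.Dim F.actL F.B m) (u : Fin a ⊕ Fin c → ℕ) {t : Coch (F.Bs F.B)}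
    (ht : IsCo {Quo.mk F.actL ⟨l, hl⟩} m t) (h1 : ev (Tq.fnd F.actL F.B) t = 1)
    (hz : Ch.GZ F ℓ (ch.solF _ (Fin b) F ∩ ch.cyc _ F fun n => u n • δ))
    (hz' : Ch.GZ (F.atw l wt wl wk) ℓ
      (ch.solF _ (Fin b) (F.atw l wt wl wk) ∩ ch.cyc _ (F.atw l wt wl wk) fun n => u n • δ))
    (d₁ : F.IsDiag F.diag) (d₁' : (F.atw l wt wl wk).IsDiag (F.atw l wt wl wk).diag)
    (d₃' : ∀ t t', (F.atw l wt wl wk).IsDiag t → (F.atw l wt wl wk).IsDiag t' →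
      Cohom (F.atw l wt wl wk).Δ2 t t') {A A' A₁ A₁' : Set _} (e₁ : A₁ ⊆ A) (e' : A₁' ⊆ A')
    {Θ : MvPolynomial (J × ℕ) ℂ} {v₁ : Fin a → ℕ × H (F.X A)} {v₂ : Fin b → ℕ × ℕ}
    {v₃ : Fin c → ℕ × H (F.X A')}
    (f : ∀ f ∈ F.fsC (F.exT Θ) A A' v₁ v₂ v₃,
      f.At (ch.solF _ (Fin b) F ∩ ch.cyc _ F fun n => u n • δ))
    (f' : ∀ f ∈ (F.atw l wt wl wk).fsC ((F.atw l wt wl wk).exT Θ) A₁ A₁'
        (fun i => Prod.map id ((F.atw l wt wl wk).pb F.toWt id A₁) (v₁ i)) v₂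
        fun i => Prod.map id ((F.atw l wt wl wk).pb F.toWt id A₁') (v₃ i), f.At
      (ch.solF _ (Fin b) (F.atw l wt wl wk) ∩ ch.cyc _ (F.atw l wt wl wk) fun n => u n • δ))
    (hc : IsCompact (Ch.dia (F.atw l wt wl wk).toWt
      (ch.solF _ (Fin b) (F.atw l wt wl wk) ∩ ch.cyc _ (F.atw l wt wl wk) fun n => u n • δ)))
    {a₀ : Coch _} (ha : supp (P291Z.δ a₀) = ∅) (h₀ : hcls a₀ = 1) :
    ev (Ch.virF (F.atw l wt wl wk) e (ch.cyc (Fin b) (F.atw l wt wl wk) fun n => u n • δ))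
      (a₀ * (((F.atw l wt wl wk).fsC ((F.atw l wt wl wk).exT Θ) A₁ A₁'
        (fun i => Prod.map id ((F.atw l wt wl wk).pb F.toWt id A₁) (v₁ i)) v₂
        fun i => Prod.map id ((F.atw l wt wl wk).pb F.toWt id A₁') (v₃ i)).map
          ((F.atw l wt wl wk).coch _)).prod) =
    ev (Ch.virF F e (ch.cyc (Fin b) F fun n => u n • δ))
      (((F.fsC (F.exT Θ) A A' v₁ v₂ v₃).map (F.coch _)).prod * Ch.parF F.B t) := by
  haveI := hz.nice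
  have hZ := (h.lat.gr h.inv hs u).sol_atw (κ := Fin b) (wt := wt) (wl := wl) (wk := wk) h.inv hl
  have c₁ : Ch.BCa F l wt wl wk _ _ := Ch.bc_atw (hZ.le.trans inter_subset_left)
  obtain ⟨a₁, a₂⟩ := h.vir_atw hE hs hl hB u ht h1 hz c₁
  have q := (hz.eqh_par fun _ a => a.1.1.1).toEqv.qm.continuous
  have r : (hz.eqh_par fun _ a => a.1.1.1).toEqv.qm ⁻¹' {Quo.mk F.actL ⟨l, hl⟩} ⊆
      range c₁.toEqM.map :=
    haveI := hz.act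
    ((Ch.fbr_atw (F := F) (wt := wt) (wl := wl) (wk := wk)).range_map hl (fun _ a => a.1.1.1) hZ).ge
  have M := forall₂_fsC (e' := (F.atw l wt wl wk).exT Θ) (e := F.exT Θ) (v₁ := v₁) (v₂ := v₂) (v₃ := v₃)
    (r := fun f' f => (F.atw l wt wl wk).Rp _ f' (pull c₁.toEqM.map (F.coch _ f)))
    (c₁.rp_tw hz' hz d₁' d₁ _) (c₁.rp_par hz' hz d₁' d₁ (fun _ _ => trivial) fun _ _ => trivial)
    (c₁.rp_psi hz' hz d₁' d₁) (c₁.rp_dg hz' hz d₁' d₁ hl d₃')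
    (fun i => c₁.rp_ev hz' hz d₁' d₁ e₁ (f' _ (Fam.mem_fsC₁ i)) (f _ (Fam.mem_fsC₁ i)) _)
    fun i => c₁.rp_ev hz' hz d₁' d₁ e' (f' _ (Fam.mem_fsC₃ i)) (f _ (Fam.mem_fsC₃ i)) _
  rw [hz.parF_eq fun _ a => a.1.1.1, ← a₂]
  exact c₁.ev_gys hz' hz d₁' d₁ a₁ (cocycle_pull q ht.cocycle)
    ((supp_pull q t).trans ((preimage_mono ht.supp).trans r)) _ M f' f
    Fam.dg_mem_fsC Fam.dg_mem_fsC hc ha h₀

namespace Fam

variable [DecidableEq R] {δ : J → ℕ} {k D m : ℕ}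

/-- **the integrals of a member** -/
theorem Nice.intg_atw (hd : St.Dg) (h : F.Nice δ) (hk : F.Big k) (hD : F.BigD k D) (hl : l ∈ F.B)
    (hB : Tq.Dim F.actL F.B m) {t : Coch (F.Bs F.B)} (ht : IsCo {Quo.mk F.actL ⟨l, hl⟩} m t)
    (h1 : ev (Tq.fnd F.actL F.B) t = 1) {A A' A₁ A₁' : Set _} (e : A₁ ⊆ A) (e' : A₁' ⊆ A')
    (hA : F.cone ⊆ A) (hA' : F.dvs δ ⊆ A') (hA₁ : (F.atw l wt wl wk).cone ⊆ A₁)
    (hA₁' : (F.atw l wt wl wk).dvs δ ⊆ A₁') (Θ : MvPolynomial (J × ℕ) ℂ) (g : ℤ) (d : R → ℤ)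
    {a b c : ℕ} (v₁ : Fin a → ℕ × H (F.X A)) (v₂ : Fin b → ℕ × ℕ) (v₃ : Fin c → ℕ × H (F.X A')) :
    (F.atw l wt wl wk).intg ((F.atw l wt wl wk).vir (Fin b) k D g d fun n => ord₃ v₃ n • δ)
      (fun _ => True) ((F.atw l wt wl wk).fsC ((F.atw l wt wl wk).exT Θ) A₁ A₁'
        (fun i => Prod.map id ((F.atw l wt wl wk).pb F.toWt id A₁) (v₁ i)) v₂
        fun i => Prod.map id ((F.atw l wt wl wk).pb F.toWt id A₁') (v₃ i)) =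
    ev (F.vir (Fin b) k D g d fun n => ord₃ v₃ n • δ)
      (((F.fsC (F.exT Θ) A A' v₁ v₂ v₃).map (F.coch _)).prod * Ch.parF F.B t) := by
  have h' : (F.atw l wt wl wk).Nice δ := h.atw hl
  have hk' : (F.atw l wt wl wk).Big k := hk.atw hl
  have hD' : (F.atw l wt wl wk).BigD k D := bigD_atw.2 hD
  obtain ⟨d₁, -, -⟩ := h.dg hd
  obtain ⟨d₁', -, d₃'⟩ := h'.dg hd
  obtain ⟨K₀, hR⟩ := h.reg
  obtain ⟨_, hb⟩ := h.sm
  obtain ⟨_, _, _, _, hs⟩ := h.sh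
  obtain ⟨U, o⟩ := h.toGood.ok' (Fin a ⊕ Fin c) (Fin b) hR hb hk hD g d
  haveI := h.toGood.fpB
  have f' := fun f hf => h'.at_of_ok (κ := Fin b) (g := g) (d := d) hk' hD'
    (ok_fsC (e := (F.atw l wt wl wk).exT Θ)
      (v₁ := fun i => Prod.map id ((F.atw l wt wl wk).pb F.toWt id A₁) (v₁ i)) (v₂ := v₂)
      (v₃ := fun i => Prod.map id ((F.atw l wt wl wk).pb F.toWt id A₁') (v₃ i))
      (subset_univ _) hA₁ hA₁' f hf)
  have s := sel_true (κ := Fin b) (g := g) (d := d) (u := fun n => ord₃ (a := a) v₃ n • δ) hD'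
  exact o.ev_atw h.pol hs hl hB (ord₃ v₃) ht h1 (h.gz _ hk hD g d _) (h'.gz _ hk' hD' g d _) d₁ d₁'
    d₃' e e' (fun f hf => h.at_of_ok hk hD (ok_fsC (subset_univ _) hA hA' f hf)) f'
    (h'.toGood.isCompact_dia cp_atw hk' hD' _) (cocycle_ind' (s ▸ isClopen_univ))
    ((congrArg (fun x => hcls (ind x)) s).trans hcls_ind_univ)

end Fam

end Vale.Agent.P269
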