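import Vale.Agent.P269.Map.SQD
import Vale.Agent.P269.Prj.Quo
import Vale.Agent.P269.Spl.Cyc

set_option linter.unusedSectionVars false

/-!
# Fibres and products of cycles over a free orbit space: the definitions
-/

namespace Vale.Agent.P269

open Set Function Topology Filter Module Vale.Agent.P291Z Vale.Agent.P269.Orb Holo Ch

variable {A A' C W W' V : Type} [NormedRing A] [NormedAlgebra ℂ A] [NormedRing A']
  [NormedAlgebra ℂ A'] [NormedRing C] [NormedAlgebra ℂ C] [NormedAddCommGroup W] [NormedSpace ℂ W]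
  [NormedAddCommGroup W'] [NormedSpace ℂ W'] [NormedAddCommGroup V] [NormedSpace ℂ V]
  [FiniteDimensional ℂ A] [FiniteDimensional ℂ A'] [FiniteDimensional ℂ C] [FiniteDimensional ℂ W]
  [FiniteDimensional ℂ W'] [FiniteDimensional ℂ V]

/-- `A = C × A'` acts on `W` over the action of `C` on `V`; `act'` is the action of `A'`. -/
structure Fbr (act : A → W → W) (act' : A' → W → W) (actB : C → V → V) (e : A ≃L[ℂ] C × A')
    (p : W →L[ℂ] V) : Prop where
  one : e 1 = 1
  mul : ∀ a b, e (a * b) = e a * e b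
  sub : ∀ a, IsUnit a → ∀ x, act' a x = act (e.symm (1, a)) x
  eqv : ∀ a, IsUnit a → ∀ x, p (act a x) = actB (e a).1 (p x)

/-- `M` is a locally trivial family over `B` near `l`. -/
structure LTr (act' : A' → W → W) (p : W →L[ℂ] V) (B : Set V) (l : V) (M : Set W) (T : V → W → W)
    (T' : W → W) : Prop where
  an : ∀ x, p x = l → AnalyticAt ℂ (fun y : V × W => T y.1 y.2) (l, x)
  an' : ∀ x, p x = l → AnalyticAt ℂ T' x
  self : ∀ x, p x = l → T l x = x
  fwd : ∀ᶠ v in 𝓝 l, ∀ x, p x = l → p (T v x) = v ∧ T' (T v x) = x ∧ (v ∈ B → x ∈ M → T v x ∈ M) ∧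
    ∀ a, IsUnit a → T v (act' a x) = act' a (T v x)
  bwd : ∀ᶠ v in 𝓝 l, ∀ y, p y = v → p (T' y) = l ∧ T v (T' y) = y ∧ (y ∈ M → T' y ∈ M)
  sub : MapsTo p M B

/-- `S = B × S'`, with the product action of `A = C × A'`. -/
structure Prd (act : A → W → W) (act' : A' → W' → W') (actB : C → V → V) (e : A ≃L[ℂ] C × A')
    (p : W →L[ℂ] V) (q : W → W') (j : V → W' → W) (B : Set V) (S : Set W) (S' : Set W') : Prop where
  one : e 1 = 1
  mul : ∀ a b, e (a * b) = e a * e b
  an_q : ∀ x, AnalyticAt ℂ q x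
  an_j : ∀ y, AnalyticAt ℂ (fun y : V × W' => j y.1 y.2) y
  mem : ∀ x, x ∈ S ↔ p x ∈ B ∧ q x ∈ S'
  p_j : ∀ v y, p (j v y) = v
  q_j : ∀ v, ∀ y ∈ S', q (j v y) = y
  j_pq : ∀ x, j (p x) (q x) = x
  p_act : ∀ a, IsUnit a → ∀ x, p (act a x) = actB (e a).1 (p x)
  q_act : ∀ a, IsUnit a → ∀ x ∈ S, q (act a x) = act' (e a).2 (q x)

variable {act : A → W → W} {actB : C → V → V} {e : A ≃L[ℂ] C × A'} {p : W →L[ℂ] V} {B : Set V}
  [IsAct act univ] [IsAct actB univ] [Mono.FP actB B] {n N N₁ : ℕ}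

theorem LTr.inv_self {act' : A' → W → W} {l : V} {M : Set W} {T : V → W → W} {T' : W → W}
    (h : LTr act' p B l M T T') {x : W} (hx : p x = l) : T' x = x := by
  have := (h.fwd.self_of_nhds x hx).2.1
  rwa [h.self x hx] at this

theorem LTr.closure {act' : A' → W → W} {l : V} {M : Set W} {T : V → W → W} {T' : W → W}
    (h : LTr act' p B l M T T') : closure M ∩ p ⁻¹' {l} = closure (M ∩ p ⁻¹' {l}) := by
  apply Subset.antisymm
  · rintro x ⟨hx, hp⟩
    have hp' : p x = l := hp
    have ht : Tendsto T' (𝓝 x) (𝓝 x) := by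
      have := (h.an' x hp').continuousAt.tendsto
      rwa [h.inv_self hp'] at this
    have hb : ∀ᶠ y in 𝓝 x, p (T' y) = l ∧ T (p y) (T' y) = y ∧ (y ∈ M → T' y ∈ M) := by
      have h2 : Tendsto p (𝓝 x) (𝓝 l) := hp' ▸ p.continuous.continuousAt.tendsto
      filter_upwards [h2.eventually h.bwd] with y hy using hy y rfl
    refine mem_closure_of_frequently_of_tendsto ?_ ht
    refine ((mem_closure_iff_frequently.1 hx).and_eventually hb).mono ?_
    rintro y ⟨hy, h1, -, h3⟩
    exact ⟨h3 hy, h1⟩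
  · exact subset_inter (closure_mono inter_subset_left)
      (closure_minimal inter_subset_right (isClosed_singleton.preimage p.continuous))

section hom

variable (h1 : e 1 = 1) (hm : ∀ a b, e (a * b) = e a * e b)
include h1 hm

theorem hm_fst : Tq.Hm (fun a => (e a).1) :=
  ⟨by simp [h1], fun a b _ _ => by simp [hm],
    fun _ _ => (continuous_fst.comp e.continuous).continuousAt⟩

theorem hm_snd : Tq.Hm (fun a => (e a).2) :=
  ⟨by simp [h1], fun a b _ _ => by simp [hm],
    fun _ _ => (continuous_snd.comp e.continuous).continuousAt⟩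

theorem hm_inl : Tq.Hm (fun c => e.symm (c, 1)) :=
  ⟨e.injective (by rw [e.apply_symm_apply, h1]; rfl),
    fun a b _ _ => e.injective (by simp [hm]),
    fun _ _ => (e.symm.continuous.comp (continuous_id.prodMk continuous_const)).continuousAt⟩

theorem hm_inr : Tq.Hm (fun a => e.symm (1, a)) :=
  ⟨e.injective (by rw [e.apply_symm_apply, h1]; rfl),
    fun a b _ _ => e.injective (by simp [hm]),
    fun _ _ => (e.symm.continuous.comp (continuous_const.prodMk continuous_id)).continuousAt⟩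

theorem symm_mul (x y : C × A') : e.symm (x * y) = e.symm x * e.symm y :=
  e.injective (by simp [hm])

end hom

theorem finrank_split (e : A ≃L[ℂ] C × A') : finrank ℂ A = finrank ℂ C + finrank ℂ A' := by
  rw [e.toLinearEquiv.finrank_eq, finrank_prod]

end Vale.Agent.P269
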