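import Vale.Agent.P269.Bas.BC
import Vale.Agent.P269.Bas.FbrD
import Vale.Agent.P269.Vir.Sd

set_option linter.unusedSectionVars false

/-!
# The members of a family: standing hypotheses, moduli spaces as fibres
-/

namespace Vale.Agent.P269

open P291Z Set Function Topology Filter

variable {S Λ R J K I ι ν κ : Type} [Fintype S] [Fintype Λ] [Fintype R] [Fintype J] [Fintype K]
  [Fintype I] [Fintype ι] [DecidableEq ι] [Fintype ν] [Fintype κ] {F : Fam S Λ R J K} {l : Λ → ℂ}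
  {wt : J → Empty → ℤ} {wl : Λ → Empty → ℤ} {wk : K → Empty → ℤ} {K₀ : Set K}

theorem isUnit_one_snd {A A' B : Type} [Monoid A] [Monoid A'] [Monoid B] {t : A' × B}
    (h : IsUnit t) : IsUnit ((1, t.2) : A × B) :=
  Prod.isUnit_iff.2 ⟨isUnit_one, (Prod.isUnit_iff.1 h).2⟩

namespace Fam

theorem atw_actL (t : Empty → ℂ) (v : Λ → ℂ) : (F.atw l wt wl wk).actL t v = v :=
  funext fun a => by simp [Wt.actL]

theorem atw_actT (t : (Empty → ℂ) × (R → ℂ)) (z : (Λ → ℂ) × (J → ℂ)) :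
    (F.atw l wt wl wk).actT t z = F.actT (1, t.2) z :=
  Prod.ext ((atw_actL _ _).trans (F.actL_one _).symm) (funext fun j => by simp [Wt.actT])

theorem mem_cone_atw (hl : l ∈ F.B) {z : (Λ → ℂ) × (J → ℂ)} :
    z ∈ (F.atw l wt wl wk).cone ↔ z ∈ F.cone ∧ z.1 = l :=
  ⟨fun h => ⟨⟨mem_of_eq_of_mem h.1 hl, h.2⟩, h.1⟩, fun h => ⟨h.2, h.1.2⟩⟩

theorem cone_atw (hl : l ∈ F.B) : (F.atw l wt wl wk).cone ⊆ F.cone :=
  fun _ h => ((mem_cone_atw hl).1 h).1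

theorem sm_atw : (F.atw l wt wl wk).Sm 0 := fun u => ⟨fun _ => u, .of_map_nhds
  (.of_forall fun _ => continuousAt_const) (.of_forall fun _ => continuous_subtype_val.continuousAt)
  analyticAt_const (injective_of_subsingleton _) fun _ a => mem_of_superset univ_mem fun y _ =>
    Subsingleton.elim u y ▸ (mem_of_mem_nhds a :), rfl⟩

theorem Inv.atw (h : F.Inv) : (F.atw l wt wl wk).Inv :=
  ⟨h.hom, fun _ _ _ _ _ => nofun, h.openU,
    fun t a z b => mem_of_eq_of_mem (atw_actT t z) (h.invU _ (isUnit_one_snd a) z b), h.closedE,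
    fun t a z b => mem_of_eq_of_mem (atw_actT t z) (h.invE _ (isUnit_one_snd a) z b), h.baseE,
    h.zer_base, isClosed_singleton.isLocallyClosed,
    fun t _ v b => mem_of_eq_of_mem (atw_actL t v) b⟩

theorem Reg.atw (h : F.Reg K₀) (hl : l ∈ F.B) : (F.atw l wt wl wk).Reg K₀ :=
  ⟨fun z hz => h.ind z (cone_atw hl hz), fun z hz =>
    (h.cut z (cone_atw hl hz)).mono fun _ a b => a ⟨mem_of_eq_of_mem b.1 hl, b.2⟩⟩

theorem Sh.atw [DecidableEq I] {δ : J → ℕ} {φ : I → J} {n ψ} (h : F.Sh δ φ n ψ) (hl : l ∈ F.B) :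
    (F.atw l wt wl wk).Sh δ φ n ψ :=
  ⟨h.free, h.li, h.neg, fun j a b c z hz => h.ne j a b c z (cone_atw hl hz),
    fun j v hv => h.an j v (mem_of_eq_of_mem hv hl), h.wd, h.ord,
    fun v hv => h.E v (mem_of_eq_of_mem hv hl), h.mv⟩

theorem eqv_atw {A' A : Set _} (e : A' ⊆ A) :
    Tq.Eqv (F.atw l wt wl wk).actT F.actT A' A fun z => (id z.1, z.2) :=
  ⟨e, continuousOn_id, fun a ha x _ => ⟨(1, a.2), isUnit_one_snd ha, atw_actT a x⟩⟩

theorem eqvL_atw {A' A : Set _} (e : A' ⊆ A) : Tq.Eqv (F.atw l wt wl wk).actL F.actL A' A id :=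
  ⟨e, continuousOn_id, fun a _ x _ => ⟨1, isUnit_one, (atw_actL a x).trans (F.actL_one x).symm⟩⟩

theorem eqv2_atw (hl : l ∈ F.B) : Tq.Eqv (F.atw l wt wl wk).act2 F.act2 (F.atw l wt wl wk).cone2
    F.cone2 fun z => (id z.1, z.2) :=
  ⟨fun _ h => ⟨⟨cone_atw hl h.1.1, cone_atw hl h.1.2⟩, h.2⟩, continuousOn_id,
    fun a ha x _ => ⟨(1, a.2), isUnit_one_snd ha,
      have e := fun y => congrArg Prod.snd
        (atw_actT (F := F) (l := l) (wt := wt) (wl := wl) (wk := wk) a (x.1, y))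
      Prod.ext ((atw_actL _ _).trans (F.actL_one _).symm) (Prod.ext (e _) (e _))⟩⟩

variable [DecidableEq R] {k D : ℕ}

theorem cp_atw : (F.atw l wt wl wk).Cp :=
  inferInstanceAs (CompactSpace (Quot (α := ({l} : Set _)) _))

theorem bigD_atw : (F.atw l wt wl wk).BigD k D ↔ F.BigD k D := Iff.rfl

theorem Ample.atw {θ₀ : R → ℤ} {N : ℕ} (h : F.Ample θ₀ N) (hl : l ∈ F.B) :
    (F.atw l wt wl wk).Ample θ₀ N :=
  ⟨h.1, h.2.1, fun c hc z hz => h.2.2 c hc z (cone_atw hl hz)⟩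

theorem Big.atw (h : F.Big k) (hl : l ∈ F.B) : (F.atw l wt wl wk).Big k :=
  let ⟨θ₀, N, a, b⟩ := h
  ⟨θ₀, N, a.atw hl, b⟩

theorem Good.atw (h : F.Good) (hl : l ∈ F.B) : (F.atw l wt wl wk).Good where
  toInv := h.toInv.atw
  deg := h.deg
  freeB _ _ _ _ _ := Subsingleton.elim _ _
  properB _ _ _ _ _ _ _ _ _ _ := ⟨0, fun _ => nofun⟩
  free t ht z hz e := h.free t ht z (cone_atw hl hz) ((atw_actT (1, t) z).symm.trans e)
  proper t z z' ht hz hz' y hy H := h.proper t z z' ht (cone_atw hl hz) (cone_atw hl hz') y hy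
    fun j a => (H j a).congr fun n => congrFun (congrArg Prod.snd (atw_actT (1, t n) _)) j
  cpt B _ _ := by
    obtain ⟨C, a, b, c⟩ := h.cpt {l} (singleton_subset_iff.2 hl) isCompact_singleton
    refine ⟨C ∩ Prod.fst ⁻¹' {l}, fun z hz => (mem_cone_atw hl).2 ⟨a hz.1, hz.2⟩,
      b.inter_right (isClosed_singleton.preimage continuous_fst), fun z hz _ => ?_⟩
    obtain ⟨t, d, e⟩ := c z (cone_atw hl hz) hz.1
    exact ⟨t, d, mem_of_eq_of_mem (atw_actT (1, t) z) e, (atw_actL _ _).trans hz.1⟩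
  ample := h.ample.imp fun _ a => a.imp fun _ b => b.atw hl
  mov_ne := h.mov_ne

theorem Nice.atw {δ : J → ℕ} (h : F.Nice δ) (hl : l ∈ F.B) : (F.atw l wt wl wk).Nice δ :=
  let ⟨n, φ, m, ψ, a⟩ := h.sh
  ⟨h.toGood.atw hl, h.reg.imp fun _ b => b.atw hl, ⟨0, sm_atw⟩, h.pol, n, φ, m, ψ, a.atw hl⟩

end Fam

namespace Ch

variable {ch : Ch ι J} {e : K → ι → ℕ} {ℓ : R → ι → ℤ} {Z Z' U : Set (ch.WF ν κ Λ)}
  {u : ν → J → ℕ} {b : ℕ}

variable (ch ν κ S) in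
/-- Splitting off the extra torus. -/
noncomputable def eF : ch.AF ν κ S ≃L[ℂ] (S → ℂ) × ch.AF ν κ Empty :=
  LinearEquiv.toContinuousLinearEquiv
    { toFun := fun s => (s.1, 1, s.2)
      invFun := fun s => (s.1, s.2.2)
      map_add' := fun _ _ => Prod.ext rfl (Prod.ext (Subsingleton.elim _ _) rfl)
      map_smul' := fun _ _ => Prod.ext rfl (Prod.ext (Subsingleton.elim _ _) rfl)
      left_inv := fun _ => rfl
      right_inv := fun _ => Prod.ext rfl (Prod.ext (Subsingleton.elim _ _) rfl) }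

theorem eF_apply (s : ch.AF ν κ S) : ch.eF S ν κ s = (s.1, 1, s.2) := rfl

theorem eF_symm (s : (S → ℂ) × ch.AF ν κ Empty) : (ch.eF S ν κ).symm s = (s.1, s.2.2) := rfl

variable (ch ν κ Λ) in
/-- The parameter. -/
noncomputable abbrev pF : ch.WF ν κ Λ →L[ℂ] Λ → ℂ := ContinuousLinearMap.fst ℂ _ _

theorem actF_atw (s : ch.AF ν κ Empty) (x : ch.WF ν κ Λ) :
    actF (F.atw l wt wl wk).toWt s x = actF F.toWt (1, s.2) x :=
  Prod.ext ((Fam.atw_actL _ _).trans (F.actL_one _).symm)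
    (congrArg (fun a => act (dup s.2) (scl a x.2)) (funext fun j => by simp))

theorem fbr_atw : Fbr (actF F.toWt) (actF (F.atw l wt wl wk).toWt) F.actL (ch.eF S ν κ)
    (ch.pF Λ ν κ) :=
  ⟨rfl, fun _ _ => Prod.ext rfl (Prod.ext (Subsingleton.elim _ _) rfl),
    fun a _ x => actF_atw a x, fun _ _ _ => rfl⟩

theorem hm_eF : Tq.Hm fun a : ch.AF ν κ Empty => (ch.eF S ν κ).symm (1, a) :=
  hm_inr rfl fun _ _ => Prod.ext rfl (Prod.ext (Subsingleton.elim _ _) rfl)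

theorem bc_atw (h : Z' ⊆ Z) : BC (F.atw l wt wl wk).toWt F.toWt Z' Z id (fun _ => 1) id
    (fun a => (ch.eF S ν κ).symm (1, a)) id :=
  ⟨⟨⟨hm_eF.ρ.toMonoidHom, hm_eF.ρ.continuous, fun _ => rfl⟩, h, continuousOn_id,
    fun a _ x _ => actF_atw a x⟩, fun _ => rfl, fun _ => rfl, fun _ => rfl, fun _ _ => rfl,
    fun _ _ => rfl, fun _ _ => rfl, fun _ _ => rfl, fun _ _ _ => rfl⟩

theorem Gr.atw [DecidableEq I] {φ : I → J} {n ψ} (h : Gr ch F u φ n ψ) (hl : l ∈ F.B) :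
    Gr ch (F.atw l wt wl wk) u φ n ψ :=
  ⟨h.zer, h.free, h.li, h.neg, fun j v hv => h.an j v (mem_of_eq_of_mem hv hl), h.wd, h.ord,
    fun v hv => h.E v (mem_of_eq_of_mem hv hl)⟩

/-- moving a point of the main stratum to another parameter -/
theorem Gr.scl_main [DecidableEq I] {φ : I → J} {n ψ} (h : Gr ch F u φ n ψ) {x : ch.WF ν κ Λ}
    (hx : x ∈ ch.main κ F u) {v : Λ → ℂ} (hv : v ∈ F.B) {c : J → ℂ}
    (hc : ∀ j, c j * ψ j x.1 = ψ j v) : (v, scl c x.2) ∈ ch.main κ F u := by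
  have P := ((mem_main_iff₀ h).1 hx).1.1
  obtain ⟨⟨h1, h2, h3, h4, h5⟩, h6⟩ := hx
  have a : ∀ j ∉ F.mov, ∀ p ∈ crv x.2, fld (scl c x.2) p j = c j * fld x.2 p j :=
    fun j hj p hp => Cv.fld_eq (x := scl c x.2) hp ((val_fld (h2 j hj p hp)).scl c)
  have a' : ∀ i, ∀ p ∈ crv x.2, fld (scl c x.2) p (φ i) = fld x.2 p (φ i) := fun i p hp => by
    have := hc (φ i)
    rw [(h.free i).2.2.2, Pi.one_apply, Pi.one_apply, mul_one] at this
    rw [a _ (h.free i).1 p hp, this, one_mul]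
  have z : ∀ j ∈ F.zer, (scl c x.2).X j = 0 := fun j hj =>
    ContinuousLinearMap.ext fun μ => by simp [h4 j hj]
  refine ⟨⟨⟨hv, h1.2⟩, fun j hj p hp => (h2 j hj p hp).imp' _ fun _ d => d.scl c,
    fun p hp => (h.E v hv _ (fun j hj => fld_of_zero (x := scl c x.2) hp (z j hj))
      fun j i d => ?_).2 fun j d d' => ?_, z, fun j hj q => ?_⟩, fun j hj hz γ hγ => ?_⟩
  · rw [a' i p hp]
    exact fld_ne P.base (P.val _ (h.free i).1) (P.triv _ (h.free i).1 (h.free i).2.1) hp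
      fun m _ => by simp [h.ext.neg j i d m]
  · simp only [a' _ p hp]
    rw [a j d p hp, (P.mem_E h.ext hp).1 (h3 p hp) j d d', ← mul_assoc, hc]
  · have d := fun n => (h1.2.1.2.2.2.1 n).1
    exact (a j hj _ (d _)).trans ((congrArg _ (h5 j hj q)).trans (a j hj _ (d _)).symm)
  · exact (analyticOrderAt_congr (hγ.mem.mono fun t d => a j hj _ d)).trans ((order_const_mul
      (left_ne_zero_of_mul ((hc j).trans_ne (h.an j v hv).2)) _ _).trans (h6 j hj hz γ hγ))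

theorem scl_scl {c c' : J → ℂ} (h : ∀ j, c j * c' j = 1) (x : ch.W ν) : scl c (scl c' x) = x :=
  (scl_mul _ _ _).symm.trans ((congrArg (scl · x) (funext h)).trans (scl_one _))

theorem an_scl' {P : Type} [NormedAddCommGroup P] [NormedSpace ℂ P] {c : P → J → ℂ}
    {x : P → ch.W ν} {q : P} (hc : ∀ j, AnalyticAt ℂ (fun y => c y j) q) (hx : AnalyticAt ℂ x q) :
    AnalyticAt ℂ (fun y => scl (c y) (x y)) q :=
  W.an_iff.2 ⟨fun l => (W.an_Q hx l :), fun n => (W.an_p hx n :), (W.an_Ξ hx :),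
    fun j => an_smul_clm (hc j) (W.an_X hx j)⟩

/-- the main stratum is locally trivial over the parameter space: rescale the base fields -/
theorem Gr.exists_ltr [DecidableEq I] {φ : I → J} {n ψ} (h : Gr ch F u φ n ψ) (hF : F.Inv)
    (hl : l ∈ F.B) : ∃ T T', LTr (actF (F.atw l wt wl wk).toWt : ch.AF ν κ Empty → _) (ch.pF Λ ν κ)
      F.B l (ch.main κ F u) T T' := by
  have _ := hF
  have a := fun j => (h.an j l hl).2
  have b : ∀ᶠ v in 𝓝 l, ∀ j, ψ j v ≠ 0 :=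
    eventually_all.2 fun j => (h.an j l hl).1.continuousAt.eventually_ne (a j)
  refine ⟨fun v x => (v, scl (fun j => ψ j v / ψ j l) x.2),
    fun y => (l, scl (fun j => ψ j l / ψ j y.1) y.2),
    fun x _ => analyticAt_fst.prod (an_scl' (fun j => ((h.an j l hl).1.comp_of_eq analyticAt_fst
      rfl).div analyticAt_const (a j)) (analyticAt_snd.comp analyticAt_snd)),
    fun x hx => analyticAt_const.prod (an_scl' (fun j => analyticAt_const.div
      ((h.an j l hl).1.comp_of_eq analyticAt_fst hx) ((congrArg (ψ j) hx).trans_ne (a j)))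
      analyticAt_snd),
    fun x hx => Prod.ext hx.symm ((congrArg (scl · x.2) (funext fun j => div_self (a j))).trans
      (scl_one _)),
    b.mono fun v c x hx => ⟨rfl, Prod.ext hx.symm (scl_scl (fun j => ?_) _), fun d d' =>
      h.scl_main d' d fun j => ?_, fun s _ => Prod.ext (Fam.atw_actL _ _).symm ?_⟩,
    b.mono fun v c y hy => ⟨rfl, Prod.ext hy.symm (scl_scl (fun j => ?_) _), fun d =>
      h.scl_main d hl fun j => div_mul_cancel₀ _ ((congrArg (ψ j) hy).trans_ne (c j))⟩,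
    fun x hx => hx.1.1.1⟩
  · rw [div_mul_div_cancel₀ (c j), div_self (a j)]
  · rw [show x.1 = l from hx, div_mul_cancel₀ _ (a j)]
  · exact (scl_act _ _ _).trans (congrArg (act (dup s.2)) ((scl_mul _ _ _).symm.trans
      ((congrArg (scl · x.2) (mul_comm _ _)).trans (scl_mul _ _ _))))
  · rw [show y.1 = v from hy, div_mul_div_cancel₀ (a j), div_self (c j)]

variable (hl : l ∈ F.B)
include hl

theorem baseF_atw : ch.baseF ν κ {l} = ch.baseF ν κ F.B ∩ ch.pF Λ ν κ ⁻¹' {l} :=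
  Set.ext fun _ => ⟨fun a => ⟨⟨mem_of_eq_of_mem a.1 hl, a.2⟩, a.1⟩, fun a => ⟨a.2, a.1.2⟩⟩

theorem adm_atw : ch.adm ν κ (F.atw l wt wl wk) = ch.adm ν κ F ∩ ch.pF Λ ν κ ⁻¹' {l} :=
  Set.ext fun _ => ⟨fun a => ⟨⟨((baseF_atw hl).le a.1).1, a.2⟩, a.1.1⟩,
    fun a => ⟨⟨a.2, a.1.1.2⟩, a.1.2⟩⟩

theorem main_atw : ch.main κ (F.atw l wt wl wk) u = ch.main κ F u ∩ ch.pF Λ ν κ ⁻¹' {l} :=
  Set.ext fun _ => ⟨fun a => ⟨⟨((adm_atw hl).le a.1).1, a.2⟩, a.1.1.1⟩,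
    fun a => ⟨(adm_atw hl).ge ⟨a.1.1, a.2⟩, a.1.2⟩⟩

theorem solF_atw : ch.solF ν κ (F.atw l wt wl wk) = ch.solF ν κ F ∩ ch.pF Λ ν κ ⁻¹' {l} :=
  Set.ext fun _ => ⟨fun a => ⟨⟨((baseF_atw hl).le a.1).1, a.2⟩, a.1.1⟩,
    fun a => ⟨⟨a.2, a.1.1.2⟩, a.1.2⟩⟩

theorem dom_atw : ch.dom ν κ (F.atw l wt wl wk) e = ch.dom ν κ F e ∩ ch.pF Λ ν κ ⁻¹' {l} :=
  Set.ext fun _ => ⟨fun a => ⟨⟨((adm_atw hl).le a.1).1, fun c => ((solF_atw hl).le (a.2 c)).1⟩,
    a.1.1.1⟩, fun a => ⟨(adm_atw hl).ge ⟨a.1.1, a.2⟩, fun c => (solF_atw hl).ge ⟨a.1.2 c, a.2⟩⟩⟩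

theorem Gr.cyc_atw [DecidableEq I] {φ : I → J} {n ψ} (h : Gr ch F u φ n ψ) (hF : F.Inv) :
    ch.cyc κ (F.atw l wt wl wk) u = ch.cyc κ F u ∩ ch.pF Λ ν κ ⁻¹' {l} := by
  obtain ⟨T, T', a⟩ := h.exists_ltr (κ := κ) (wt := wt) (wl := wl) (wk := wk) hF hl
  rw [cyc, cyc, main_atw hl, inter_inter_distrib_right]
  exact congrArg₂ _ a.closure.symm (baseF_atw hl)

theorem rk_atw : ch.rk (F.atw l wt wl wk) ℓ K₀ = ch.rk F ℓ K₀ := rfl

theorem Pr.atw (h : Pr F U) : Pr (F.atw l wt wl wk) U := by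
  have a : ch.baseF ν κ {l} ∩ U ⊆ ch.baseF ν κ F.B ∩ U :=
    inter_subset_inter_left _ ((baseF_atw hl).le.trans inter_subset_left)
  refine ⟨h.opn, fun s hs x hx => mem_of_eq_of_mem (actF_atw s x) (h.inv _ (isUnit_one_snd hs) x hx),
    fun x hx => h.sol ((solF_atw hl).le hx).1, fun x hx x' hx' => (h.prp x (a hx) x' (a hx')).imp
      fun C hC => hC.mono fun q c d s f => ?_, fun y hy => closure_mono
        (fun z c => And.intro (fun s hs f => ?_) c.2) (h.den y (a hy))⟩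
  · exact Prod.ext (Subsingleton.elim _ _)
      (congrArg Prod.snd (c.1 _ (isUnit_one_snd hs) ((actF_atw s z).symm.trans f)) :)
  · have g := norm_prod_le_iff.1 (c (a d) (hm_eF.ρ s) ((actF_atw _ _).symm.trans f))
    exact norm_prod_le_iff.2 ⟨by
      rw [Subsingleton.elim s.1.1 0, norm_zero]
      exact (norm_nonneg _).trans g.1, g.2⟩

theorem Std.atw (h : ch.Std F e K₀ ℓ) : ch.Std (F.atw l wt wl wk) e K₀ ℓ :=
  ⟨h.inv.atw, h.reg.atw hl, ⟨h.fits.wt, h.fits.le, h.fits.ne⟩, h.cuts, h.wt⟩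

theorem Ok.atw (h : ch.Ok F e K₀ ℓ b U) : ch.Ok (F.atw l wt wl wk) e K₀ ℓ 0 U :=
  ⟨h.toStd.atw hl, h.pr.atw hl, h.num, ⟨h.lat.wd, h.lat.dual⟩, Fam.sm_atw⟩

end Ch

end Vale.Agent.P269
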