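import Vale.Agent.P269.Map.E5A

set_option linter.unusedSectionVars false

/-!
# Killing variables
-/

namespace Vale.Agent.P269

open Set Function Vir
open MvPolynomial hiding funext

variable {S S' Λ Λ' R J K ι : Type} [Fintype S] [Fintype S'] [Fintype Λ] [Fintype Λ'] [Fintype R]
  [Fintype J] [Fintype K] [Fintype ι] [DecidableEq ι] {T : Set J}

open Classical in
/-- The variables in `T` are replaced by zero. -/
noncomputable def kv {A : Type} [CommSemiring A] (T : Set J) (p : MvPolynomial J A) :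
    MvPolynomial J A := ∑ α ∈ p.support with ∀ j ∈ T, α j = 0, monomial α (coeff α p)

open Classical in
theorem coeff_kv {A : Type} [CommSemiring A] (T : Set J) (p : MvPolynomial J A) (α : J →₀ ℕ) :
    coeff α (kv T p) = if ∀ j ∈ T, α j = 0 then coeff α p else 0 := by
  simp only [kv, coeff_sum, coeff_monomial, Finset.sum_ite_eq', Finset.mem_filter, mem_support_iff]
  by_cases h : coeff α p = 0 <;> simp [h]

theorem mem_support_kv {A : Type} [CommSemiring A] {p : MvPolynomial J A} {α : J →₀ ℕ} :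
    α ∈ (kv T p).support ↔ α ∈ p.support ∧ ∀ j ∈ T, α j = 0 := by
  simp only [mem_support_iff, coeff_kv, ne_eq, ite_eq_right_iff, Classical.not_imp, and_comm]

theorem zc_eq {y : J → ℂ} (h : ∀ j ∈ T, y j = 0) : zc T y = y :=
  funext fun j => by
    by_cases a : j ∈ T
    exacts [(zc_mem y a).trans (h j a).symm, zc_not y a]

theorem eval_kv (p : MvPolynomial J ℂ) (y : J → ℂ) : eval y (kv T p) = eval (zc T y) p := by
  classical
  rw [eval_eq' (zc T y), kv, map_sum, Finset.sum_filter]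
  refine Finset.sum_congr rfl fun α _ => ?_
  split_ifs with h
  · rw [eval_monomial, Finsupp.prod_fintype _ _ fun _ => pow_zero _,
      prod_pow_congr h fun _ => zc_not y]
  · obtain ⟨j, a, b⟩ := by simpa using h
    rw [Finset.prod_eq_zero (Finset.mem_univ j) (by rw [zc_mem y a, zero_pow b]), mul_zero]

theorem pderiv_kv (p : MvPolynomial J ℂ) (y η : J → ℂ) :
    ∑ j, eval y (pderiv j (kv T p)) * η j = ∑ j, eval (zc T y) (pderiv j p) * zc T η j :=
  (hasDerivAt_eval _ y η).unique ((hasDerivAt_eval p (zc T y) (zc T η)).congr_of_eventuallyEq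
    (.of_forall fun ε => (eval_kv p _).trans (congrArg (eval · p)
      (((zc T).map_add y (ε • η)).trans (congrArg _ ((zc T).map_smul ε η))))))

theorem Ch.coeff_hp {ch : Ch ι J} (F : Fam S Λ R J K) (e : K → ι → ℕ) (l : Λ → ℂ) (k : K)
    (ζ : ch.Zt) (c : V ch.M) (α : J →₀ ℕ) : coeff α (Ch.hp F e l k ζ c) =
      eval l (coeff α (F.G k)) * ∏ i, ζ i (c i) ^ (e k i - ∑ j, α j * ch.b j i) := by
  classical
  simp only [Ch.hp, coeff_sum, coeff_monomial, Finset.sum_ite_eq', mem_support_iff]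
  by_cases h : coeff α (F.G k) = 0 <;> simp [h]

namespace Fam

open Classical in
/-- The equations of `F'` at `l'` are those of `F` at `l` with the variables in `T` killed. -/
def Kl (F' : Fam S' Λ' R J K) (F : Fam S Λ R J K) (T : Set J) (l' : Λ' → ℂ) (l : Λ → ℂ) : Prop :=
  ∀ k α, eval l' (coeff α (F'.G k)) = if ∀ j ∈ T, α j = 0 then eval l (coeff α (F.G k)) else 0

variable {F' : Fam S' Λ' R J K} {F : Fam S Λ R J K} {l' : Λ' → ℂ} {l : Λ → ℂ}

theorem kl_of_kv {F' : Fam S' Λ R J K} (h : ∀ k, F'.G k = kv T (F.G k)) (l : Λ → ℂ) :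
    F'.Kl F T l l := fun k α => by
  rw [h, coeff_kv, apply_ite (MvPolynomial.eval l), map_zero]

variable (h : F'.Kl F T l' l)
include h

theorem Kl.fib (k : K) : (F'.fib l').F k = kv T ((F.fib l).F k) :=
  MvPolynomial.ext _ _ fun α => (coeff_map _ _ _).trans ((h k α).trans (by
    rw [coeff_kv, Fam.fib, coeff_map]))

theorem Kl.eqn (y : J → ℂ) (k : K) : F'.eqn (l', y) k = F.eqn (l, zc T y) k :=
  (congrArg (MvPolynomial.eval y) (h.fib k)).trans (eval_kv _ y)

theorem Kl.jac (y η : J → ℂ) (k : K) :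
    ∑ j, F'.jac (l', y) k j * η j = ∑ j, F.jac (l, zc T y) k j * zc T η j := by
  simp only [Fam.jac, h.fib k]
  exact pderiv_kv _ y η

variable {ch : Ch ι J} (e : K → ι → ℕ) (k : K) (ζ : ch.Zt) (c : V ch.M)

theorem Kl.hp_eq : Ch.hp F' e l' k ζ c = kv T (Ch.hp F e l k ζ c) :=
  MvPolynomial.ext _ _ fun α => by
    rw [coeff_kv, Ch.coeff_hp, Ch.coeff_hp, h k α, ite_mul, zero_mul]

theorem Kl.hp (y : J → ℂ) : eval y (Ch.hp F' e l' k ζ c) = eval (zc T y) (Ch.hp F e l k ζ c) := by
  rw [h.hp_eq, eval_kv]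

theorem Kl.dhp (y η : J → ℂ) : ∑ j, eval y (pderiv j (Ch.hp F' e l' k ζ c)) * η j =
    ∑ j, eval (zc T y) (pderiv j (Ch.hp F e l k ζ c)) * zc T η j := by
  rw [h.hp_eq, pderiv_kv]

end Fam

end Vale.Agent.P269
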