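import Vale.Agent.P269.Bas.Rel
import Vale.Agent.P269.LG.Geo

set_option linter.unusedSectionVars false

/-!
# Relabelling of the moduli spaces
-/

namespace Vale.Agent.P269

open P291Z Set Function Topology Filter

variable {S Λ R J K ι ν κ ν' κ' : Type} [Fintype S] [Fintype Λ] [Fintype R] [Fintype J] [Fintype K]
  [Fintype ι] [DecidableEq ι] [Fintype ν] [Fintype κ] [Fintype ν'] [Fintype κ']
  {F : Fam S Λ R J K} {K₀ : Set K}

theorem Ch.exists_rlH {ch ch' : Ch ι J} (a : ν ≃ ν') (b : κ ≃ κ') (hc : ch' = ch)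
    {e : Ch ι J → K → ι → ℕ} {ℓ : R → ι → ℤ} {u : ν' → J → ℕ} {O M : Set (ch.WF ν κ Λ)} {d : ℕ}
    (v : Vd F (e ch) (ch.cyc κ F fun n => u (a n)) O M d) (hs : ch.Std F (e ch) K₀ ℓ) :
    ∃ Ψ : ModS F (ch'.cyc κ' F u) ≃ₜ ModS F (ch.cyc κ F fun n => u (a n)),
      (∀ y m, (∃ x, Ψ y = Quo.mk _ x ∧ Rep ℓ univ x.1 (m.re (mkE a b).toEmbedding)) ↔
        ∃ x, y = Quo.mk _ x ∧ Rep ℓ univ x.1 m) ∧
      push Ψ (virF F (e ch') _) = virF F (e ch) _ ∧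
      ∀ n, H.map (toContinuousMap Ψ) (hcls (psiF n)) = hcls (psiF (mkE a b n)) := by
  subst hc
  have hZ := fun x => (rlW_mem_cyc (ch := ch') (F := F) a b (u := u) (x := x)).symm
  have z := v.gz hs
  have := z.act
  refine ⟨rlH a b F hZ, fun y m => ⟨fun ⟨x, p, q⟩ => ?_, fun ⟨x, p, q⟩ =>
    ⟨⟨_, (rl_sol a b hZ _).1 x.2⟩, p ▸ rfl, (rep_rlW a b).2 q⟩⟩, v.push_rl a b hs hZ,
    psiF_rl a b z.orb z.cuts z.base (rl_sol a b hZ)⟩
  obtain ⟨x, hx⟩ := x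
  obtain ⟨x, rfl⟩ := (ch'.rlW Λ a b).surjective x
  exact ⟨⟨x, (rl_sol a b hZ _).2 hx⟩, (rlH a b F hZ).injective p, (rep_rlW a b).1 q⟩

namespace Fam

variable [DecidableEq R] {k D b : ℕ}

theorem Abs.nice (ha : F.Abs) (h : F.Good) (hR : F.Reg K₀) (hB : F.Sm b) : F.Nice 0 where
  toGood := h
  reg := ⟨_, hR⟩
  sm := ⟨_, hB⟩
  pol := ⟨∅, nofun, ha.2.trans (eq_univ_of_forall fun _ _ e => nomatch e).symm⟩
  sh := ⟨0, nofun, 0, 1, nofun, linearIndependent_empty_type, nofun, fun _ a b => (b (ha.1 a)).elim,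
    fun _ _ _ => ⟨analyticAt_const, one_ne_zero⟩, fun _ a b => (b (ha.1 a)).elim,
    fun _ a b => (b (ha.1 a)).elim, fun _ _ _ _ _ =>
      iff_of_true (ha.2.ge (mem_univ _)) fun _ a b => (b (ha.1 a)).elim, fun _ _ => rfl⟩

/-- relabelling of the marked points and of the persistent nodes -/
theorem Nice.exists_rel {δ : J → ℕ} (h : F.Nice δ) (hk : F.Big k) (hD : F.BigD k D) (g : ℤ)
    (d : R → ℤ) (φ : ν ≃ ν') (ψ : κ ≃ κ') (u : ν' → ℕ) :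
    ∃ Ψ : F.Mod κ' k D g d (fun n => u n • δ) ≃ₜ F.Mod κ k D g d fun n => u (φ n) • δ,
      (∀ y m, F.At (Ψ y) (m.re (Ch.mkE φ ψ).toEmbedding) ↔ F.At y m) ∧
      push Ψ (F.vir κ' k D g d _) = F.vir κ k D g d _ ∧
      ∀ n, H.map (toContinuousMap Ψ) (hcls (Ch.psiF n)) = hcls (Ch.psiF (Ch.mkE φ ψ n)) := by
  obtain ⟨_, _, _, _, v⟩ := h.vd' (ν := ν) κ hk
  obtain ⟨_, _, o, w⟩ := v D hD g d fun n => u (φ n)
  exact Ch.exists_rlH φ ψ (F.sch_rl φ ψ k D g d) (e := F.tdeg) (u := fun n => u n • δ) w o.toStd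

variable (κ) in
/-- **relabelling in the absolute theory** -/
theorem exists_rel (h : F.Good) (hR : F.Reg K₀) (hB : F.Sm b) (ha : F.Abs) (hk : F.Big k)
    (hD : F.BigD k D) (g : ℤ) (d : R → ℤ) (φ : ν' ≃ ν) :
    ∃ Φ : F.Mod κ k D g d (0 : ν' → J → ℕ) ≃ₜ F.Mod κ k D g d (0 : ν → J → ℕ),
      (∀ y m, F.At (Φ y) m ↔ F.At y
        (m.re (φ.sumCongr ((Equiv.refl κ).prodCongr (.refl Bool))).toEmbedding)) ∧
      push Φ (F.vir κ k D g d 0) = F.vir κ k D g d 0 ∧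
      ∀ n, H.map (toContinuousMap Φ) (hcls (Ch.psiF (.inl (φ n)))) = hcls (Ch.psiF (.inl n)) := by
  obtain ⟨Ψ, a, b, c⟩ : ∃ Ψ : F.Mod κ k D g d (0 : ν → J → ℕ) ≃ₜ F.Mod κ k D g d (0 : ν' → J → ℕ),
      (∀ y m, F.At (Ψ y) (m.re (Ch.mkE φ (.refl κ)).toEmbedding) ↔ F.At y m) ∧
      push Ψ (F.vir κ k D g d _) = F.vir κ k D g d _ ∧
      ∀ n, H.map (toContinuousMap Ψ) (hcls (Ch.psiF n)) = hcls (Ch.psiF (Ch.mkE φ (.refl κ) n)) :=
    (ha.nice h hR hB).exists_rel hk hD g d φ (.refl κ) 0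
  refine ⟨Ψ.symm, fun y m => by rw [← a, Ψ.apply_symm_apply], by rw [← b, Br.push_symm_push],
    fun n => ?_⟩
  exact (congrArg _ (c (.inl n)).symm).trans ((H.map_map _ _ _).trans
    (H.map_id (fun y => Ψ.apply_symm_apply y) _))

end Fam

end Vale.Agent.P269
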