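import Vale.Agent.P269.Glu.Fnd
import Vale.Agent.P269.Glu.VrA
import Vale.Agent.P269.Map.SQ

set_option linter.unusedSectionVars false
set_option linter.style.haveILetI false

/-!
# Linear isomorphisms of actions
-/

namespace Vale.Agent.P269

open Set Function Topology Filter Module Vale.Agent.P291Z Vale.Agent.P269.Orb Holo Ch

variable {A A' W W' P : Type} [NormedRing A] [NormedAlgebra ℂ A] [NormedAddCommGroup W]
  [NormedSpace ℂ W] [NormedRing A'] [NormedAlgebra ℂ A'] [NormedAddCommGroup W'] [NormedSpace ℂ W']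
  [AddCommGroup P] [Module ℂ P] [TopologicalSpace P]

/-- A linear isomorphism `f` of the ambient spaces, equivariant along the isomorphism `θ`. -/
structure LinI (act' : A' → W' → W') (act : A → W → W) (θ : A' ≃L[ℂ] A) (f : W' ≃L[ℂ] W) :
    Prop where
  one : θ 1 = 1
  mul : ∀ a b, θ (a * b) = θ a * θ b
  eqv : ∀ a x, f (act' a x) = act (θ a) (f x)

namespace LinI

variable {act : A → W → W} {act' : A' → W' → W'} {θ : A' ≃L[ℂ] A} {f : W' ≃L[ℂ] W}
  {Z S O M : Set W} {Z' S' O' : Set W'} {d n r : ℕ} {D : KD A W P} (h : LinI act' act θ f)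
include h

theorem symm : LinI act act' θ.symm f.symm :=
  ⟨θ.symm_apply_eq.2 h.one.symm, fun a b => θ.symm_apply_eq.2 (by
    rw [h.mul, θ.apply_symm_apply, θ.apply_symm_apply]), fun a x => f.symm_apply_eq.2 (by
      rw [h.eqv, θ.apply_symm_apply, f.apply_symm_apply])⟩

/-- the homomorphism -/
noncomputable def hom : A' →* A := ⟨⟨θ, h.one⟩, h.mul⟩

theorem isUnit {a : A'} (ha : IsUnit a) : IsUnit (θ a) := ha.map h.hom

theorem eqM (hm : MapsTo f S' S) : EqM act' act S' S θ f :=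
  ⟨⟨Units.map h.hom, Units.continuous_map θ.continuous, fun _ => rfl⟩, hm,
    f.continuous.continuousOn, fun a _ x _ => h.eqv a x⟩

theorem ivt (hS : Ivt act S) : Ivt act' (f ⁻¹' S) := fun a ha x hx =>
  show f (act' a x) ∈ S from (h.eqv a x).symm ▸ hS _ (h.isUnit ha) _ hx

theorem fre {x : W'} (hx : Fre act (f x)) : Fre act' x := fun a ha e =>
  θ.injective ((hx _ (h.isUnit ha) (by rw [← h.eqv, e])).trans h.one.symm)

theorem prp (hS : Prp act S) : Prp act' (f ⁻¹' S) := fun x hx x' hx' => by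
  obtain ⟨C, hC⟩ := hS _ hx _ hx'
  refine ⟨‖(θ.symm : A →L[ℂ] A')‖ * C,
    (((f.continuous.prodMap f.continuous).tendsto (x, x')).eventually hC).mono fun q a b s e => ?_⟩
  have c := a b (Units.map h.hom s) ((h.eqv s q.1).symm.trans (congrArg f e))
  rw [← θ.symm_apply_apply (s : A')]
  exact ((θ.symm : A →L[ℂ] A').le_opNorm _).trans
    (mul_le_mul_of_nonneg_left c (norm_nonneg _))

/-- the homeomorphism of orbit spaces -/
noncomputable def homeo (e : ∀ x, x ∈ S' ↔ f x ∈ S) : Quo act' S' ≃ₜ Quo act S where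
  toFun := (h.eqM fun x => (e x).1).map
  invFun := (h.symm.eqM fun x hx => (e _).2 ((f.apply_symm_apply x).symm ▸ hx)).map
  left_inv z := Quot.inductionOn z fun x =>
    congrArg (Quo.mk act') (Subtype.ext (f.symm_apply_apply x.1))
  right_inv z := Quot.inductionOn z fun x =>
    congrArg (Quo.mk act) (Subtype.ext (f.apply_symm_apply x.1))
  continuous_toFun := map_continuous _
  continuous_invFun := map_continuous _

theorem homeo_mk (e : ∀ x, x ∈ S' ↔ f x ∈ S) (x : S') :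
    h.homeo e (Quo.mk act' x) = Quo.mk act ⟨f x, (e _).1 x.2⟩ := rfl

theorem coe_homeo (e : ∀ x, x ∈ S' ↔ f x ∈ S) :
    (h.homeo e : C(_, _)) = (h.eqM fun x => (e x).1).map := rfl

theorem isPr (e : ∀ x, x ∈ S' ↔ f x ∈ S) : IsPr (h.homeo e) :=
  .of_isClosedEmbedding (h.homeo e).isClosedEmbedding

variable [FiniteDimensional ℂ A] [FiniteDimensional ℂ W] [FiniteDimensional ℂ A']
  [FiniteDimensional ℂ W']

omit h in
theorem mfd {x : W'} (hx : MfdAt S n (f x)) : MfdAt (f ⁻¹' S) n x := by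
  have := FiniteDimensional.complete ℂ W
  have := FiniteDimensional.complete ℂ W'
  have a := hx.iso (S' := f ⁻¹' S) (F := f.symm) (G := f) (f.symm.analyticAt _) (f.analyticAt _)
    (.of_forall fun s hs => ⟨show f (f.symm s) ∈ S from (f.apply_symm_apply s).symm ▸ hs,
      f.apply_symm_apply s⟩) (.of_forall fun s hs => ⟨hs, f.symm_apply_apply s⟩)
  rwa [f.symm_apply_apply] at a

omit h in
theorem dimLt (hS : DimLt n S) : DimLt n (f ⁻¹' S) := by
  rw [← f.image_symm_eq_preimage]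
  exact hS.image_an fun x _ => f.symm.analyticAt x

theorem str (c : Str act M d) : Str act' (f ⁻¹' M) d :=
  ⟨h.ivt c.inv, fun x => θ.toLinearEquiv.finrank_eq ▸ (mfd ⟨x.2, c.mfd ⟨_, x.2⟩⟩).2, fun x hx => 
    closure_mono (fun y hy => by exact ⟨hy.1, h.fre hy.2⟩)
      ((f.toHomeomorph.preimage_closure _).le (c.free hx))⟩

theorem cyc (c : Cyc act O M d) : Cyc act' (f ⁻¹' O) (f ⁻¹' M) d :=
  ⟨⟨h.str c.toStr, c.lc.preimage f.continuous, preimage_mono c.sub,
    let ⟨U, a, b⟩ := c.opn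
    ⟨f ⁻¹' U, a.preimage f.continuous, b ▸ rfl⟩,
    θ.toLinearEquiv.finrank_eq ▸ dimLt c.small⟩,
    fun _ hx => (f.toHomeomorph.preimage_closure M).le (c.dense hx)⟩

variable [IsAct act univ] [IsAct act' univ]

theorem isAct [IsAct act S] : IsAct act' (f ⁻¹' S) :=
  IsAct.mono inferInstance (subset_univ _) (h.ivt IsAct.mem)

theorem orb [IsAct act S] [IsAct act' (f ⁻¹' S)] (ho : Orb Aˣ (Holo.Sp act S)) :
    Orb A'ˣ (Holo.Sp act' (f ⁻¹' S)) := by
  have := FiniteDimensional.complete ℂ A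
  have := FiniteDimensional.complete ℂ A'
  have := ho.proper
  have : LocallyCompactSpace S := ho.nice.lc
  have : LocallyCompactSpace (f ⁻¹' S) :=
    (f.toHomeomorph.subtype (p := (· ∈ f ⁻¹' S)) (q := (· ∈ S))
      fun _ => Iff.rfl).isClosedEmbedding.locallyCompactSpace
  exact (h.prp prp_of_properSMul).orb

theorem dom (hD : D.Dom act Z S O) (hZ : ∀ x, x ∈ Z' ↔ f x ∈ Z) (hS : ∀ x, x ∈ S' ↔ f x ∈ S) :
    (D.pb θ f).Dom act' Z' S' (f ⁻¹' O) :=
  haveI := hD.isAct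
  haveI := h.isAct (S := O)
  ⟨fun x hx => hD.sub ((hZ x).1 hx),
    let ⟨U, a, b⟩ := hD.opn
    ⟨f ⁻¹' U, a.preimage f.continuous, Set.ext fun x => by
      rw [b]
      exact and_congr_left' (hS x).symm⟩, ‹_›, h.orb hD.orb,
    fun x hx => (hD.zero _ hx).trans (hZ x).symm⟩

theorem push_fnd [IsAct act O] [IsAct act' (f ⁻¹' O)] (ho : Orb Aˣ (Holo.Sp act O))
    (c : Cyc act O M d) :
    push (h.homeo (S' := f ⁻¹' O) (S := O) fun _ => Iff.rfl) (fnd act' (f ⁻¹' O) d) =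
      fnd act O d := by
  refine (Cyc.push_fnd (θ := (θ : A' →L[ℂ] A)) (m := 1)
    (h.eqM (S' := f ⁻¹' O) (S := O) fun _ => id)
    (fun x _ => .of_an (f.analyticAt x)) ho (h.orb ho) c (h.cyc c) (h.isPr fun _ => Iff.rfl) c.free
    fun x hx => ⟨hx.2, fun _ => f.symm, fun _ => ⟨f.symm.analyticAt x,
      h.fre ((f.apply_symm_apply x).symm ▸ hx.2), ?_⟩, fun _ _ _ _ _ => Subsingleton.elim _ _,
      fun z _ b hb e => ⟨0, θ.symm b, h.symm.isUnit hb, ?_⟩⟩).trans ?_
  · exact eventually_nhdsWithin_of_forall fun y hy =>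
      ⟨show f (f.symm y) ∈ M from (f.apply_symm_apply y).symm ▸ hy, f.apply_symm_apply y⟩
  · change _ = f.symm x
    rw [← e, h.symm.eqv, f.symm_apply_apply]
  · rw [Nat.cast_one, one_smul]

variable [IsTopologicalAddGroup P] [ContinuousSMul ℂ P] [T2Space P]

theorem gd (hD : D.Gd act Z O n r) (hZ : ∀ x, x ∈ Z' ↔ f x ∈ Z) :
    (D.pb θ f).Gd act' Z' (f ⁻¹' O) n r :=
  ⟨h.dom hD.dom hZ fun _ => Iff.rfl, hD.ok.pb' (h.eqM fun _ => id)⟩

/-- **virtual classes** -/
theorem push_vr (hD : D.Gd act Z O n r) (hZ : ∀ x, x ∈ Z' ↔ f x ∈ Z) (c : Cyc act O M d) :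
    push (h.homeo hZ) ((D.pb θ f).vr act' Z' (f ⁻¹' O) ((h.gd hD hZ).fu d)) =
      D.vr act Z O (hD.fu d) := by
  haveI := hD.dom.isAct
  haveI := h.isAct (S := O)
  exact (hD.vr_push (h.eqM fun _ => id) (h.gd hD hZ) (h.isPr fun _ => Iff.rfl)
    (fun x => (hZ x).1) _).2.trans (congrArg _ (h.push_fnd hD.dom.orb c))

end LinI

end Vale.Agent.P269
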