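import Vale.Agent.P269.LG.Enum
import Vale.Agent.P269.Deg.Cur

/-! Functionals with prescribed values on monomials. -/

namespace Vale.Agent.P269.SpA

open Fock LG

variable {K V V' M α β γ : Type} [CommRing K] [AddCommGroup V] [Module K V] [AddCommGroup V']
  [Module K V'] [AddCommGroup M] [Module K M] {p : Par K V} {p' : Par K V'}

/-- Multilinear supersymmetric functions with values in a module. -/
structure SM (p : Par K V) (W : List (α × V) → M) : Prop where
  add : ∀ L₁ n v w L₂, W (L₁ ++ (n, v + w) :: L₂) = W (L₁ ++ (n, v) :: L₂) + W (L₁ ++ (n, w) :: L₂)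
  smul : ∀ L₁ n (c : K) v L₂, W (L₁ ++ (n, c • v) :: L₂) = c • W (L₁ ++ (n, v) :: L₂)
  ev : ∀ L₁ x y L₂, p.σ y.2 = y.2 → W (L₁ ++ x :: y :: L₂) = W (L₁ ++ y :: x :: L₂)
  od : ∀ L₁ x y L₂, p.σ x.2 = -x.2 → p.σ y.2 = -y.2 →
    W (L₁ ++ x :: y :: L₂) = -W (L₁ ++ y :: x :: L₂)

/-- The monomial of a list of labelled vectors. -/
noncomputable def mn (q : Par K (α →₀ V)) (l : List (α × V)) : S q :=
  (l.map fun x => ι q (Finsupp.single x.1 x.2)).prod

theorem mn_cons (q : Par K (α →₀ V)) (x : α × V) (l : List (α × V)) :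
    mn q (x :: l) = ι q (Finsupp.single x.1 x.2) * mn q l := by simp [mn]

theorem ext_mn {q : Par K (α →₀ V)} {Z Z' : S q →ₗ[K] M} (h : ∀ l, Z (mn q l) = Z' (mn q l)) :
    Z = Z' := by
  have : ∀ x l, Z (mn q l * x) = Z' (mn q l * x) := fun x => by
    induction x using Fock.induction with
    | h1 => simpa using h
    | hι v x hx =>
      intro l
      induction v using Finsupp.induction_linear with
      | zero => simp
      | add a b ha hb => simp only [map_add, add_mul, mul_add, ha, hb]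
      | single n a => simpa [mn, mul_assoc] using hx (l ++ [(n, a)])
    | hadd x y hx hy => intro l; simp only [mul_add, map_add, hx, hy]
    | hsmul c x hx => intro l; simp only [mul_smul_comm, map_smul, hx]
  exact LinearMap.ext fun x => by simpa [mn] using this x []

theorem SM.cons {W : List (α × V) → M} (h : SM p W) (x : α × V) : SM p fun L => W (x :: L) :=
  ⟨fun L => h.add (x :: L), fun L => h.smul (x :: L), fun L => h.ev (x :: L),
    fun L => h.od (x :: L)⟩

theorem sc_lsumB {A : Type} [Ring A] [Algebra K A] (d : α → V →ₗ[K] A) (q : Par K (α →₀ V))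
    (hq : ∀ v n, q.σ v n = p.σ (v n))
    (hev : ∀ n n' v w, p.σ w = w → d n' w * d n v = d n v * d n' w)
    (hod : ∀ n n' v w, p.σ v = -v → p.σ w = -w → d n v * d n' w = -(d n' w * d n v)) :
    SC q (Finsupp.lsum K d) := by
  constructor
  · intro v w hw
    simp only [Finsupp.coe_lsum, Finsupp.sum, Finset.sum_mul_sum]
    rw [Finset.sum_comm]
    exact Finset.sum_congr rfl fun n _ => Finset.sum_congr rfl fun n' _ =>
      hev _ _ _ _ (by rw [← hq, hw])
  · intro v w hv hw
    simp only [Finsupp.coe_lsum, Finsupp.sum, Finset.sum_mul_sum, ← Finset.sum_neg_distrib]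
    rw [Finset.sum_comm]
    exact Finset.sum_congr rfl fun n _ => Finset.sum_congr rfl fun n' _ =>
      hod _ _ _ _ (by rw [← hq, hv]; rfl) (by rw [← hq, hw]; rfl)

theorem SM.exists_fs {w : List (α × V) → M} (h : SM p w) (q : Par K (α →₀ V))
    (hq : ∀ v n, q.σ v n = p.σ (v n)) : ∃ Z : S q →ₗ[K] M, ∀ l, Z (mn q l) = w l := by
  let G : Submodule K (List (α × V) → M) :=
    { carrier := {g | SM p g}
      add_mem' := fun {a b} ha hb =>
        ⟨fun _ _ _ _ _ => by simp only [Pi.add_apply, ha.add, hb.add]; abel,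
          fun _ _ _ _ _ => by simp only [Pi.add_apply, ha.smul, hb.smul, smul_add],
          fun L x y L' hy => by simp only [Pi.add_apply, ha.ev L x y L' hy, hb.ev L x y L' hy],
          fun L x y L' hx hy => by
            simp only [Pi.add_apply, ha.od L x y L' hx hy, hb.od L x y L' hx hy]; abel⟩
      zero_mem' := ⟨fun _ _ _ _ _ => by simp, fun _ _ _ _ _ => by simp, fun _ _ _ _ _ => rfl,
        fun _ _ _ _ _ _ => by simp⟩
      smul_mem' := fun c a ha =>
        ⟨fun _ _ _ _ _ => by simp only [Pi.smul_apply, ha.add, smul_add],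
          fun _ _ _ _ _ => by simp only [Pi.smul_apply, ha.smul]; exact smul_comm _ _ _,
          fun L x y L' hy => by simp only [Pi.smul_apply, ha.ev L x y L' hy],
          fun L x y L' hx hy => by simp only [Pi.smul_apply, ha.od L x y L' hx hy, smul_neg]⟩ }
  let d : α → V →ₗ[K] Module.End K G := fun n =>
    { toFun := fun v =>
        { toFun := fun g => ⟨fun L => g.1 ((n, v) :: L), SM.cons g.2 _⟩
          map_add' := fun _ _ => rfl
          map_smul' := fun _ _ => rfl }
      map_add' := fun v w => LinearMap.ext fun g => Subtype.ext (funext fun L =>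
        SM.add g.2 [] n v w L)
      map_smul' := fun c v => LinearMap.ext fun g => Subtype.ext (funext fun L =>
        SM.smul g.2 [] n c v L) }
  have hd := sc_lsumB (A := Module.End K G) d q hq
    (fun n n' v w hw => LinearMap.ext fun g => Subtype.ext (funext fun L =>
      SM.ev g.2 [] (n, v) (n', w) L hw))
    fun n n' v w hv hw => LinearMap.ext fun g => Subtype.ext (funext fun L =>
      SM.od g.2 [] (n', w) (n, v) L hw hv)
  obtain ⟨Φ, h1, h2⟩ := Deg.exists_unfold _ hd (LinearMap.proj [] ∘ₗ G.subtype)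
  have key : ∀ (L : List (α × V)) (g : G), Φ g (mn q L) = g.1 L := by
    intro L
    induction L with
    | nil => exact fun g => h1 g
    | cons x L ih => exact fun g => by rw [mn_cons, h2, ih, Finsupp.lsum_single]; rfl
  exact ⟨Φ ⟨w, h⟩, fun L => key L _⟩

theorem sm_of_sw {w : List (α × V) → K} (h : SW p w) : SM p w := ⟨h.add, h.smul, h.ev, h.od⟩

theorem SM.of_ext {N : Type} [AddCommGroup N] [Module K N] {w : List (α × V) → N →ₗ[K] M}
    (m : γ → N) (hm : ∀ Z Z' : N →ₗ[K] M, (∀ l, Z (m l) = Z' (m l)) → Z = Z')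
    (h : ∀ c, SM p fun l => w l (m c)) : SM p w :=
  ⟨fun _ _ _ _ _ => hm _ _ fun c => (h c).add .., fun _ _ _ _ _ => hm _ _ fun c => (h c).smul ..,
    fun _ _ _ _ hy => hm _ _ fun c => (h c).ev _ _ _ _ hy,
    fun _ _ _ _ hx hy => hm _ _ fun c => (h c).od _ _ _ _ hx hy⟩

theorem comap {w : List (α × V') → K} (h : SW p' w) {i : V →ₗ[K] V'} (hi : IsEv p p' i) :
    SW p fun l => w (l.map (Prod.map id i)) := by
  constructor
  · intro L₁ n v u L₂
    simpa only [List.map_append, List.map_cons, Prod.map_apply, map_add] using h.add _ _ _ _ _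
  · intro L₁ n c v L₂
    simpa only [List.map_append, List.map_cons, Prod.map_apply, map_smul] using h.smul _ _ _ _ _
  · intro L₁ x y L₂ hy
    simpa only [List.map_append, List.map_cons] using h.ev _ _ _ _ ((hi _).trans (congrArg i hy))
  · intro L₁ x y L₂ hx hy
    simpa only [List.map_append, List.map_cons] using h.od _ (Prod.map id i x) (Prod.map id i y) _
      ((hi _).trans ((congrArg i hx).trans (map_neg i _)))
      ((hi _).trans ((congrArg i hy).trans (map_neg i _)))

/-- Symmetric functions of lists of labels. -/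
theorem exists_sym {w : List α → M} (h : ∀ l l', l.Perm l' → w l = w l') :
    ∃ Z : S (Par.triv K (α →₀ K)) →ₗ[K] M,
      ∀ l, Z (l.map fun x => ι _ (Finsupp.single x 1)).prod = w l := by
  have hs : SM (Par.triv K K) fun l : List (α × K) =>
      (l.map Prod.snd).prod • w (l.map Prod.fst) := by
    have e : ∀ (L₁ : List (α × K)) x y L₂, ((L₁ ++ x :: y :: L₂).map Prod.snd).prod •
        w ((L₁ ++ x :: y :: L₂).map Prod.fst) = ((L₁ ++ y :: x :: L₂).map Prod.snd).prod •
        w ((L₁ ++ y :: x :: L₂).map Prod.fst) := fun L₁ x y L₂ => by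
      have := (List.Perm.swap y x L₂).append_left L₁
      rw [(this.map _).prod_eq, h _ _ (this.map _)]
    refine ⟨fun _ _ _ _ _ => by simp [add_mul, mul_add, add_smul],
      fun _ _ _ _ _ => by simp [smul_smul, mul_assoc, mul_left_comm], fun L x y L' _ => e L x y L',
      fun L x y L' hx hy => ?_⟩
    have h2 : x.2 = -x.2 := hx
    rw [e, ← neg_smul]
    congr 1
    simp only [List.map_append, List.map_cons, List.prod_append, List.prod_cons]
    linear_combination (List.map Prod.snd L).prod * y.2 * (List.map Prod.snd L').prod * h2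
  obtain ⟨Z, hZ⟩ := hs.exists_fs (Par.triv K _) fun _ _ => rfl
  exact ⟨Z, fun l => by simpa [mn, Function.comp_def] using hZ (l.map fun x => (x, 1))⟩

theorem ext_sym {Z Z' : S (Par.triv K (α →₀ K)) →ₗ[K] M}
    (h : ∀ l : List α, Z (l.map fun x => ι _ (Finsupp.single x 1)).prod =
      Z' (l.map fun x => ι _ (Finsupp.single x 1)).prod) : Z = Z' := ext_mn fun l => by
  have : mn (Par.triv K _) l = (l.map Prod.snd).prod •
      ((l.map Prod.fst).map fun x => ι _ (Finsupp.single x (1 : K))).prod := by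
    induction l with
    | nil => simp [mn]
    | cons x l ih =>
      rw [mn_cons, ih, ← Finsupp.smul_single_one, map_smul]
      simp [smul_smul, mul_comm]
  rw [this, map_smul, map_smul, h]

variable [Algebra ℚ K]

theorem exists_tens {B : Type} [Ring B] [Algebra K B] (s : Deg.SPar K B)
    (T : S p →ₗ[K] S p' →ₗ[K] B) : ∃ Z : S (p.prod p') →ₗ[K] B, ∀ x y,
      Z (Fock.map _ (Deg.isEv_inl p p') x * Fock.map _ (Deg.isEv_inr p p') y) = T x y := by
  obtain ⟨F, hF⟩ := Deg.Fn.cur_surjective (Deg.Fn.of (Deg.Fn.spar p' s) T)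
  exact ⟨F.ap, fun x y => congrArg (fun G => (Deg.Fn.ap G x).ap y) hF⟩

/-- **Functionals from correlators** with three kinds of insertions. -/
theorem exists_three {w : List (α × V) → List β → List (γ × V') → K}
    (h1 : ∀ l₂ l₃, SW p fun l₁ => w l₁ l₂ l₃)
    (h2 : ∀ l₁ l₃ l₂ l₂', l₂.Perm l₂' → w l₁ l₂ l₃ = w l₁ l₂' l₃)
    (h3 : ∀ l₁ l₂, SW p' fun l₃ => w l₁ l₂ l₃) :
    ∃ T : S ((p.fs α).prod (Par.triv K (β →₀ K))) →ₗ[K] S (p'.fs γ) →ₗ[K] K, ∀ l₁ l₂ l₃,
      T ((l₁.map fun x => ι _ (Finsupp.single x.1 x.2, 0)).prod *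
        (l₂.map fun x => ι _ (0, Finsupp.single x 1)).prod) (mn _ l₃) = w l₁ l₂ l₃ := by
  choose Z3 hZ3 using fun l₁ l₂ => (sm_of_sw (h3 l₁ l₂)).exists_fs (p'.fs γ) fun _ _ => rfl
  choose Z2 hZ2 using fun l₁ => exists_sym (K := K) (w := Z3 l₁) fun l l' e =>
    ext_mn fun l₃ => by rw [hZ3, hZ3, h2 _ _ _ _ e]
  obtain ⟨Z1, hZ1⟩ := (SM.of_ext (p := p) (w := Z2) _ (fun _ _ => ext_sym) fun l₂ =>
    SM.of_ext _ (fun _ _ => ext_mn) fun l₃ => by
      simpa only [hZ2, hZ3] using sm_of_sw (h1 l₂ l₃)).exists_fs (p.fs α) fun _ _ => rfl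
  obtain ⟨T, hT⟩ := exists_tens (Deg.Fn.spar (p'.fs γ) (Deg.SPar.triv K K)) Z1
  refine ⟨T, fun l₁ l₂ l₃ => ?_⟩
  have := (hT (mn _ l₁) (l₂.map fun x => ι _ (Finsupp.single x 1)).prod).trans
    ((LinearMap.congr_fun (hZ1 l₁) _).trans (hZ2 _ _))
  rw [mn, map_list_prod, map_list_prod, List.map_map, List.map_map] at this
  simp only [Function.comp_def, map_ι, LinearMap.inl_apply, LinearMap.inr_apply] at this
  exact (LinearMap.congr_fun this _).trans (hZ3 _ _ _)

end Vale.Agent.P269.SpA
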