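import Vale.Agent.P269.Bas.Kv
import Vale.Agent.P269.Bas.Prd
import Vale.Agent.P269.Bas.Cmp
import Vale.Agent.P269.Map.Eq0
import Vale.Agent.P269.Prj.Tgt

set_option linter.unusedSectionVars false
set_option linter.style.haveILetI false

/-!
# Trivial families in a chart
-/

namespace Vale.Agent.P269

open P291Z Set Function Topology Filter Module MvPolynomial Vir Base

variable {S Λ Λ₀ R J K K' ι ν κ : Type} [Fintype S] [Fintype Λ] [Fintype Λ₀] [Fintype R] [Fintype J]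
  [Fintype K] [Fintype K'] [Fintype ι] [DecidableEq ι] [Fintype ν] [Fintype κ]
  {F : Fam S Λ R J K} {F₀ : Fam Empty Λ₀ R J K'} {l₀ : Λ₀ → ℂ} {K₀ : Set K'}

theorem Wt.actL_empty (W : Wt Empty Λ₀ R J) (t : Empty → ℂ) (l : Λ₀ → ℂ) : W.actL t l = l :=
  Subsingleton.elim 1 t ▸ W.actL_one l

namespace Fam

variable (F F₀ l₀) in
/-- The family `F` with the equations of `F₀`. -/
@[reducible] noncomputable def tv : Fam S Λ R J K' :=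
  F.eqs F₀.χ 0 (fun k => map C (kv F.zer ((F₀.fib l₀).F k))) {z | (l₀, zc F.zer z.2) ∈ F₀.U}

theorem kl_tv (l : Λ → ℂ) : (F.tv F₀ l₀).Kl F₀ F.zer l l₀ := fun k α => by
  change eval l (coeff α (map C (kv _ (map (eval l₀) _)))) = _
  rw [coeff_map, eval_C, coeff_kv, coeff_map]

theorem tv_supp {k α} (a : α ∈ ((F.tv F₀ l₀).G k).support) :
    α ∈ (F₀.G k).support ∧ ∀ j ∈ F.zer, α j = 0 :=
  (mem_support_kv.1 (support_map_subset _ _ a)).imp_left (support_map_subset _ _ ·)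

theorem eqn_tv {z} (hz : z ∈ F.bs) (k : K') : (F.tv F₀ l₀).eqn z k = F₀.eqn (l₀, z.2) k :=
  ((kl_tv z.1).eqn z.2 k).trans (by rw [zc_eq hz.2.2])

namespace Triv

variable (h : F.Triv F₀ l₀) {z : (Λ → ℂ) × (J → ℂ)}
include h

theorem mem_bs : z ∈ F.bs ↔ z.1 ∈ F.B ∧ (l₀, z.2) ∈ F₀.bs :=
  ⟨fun a => ⟨a.1, h.B.ge rfl, (h.E _ a.1 _ a.2.2).1 a.2.1, fun j b => a.2.2 j (h.zer.le b)⟩,
    fun a => have b := fun j b => a.2.2.2 j (h.zer.ge b)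
      ⟨a.1, (h.E _ a.1 _ b).2 a.2.2.1, b⟩⟩

theorem mem_cone : z ∈ F.cone ↔ z.1 ∈ F.B ∧ (l₀, z.2) ∈ F₀.cone :=
  ⟨fun a => ⟨a.1, (h.cone _ a.1 _).1 a⟩, fun a => (h.cone _ a.1 _).2 a.2⟩

theorem cone_tv : (F.tv F₀ l₀).cone = F.cone := Set.ext fun z => by
  rw [h.mem_cone, Fam.mem_cone, Fam.mem_cone]
  refine ⟨fun ⟨a, b, c⟩ => ⟨a.1, (h.mem_bs.1 a).2, (congrArg (fun y => (l₀, y) ∈ F₀.U)
    (zc_eq a.2.2)).mp b, fun k => (eqn_tv a k).symm.trans (c k)⟩, fun ⟨a, b, c, d⟩ => ?_⟩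
  have e := h.mem_bs.2 ⟨a, b⟩
  exact ⟨e, (congrArg (fun y => (l₀, y) ∈ F₀.U) (zc_eq e.2.2)).mpr c,
    fun k => (eqn_tv e k).trans (d k)⟩

theorem actT_eq (t : (S → ℂ) × (R → ℂ)) (hz : ∀ j ∈ F.zer, z.2 j = 0) :
    (l₀, (F.actT t z).2) = F₀.actT (1, t.2) (l₀, z.2) :=
  Prod.ext (F₀.actL_empty _ _).symm (funext fun j => by
    by_cases a : j ∈ F.zer
    · simp [Wt.actT, hz j a]
    · simp [Wt.actT, h.wtz j a, h.w])

theorem inv_tv (hF : F.Inv) (h₀ : F₀.Inv) : (F.tv F₀ l₀).Inv := by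
  refine ⟨fun k α a i => h.w ▸ h₀.hom k α (tv_supp a).1 i, fun k α a β b i => ?_,
    h₀.openU.preimage (continuous_const.prodMk ((zc F.zer).continuous_of_finiteDimensional.comp
      continuous_snd)), fun t a z b => ?_, hF.closedE, hF.invE, hF.baseE, hF.zer_base, hF.lcB,
    hF.invB⟩
  · have c : β = 0 := by
      rw [coeff_map] at b
      exact Finset.mem_singleton.1 (support_monomial_subset b)
    refine (congrArg₂ (· + ·) (Finset.sum_eq_zero fun j _ => ?_) (by simp [c])).trans (add_zero 0)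
    by_cases f : j ∈ F.zer
    · simp [(tv_supp a).2 j f]
    · simp [h.wtz j f]
  · have c := h₀.invU (1, t.2) (isUnit_T.2 ⟨fun _ => one_ne_zero, (isUnit_T.1 a).2⟩) _ b
    rw [← h.actT_eq (z := (z.1, zc F.zer z.2)) t fun _ => zc_mem _] at c
    refine (congrArg (fun y => (l₀, y) ∈ F₀.U) (funext fun j => ?_)).mp c
    by_cases f : j ∈ F.zer
    · simp [Wt.actT, zc_mem _ f]
    · simp [Wt.actT, zc_not _ f]

theorem zc_mov (hF : F.Inv) {η : J → ℂ} (hη : ∀ j ∉ F.mov, η j = 0) : zc F.zer η = η :=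
  zc_eq fun j a => hη j (disjoint_left.1 hF.zer_base a)

theorem reg_tv (hF : F.Inv) (hR : F₀.Reg K₀) : (F.tv F₀ l₀).Reg K₀ := by
  refine ⟨fun z hz c => ?_, fun z hz => ?_⟩
  · obtain ⟨η, a, b⟩ := hR.ind _ (h.mem_cone.1 (h.cone_tv.le hz)).2 c
    have f := fun j (d : j ∉ F.mov) => a j fun e => d (h.mov.le e)
    refine ⟨η, f, fun k d => ((kl_tv z.1).jac z.2 η k).trans ?_⟩
    rw [h.zc_mov hF f, zc_eq ((Fam.mem_cone _).1 hz).1.2.2, b k d]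
  · filter_upwards [(continuous_const.prodMk continuous_snd).continuousAt.eventually
      (hR.cut _ (h.mem_cone.1 (h.cone_tv.le hz)).2)] with y a b c k
    exact (eqn_tv b k).trans (a (h.mem_bs.1 b).2 (fun k d => (eqn_tv b k).symm.trans (c k d)) k)

end Triv

end Fam

namespace Ch

variable {ch : Ch ι J} {e : K → ι → ℕ} {e₀ : K' → ι → ℕ} {K₁ : Set K} {ℓ : R → ι → ℤ}
  {x : ch.WF ν κ Λ} {u : ν → J → ℕ} {z : ch.Pt} {w : ch.P K'}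
  {Z S₀ M O : Set (ch.WF ν κ Λ)} {Z' S₀' M' O' : Set (ch.WF ν κ Λ₀)} {n d d' : ℕ}

variable (ch ν κ S) in
/-- Splitting off the extra torus. -/
noncomputable def eT : ch.AF ν κ S ≃L[ℂ] (S → ℂ) × ch.AF ν κ Empty :=
  LinearEquiv.toContinuousLinearEquiv
    { toFun := fun s => (s.1, 1, s.2)
      invFun := fun s => (s.1, s.2.2)
      map_add' := fun _ _ => Prod.ext rfl (Prod.ext (Subsingleton.elim _ _) rfl)
      map_smul' := fun _ _ => Prod.ext rfl (Prod.ext (Subsingleton.elim _ _) rfl)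
      left_inv := fun _ => rfl
      right_inv := fun _ => Prod.ext rfl (Prod.ext (Subsingleton.elim _ _) rfl) }

variable (l₀) in
/-- Changing the parameter. -/
def qT (x : ch.WF ν κ Λ) : ch.WF ν κ Λ₀ := (l₀, x.2)

theorem continuous_qT : Continuous (qT l₀ : ch.WF ν κ Λ → _) := continuous_const.prodMk continuous_snd

variable (F F₀ l₀) in
/-- `Z` is the product of the parameter set with `Z'`. -/
abbrev PrT (Z : Set (ch.WF ν κ Λ)) (Z' : Set (ch.WF ν κ Λ₀)) : Prop :=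
  Prd (actF F.toWt) (actF F₀.toWt) F.actL (ch.eT S ν κ) (ContinuousLinearMap.fst ℂ _ _) (qT l₀)
    (fun v => qT v) F.B Z Z'

theorem evZ_BT (hF : F.Inv) (hw : w ∈ obsM (F.tv F₀ l₀) e₀ x) (hz : z ∈ gr x.2) :
    evZ z (BT F.zer id w) = evZ z w := by
  obtain ⟨Y, a, b⟩ := PD.mem_Im.1 ((mem_obsM.1 hw).2 z hz)
  refine Prod.ext (funext fun j => ?_) rfl
  by_cases c : j ∈ F.zer
  · refine (congrFun (if_pos c) z).trans (Eq.trans ?_ (congrFun (congrArg Prod.fst b) j))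
    rw [PD.dEq_fst, a j (disjoint_left.1 hF.zer_base c)]
    exact (funext kos_zero).symm
  · exact congrFun (if_neg c) z

theorem BT_pol (hw : w ∈ ch.polF (F.tv F₀ l₀) e₀) : BT F.zer id w ∈ ch.polF F₀ e₀ :=
  mem_polS.2 ⟨fun j => by
    by_cases a : j ∈ F.zer
    · exact mem_of_eq_of_mem (if_pos a) (zero_mem _)
    · exact mem_of_eq_of_mem (if_neg a) ((mem_polS.1 hw).1 j), fun k => Submodule.span_mono (by
      rintro _ ⟨β, a, b⟩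
      exact ⟨β, (Fam.tv_supp a).1, b⟩) ((mem_polS.1 hw).2 k)⟩

theorem inj_tv (hF : F.Inv) : (ch.kd ν κ (F.tv F₀ l₀) e₀).Inj (ch.kd ν κ F₀ e₀) (qT l₀) Z
    (BT F.zer id) := fun _ _ _ a b =>
  mem_vanM.2 ⟨a.1, fun z hz => (evZ_BT hF a hz).symm.trans ((mem_vanM.1 b).2 z hz)⟩

variable (h : F.Triv F₀ l₀)
include h

theorem prT (hZ : ∀ x, x ∈ Z ↔ x.1 ∈ F.B ∧ qT l₀ x ∈ Z') (hA : Z' ⊆ ch.adm ν κ F₀) :
    PrT F F₀ l₀ Z Z' := by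
  refine ⟨Prod.ext rfl (Prod.ext (Subsingleton.elim _ _) rfl),
    fun _ _ => Prod.ext rfl (Prod.ext (Subsingleton.elim _ _) rfl),
    fun _ => analyticAt_const.prod analyticAt_snd,
    fun _ => analyticAt_fst.prod (analyticAt_snd.comp analyticAt_snd), hZ, fun _ _ => rfl,
    fun _ _ a => Prod.ext (h.B.le (hA a).1.1).symm rfl, fun _ => rfl, fun _ _ _ => rfl,
    fun s _ x a => Prod.ext (F₀.actL_empty _ _).symm (congrArg (act (dup s.2))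
      (W.ext (fun _ => rfl) (fun _ => rfl) rfl fun j => ?_))⟩
  change (∏ i, s.1 i ^ F.wt j i) • x.2.X j = (∏ i : Empty, _) • x.2.X j
  by_cases b : j ∈ F.zer
  · rw [show x.2.X j = 0 from (hA ((hZ x).1 a).2).2.2.2.1 j (h.zer.ge b)]
    exact ContinuousLinearMap.ext fun _ => by simp
  · simp [h.wtz j b]

theorem tv_baseF : x ∈ ch.baseF ν κ F.B ↔ x.1 ∈ F.B ∧ qT l₀ x ∈ ch.baseF ν κ F₀.B :=
  ⟨fun a => ⟨a.1, h.B.ge rfl, a.2⟩, fun a => ⟨a.1, a.2.2⟩⟩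

theorem tv_adm : x ∈ ch.adm ν κ F ↔ x.1 ∈ F.B ∧ qT l₀ x ∈ ch.adm ν κ F₀ :=
  ⟨fun ⟨a, b, c, d, f⟩ => ⟨a.1, ((tv_baseF h).1 a).2, fun j g => b j fun k => g (h.mov.ge k),
    fun y hy => (h.E _ a.1 _ fun j g => fld_of_zero hy (d j g)).1 (c y hy),
    fun j g => d j (h.zer.le g), fun j g => f j fun k => g (h.mov.ge k)⟩,
    fun ⟨a, a', b, c, d, f⟩ => ⟨(tv_baseF h).2 ⟨a, a'⟩, fun j g => b j fun k => g (h.mov.le k),
    fun y hy => (h.E _ a _ fun j g => fld_of_zero hy (d j (h.zer.ge g))).2 (c y hy),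
    fun j g => d j (h.zer.ge g), fun j g => f j fun k => g (h.mov.le k)⟩⟩

theorem tv_main : x ∈ ch.main κ F u ↔ x.1 ∈ F.B ∧ qT l₀ x ∈ ch.main κ F₀ u :=
  ⟨fun a => ⟨a.1.1.1, ((tv_adm h).1 a.1).2, fun j b c =>
    a.2 j (fun k => b (h.mov.ge k)) fun k => c (h.zer.ge k)⟩, fun a => ⟨(tv_adm h).2 ⟨a.1, a.2.1⟩,
    fun j b c => a.2.2 j (fun k => b (h.mov.le k)) fun k => c (h.zer.le k)⟩⟩

theorem tv_solF : x ∈ ch.solF ν κ F ↔ x.1 ∈ F.B ∧ qT l₀ x ∈ ch.solF ν κ F₀ := by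
  rw [mem_solF, mem_solF, tv_baseF h, and_assoc]
  exact and_congr_right fun a => and_congr_right' (forall₂_congr fun _ _ =>
    and_congr_right' (h.cone _ a _))

theorem tv_cyc : x ∈ ch.cyc κ F u ↔ x.1 ∈ F.B ∧ qT l₀ x ∈ ch.cyc κ F₀ u :=
  ⟨fun a => ⟨a.2.1, map_mem_closure continuous_qT a.1 fun _ b => ((tv_main h).1 b).2,
    ((tv_baseF h).1 a.2).2⟩, fun a => ⟨map_mem_closure (f := qT x.1) (x := qT l₀ x) continuous_qT
      a.2.1 fun y b => (tv_main h).2 ⟨a.1, mem_of_eq_of_mem (y := y)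
        (Prod.ext (h.B.le b.1.1.1).symm rfl) b⟩,
    (tv_baseF h).2 ⟨a.1, a.2.2⟩⟩⟩

theorem tv_inter (hS : ∀ x, x ∈ S₀ ↔ x.1 ∈ F.B ∧ qT l₀ x ∈ S₀') :
    x ∈ ch.solF ν κ F ∩ S₀ ↔ x.1 ∈ F.B ∧ qT l₀ x ∈ ch.solF ν κ F₀ ∩ S₀' :=
  (and_congr (tv_solF h) (hS x)).trans and_and_left.symm

theorem std_tv (hs : ch.Std F e K₁ ℓ) (hs₀ : ch.Std F₀ e₀ K₀ ℓ) : ch.Std (F.tv F₀ l₀) e₀ K₀ ℓ :=
  ⟨h.inv_tv hs.inv hs₀.inv, h.reg_tv hs.inv hs₀.reg, ⟨hs.fits.wt, fun k α a =>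
    hs₀.fits.le k α (Fam.tv_supp a).1, hs₀.fits.ne⟩, hs.cuts, hs.wt⟩

theorem rk_tv : ch.rk (F.tv F₀ l₀) ℓ K₀ = ch.rk F₀ ℓ K₀ := by
  rw [rk, rk, h.mov]
  rfl

theorem lin_tv (hF : F.Inv) (hO : ∀ x ∈ O, ∀ j ∈ F.zer, x.2.X j = 0) :
    (ch.kd ν κ (F.tv F₀ l₀) e₀).Lin (ch.kd ν κ F₀ e₀) (fun s => (ch.eT S ν κ s).2) (qT l₀) O
      (BT F.zer id) := by
  have a : ∀ x ∈ O, ∀ z ζ, zc F.zer (fun j => yv x.2 z j (pwT ζ j)) = _ := fun x hx z ζ =>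
    zc_eq fun j b => by simp [yv, hO x hx j b]
  refine ⟨fun _ => BT_pol, fun s _ w _ => P_ext (fun j z m => ?_) fun k z ζ => ?_,
    fun x _ w hw => mem_vanM.2 ⟨BT_pol hw.1, fun z hz => (evZ_BT hF (vanM_le_obsM hw) hz).trans
      ((mem_vanM.1 hw).2 z hz)⟩, fun x hx => mem_of_eq_of_mem (sub_eq_zero.2 (P_ext
        (fun j z m => ?_) fun k z ζ => ?_)) (zero_mem _),
    fun x hx _ w hw => mem_obsM.2 ⟨BT_pol hw.1, fun z hz => ?_⟩⟩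
  · change (BT F.zer id (ρF (F.tv F₀ l₀) s w)).1 j z m =
      (∏ i : Empty, _) * (BT F.zer id w).1 j (zz s z) _
    by_cases b : j ∈ F.zer
    · simp [BT, b]
    · simp only [BT, LinearMap.coe_mk, AddHom.coe_mk, if_neg b, ρF_fst, h.wtz j b]
      exact congrArg₂ (· * ·) (by simp) rfl
  · exact congrArg₂ (· * ·) (by simp : ∏ i, s.1 i ^ (0 : ℤ) = ∏ i : Empty, _) rfl
  · change (BT F.zer id (sctF (F.tv F₀ l₀) e₀ x)).1 j z m = kos (tvZ z.1 j) (yv x.2 z j) m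
    by_cases b : j ∈ F.zer
    · simp [BT, b, yv, hO x hx j b]
    · exact congrFun (congrFun (if_neg b) z) m
  · exact (sctF_snd x k z ζ).trans ((((Fam.kl_tv x.1).hp e₀ k ζ z.1 _).trans (congrArg
      (MvPolynomial.eval · _) (a x hx z ζ))).trans (sctF_snd (qT l₀ x) k z ζ).symm)
  · obtain ⟨Y, b, c⟩ := PD.mem_Im.1 ((mem_obsM.1 hw).2 z hz)
    rw [evZ_BT hF hw hz, ← c]
    refine PD.mem_Im.2 ⟨Y, fun j f => b j fun k => f (h.mov.ge k), Prod.ext rfl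
      (funext₂ fun k ζ => ?_)⟩
    have f := (Fam.kl_tv (F := F) (F₀ := F₀) (l₀ := l₀) x.1).dhp e₀ k ζ z.1
      (fun j => yv x.2 z j (pwT ζ j)) fun j => Y j (pwT ζ j)
    rw [a x hx, h.zc_mov hF fun j g => by simp [b j g]] at f
    exact f.symm

/-- **the virtual class of a trivial family** -/
theorem virF_tv [Mono.FP F.actL F.B] (hB : Tq.Dim F.actL F.B n) (hs : ch.Std F e K₁ ℓ)
    (hs₀ : ch.Std F₀ e₀ K₀ ℓ) (hS : ∀ x, x ∈ S₀ ↔ x.1 ∈ F.B ∧ qT l₀ x ∈ S₀')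
    (hM : ∀ x, x ∈ M ↔ x.1 ∈ F.B ∧ qT l₀ x ∈ M') (v : Vd F e S₀ O (O ∩ M) d)
    (v' : Vd F₀ e₀ S₀' O' (O' ∩ M') d')
    (b : PrT F F₀ l₀ (ch.solF ν κ F ∩ S₀) (ch.solF ν κ F₀ ∩ S₀')) :
    virF F e S₀ = cross b.eqh.toEqv.qm b.eqM.map (Tq.fnd F.actL F.B) (virF F₀ e₀ S₀') := by
  have p := (prT h hS v'.adm).mono v'.dom.subset
  haveI := v'.dom.isAct
  haveI := p.isAct
  haveI := nice_of_orb (Tq.orb F.actL F.B)
  have s := std_tv h hs hs₀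
  have hc := h.cone_tv
  have hA : S₀ ∩ qT l₀ ⁻¹' O' ⊆ ch.adm ν κ F := inter_subset_left.trans v.adm
  have L := lin_tv (e₀ := e₀) h hs.inv fun x hx => (hA hx).2.2.2.1
  have z : ∀ x ∈ S₀ ∩ qT l₀ ⁻¹' O', qT l₀ x ∈ ch.solF ν κ F₀ ∩ S₀' → x ∈ ch.solF ν κ F ∩ S₀ :=
    fun x hx a => (b.mem x).2 ⟨((hS x).1 hx.1).1, a⟩
  obtain ⟨U, hU, eU⟩ := v'.dom.opn
  obtain ⟨V, hV, eV⟩ := v.dom.opn
  have e₁ : S₀ ∩ qT l₀ ⁻¹' O' = S₀ ∩ qT l₀ ⁻¹' U := Set.ext fun x => and_congr_right fun a =>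
    ⟨fun c => (eU.le c).2, fun c => eU.ge ⟨((hS x).1 a).2, c⟩⟩
  have D : (ch.kd ν κ (F.tv F₀ l₀) e₀).Dom (actF F.toWt) (ch.solF ν κ F ∩ S₀) S₀
      (S₀ ∩ qT l₀ ⁻¹' O') := ⟨fun x a => ⟨a.2, v'.dom.sub ((b.mem x).1 a).2⟩,
    ⟨_, hU.preimage continuous_qT, e₁⟩, ‹_›, p.orb v'.dom.orb, fun x hx => ⟨fun a => z x hx
      ((v'.dom.zero _ hx.2).1 (mem_of_eq_of_mem (sub_sub_cancel _ _).symm (sub_mem (L.van x hx _ a)
        (L.sec x hx)))), fun a => sctF_mem_vanM s.fits ((Fam.solF_eqs hc).ge a.1)⟩⟩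
  have e₂ : O ∩ qT l₀ ⁻¹' U ⊆ S₀ ∩ qT l₀ ⁻¹' O' := fun x a => e₁.ge ⟨v.dom.subset a.1, a.2⟩
  have v₁ := v.inter (hU.preimage continuous_qT) (fun x a => (e₁.le (D.sub a)).2)
    fun t a x c => (e₁.le (D.isAct.mem t a x (e₂ c))).2
  have e₃ : ∃ U', IsOpen U' ∧ O ∩ qT l₀ ⁻¹' U = S₀ ∩ qT l₀ ⁻¹' O' ∩ U' :=
    ⟨V, hV, by rw [e₁, eV, inter_right_comm]⟩
  obtain ⟨_, c₁⟩ := s.gd_of_dom D hA (inter_subset_left.trans (Fam.solF_eqs hc).ge)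
  obtain ⟨_, c₀⟩ := v'.exists_gd hs₀
  haveI := c₁.nice
  haveI := v₁.dom.isAct
  have e₄ : O ∩ M ∩ qT l₀ ⁻¹' U = O ∩ qT l₀ ⁻¹' U ∩ qT l₀ ⁻¹' (O' ∩ M') := Set.ext fun x =>
    ⟨fun a => ⟨⟨a.1.1, a.2⟩, (e₂ ⟨a.1.1, a.2⟩).2, ((hM x).1 a.1.2).2⟩,
      fun a => ⟨⟨a.1.1, (hM x).2 ⟨((hS x).1 (e₂ a.1).1).1, a.2.2⟩⟩, a.1.2⟩⟩
  have f := p.res_cross v'.dom.orb hB v'.cyc e₂ e₃ (e₄ ▸ v₁.cyc)
  have g := (c₁.vr_cross c₀ p.eqM L (inj_tv hs.inv) (fun _ => congrArg _ (rk_tv h)) z b.eqM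
    p.isHomeomorph (Tq.fnd F.actL F.B) (v'.dom.fnd d')).2
  rw [v₁.eq_vr hs, ← hs.vr_eqs s hc v₁.dom ⟨v₁.dom.sub, v₁.dom.opn, v₁.dom.isAct, v₁.dom.orb,
    fun x a => D.zero x (e₂ a)⟩ (e₂.trans hA) inter_subset_left, v'.eq_vr hs₀]
  refine Eq.trans ?_ (g.trans (congrArg (cross · _ _ _)
    (funext fun z => Quot.inductionOn z fun _ => rfl)))
  rw [c₁.vr_res e₂ v₁.dom.isAct.mem e₃ v₁.dom.sub, f]

end Ch

end Vale.Agent.P269
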