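import Vale.Agent.P269.Bas.E0
import Vale.Agent.P269.Bas.Kv
import Vale.Agent.P269.Map.E5
import Vale.Agent.P269.Glu.Vr

set_option linter.unusedSectionVars false
set_option linter.style.haveILetI false

/-!
# Movable fields that vanish on the target
-/

namespace Vale.Agent.P269

open P291Z Set Function Topology Filter Module Vir
open MvPolynomial hiding funext

variable {S Λ R J K K' ι ν κ : Type} [Fintype S] [Fintype Λ] [Fintype R] [Fintype J] [Fintype K]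
  [Fintype K'] [Fintype ι] [DecidableEq ι] [Fintype ν] [Fintype κ]

namespace Fam

variable (F : Fam S Λ R J K) (T : Set J)

/-- The fields in `T` vanish and do not occur in the equations. -/
@[reducible] noncomputable def z₀ : Fam S Λ R J K :=
  (F.zro T).eqs F.χ F.wk (fun k => kv T (F.G k)) F.U

/-- The vanishing of the fields in `T` is imposed by equations. -/
@[reducible] noncomputable def z₁ : Fam S Λ R J (K ⊕ T) :=
  F.eqs (Sum.elim F.χ fun j => F.w j) (Sum.elim F.wk fun j => F.wt j)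
    (Sum.elim (fun k => kv T (F.G k)) fun j => X j.1) F.U

/-- The equations `K₀` and the new ones. -/
def k₁ (K₀ : Set K) : Set (K ⊕ T) := {k | Sum.elim (· ∈ K₀) (fun _ => True) k}

variable {F T} {K₀ K₀' : Set K} {z : (Λ → ℂ) × (J → ℂ)}

theorem z₀_eqn (h : ∀ j ∈ T, z.2 j = 0) (k : K) : (F.z₀ T).eqn z k = F.eqn z k :=
  ((kl_of_kv (F' := F.z₀ T) (fun _ => rfl) z.1).eqn z.2 k).trans (by rw [zc_eq h])

theorem z₀_jac (h : ∀ j ∈ T, z.2 j = 0) (η : J → ℂ) (k : K) :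
    ∑ j, (F.z₀ T).jac z k j * η j = ∑ j, F.jac z k j * zc T η j :=
  ((kl_of_kv (F' := F.z₀ T) (fun _ => rfl) z.1).jac z.2 η k).trans (by rw [zc_eq h])

theorem bs_zro : z ∈ (F.zro T).bs ↔ z ∈ F.bs ∧ ∀ j ∈ T, z.2 j = 0 :=
  ⟨fun h => ⟨⟨h.1, h.2.1, fun j a => h.2.2 j (.inl a)⟩, fun j a => h.2.2 j (.inr a)⟩,
    fun h => ⟨h.1.1, h.1.2.1, fun j a => a.elim (h.1.2.2 j) (h.2 j)⟩⟩

theorem zero_of_zro (h : z ∈ (F.zro T).cone) : ∀ j ∈ T, z.2 j = 0 :=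
  (bs_zro.1 ((mem_cone _).1 h).1).2

theorem zro_cone (h0 : ∀ j ∈ T, ∀ z ∈ F.cone, z.2 j = 0) : (F.zro T).cone = F.cone :=
  Set.ext fun z => ⟨fun h => have a := (mem_cone _).1 h
    (mem_cone _).2 ⟨(bs_zro.1 a.1).1, a.2⟩, fun h => have a := (mem_cone _).1 h
    (mem_cone _).2 ⟨bs_zro.2 ⟨a.1, fun j b => h0 j b z h⟩, a.2⟩⟩

theorem z₀_cone : (F.z₀ T).cone = (F.zro T).cone :=
  Set.ext fun _ => (mem_cone _).trans (Iff.trans (and_congr_right fun a => and_congr_right'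
    (forall_congr' fun k => Eq.congr_left (z₀_eqn ((bs_zro (F := F)).1 a).2 k)))
      (F.zro T).mem_cone.symm)

theorem Inv.z₀ (h : (F.zro T).Inv) : (F.z₀ T).Inv :=
  ⟨fun k α a => h.hom k α (mem_support_kv.1 a).1, fun k α a β b => h.homS k α
    (mem_support_kv.1 a).1 β ((congrArg (β ∈ MvPolynomial.support ·)
      ((coeff_kv T _ α).trans (if_pos (mem_support_kv.1 a).2))).mp b),
    h.openU, h.invU, h.closedE, h.invE, h.baseE, h.zer_base, h.lcB, h.invB⟩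

theorem Reg.z₀ (h : (F.zro T).Reg K₀) : (F.z₀ T).Reg K₀ := by
  refine ⟨fun z hz c => (h.ind z (z₀_cone.le hz) c).imp fun η a => ⟨a.1, fun k b => ?_⟩,
    fun z hz => (h.cut z (z₀_cone.le hz)).mono fun y a b c k => ?_⟩
  · rw [z₀_jac (zero_of_zro (z₀_cone.le hz)), zc_eq fun j d => a.1 j fun f => f.2 d]
    exact a.2 k b
  · have d := ((bs_zro (F := F)).1 b).2
    exact (z₀_eqn d k).trans (a b (fun k f => (z₀_eqn d k).symm.trans (c k f)) k)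

theorem zro_cone2 (h0 : ∀ j ∈ T, ∀ z ∈ F.cone, z.2 j = 0) : (F.zro T).cone2 = F.cone2 :=
  Set.ext fun z => ⟨fun a => ⟨⟨(zro_cone h0).le a.1.1, (zro_cone h0).le a.1.2⟩,
    fun j b => a.2 j fun c => b c.1⟩, fun a => ⟨⟨(zro_cone h0).ge a.1.1, (zro_cone h0).ge a.1.2⟩,
      fun j b => by
        by_cases c : j ∈ T
        exacts [(h0 j c _ a.1.1).trans (h0 j c _ a.1.2).symm, a.2 j fun d => b ⟨d, c⟩]⟩⟩

variable [Fintype T]

theorem z₁_eqn (j : T) : (F.z₁ T).eqn z (.inr j) = z.2 j := by simp [eqn, fib]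

theorem z₁_jac (j : T) (η : J → ℂ) : ∑ i, (F.z₁ T).jac z (.inr j) i * η i = η j := by
  classical
  simp [jac, fib, pderiv_X, Pi.single_apply, apply_ite]

theorem z₁_cone : (F.z₁ T).cone = (F.zro T).cone :=
  Set.ext fun z => ⟨fun h =>
    have a := (mem_cone _).1 h
    have b : ∀ j ∈ T, z.2 j = 0 := fun j c => (z₁_eqn ⟨j, c⟩).symm.trans (a.2.2 (.inr ⟨j, c⟩))
    (mem_cone _).2 ⟨bs_zro.2 ⟨a.1, b⟩, a.2.1, fun k => (z₀_eqn b k).symm.trans (a.2.2 (.inl k))⟩,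
    fun h =>
    have a := (mem_cone _).1 h
    have b := bs_zro.1 a.1
    (mem_cone _).2 ⟨b.1, a.2.1, Sum.rec (fun k => (z₀_eqn b.2 k).trans (a.2.2 k))
      fun j => (z₁_eqn j).trans (b.2 j j.2)⟩⟩

theorem mem_supp_X {A : Type} [CommSemiring A] [Nontrivial A] {j : J} {α : J →₀ ℕ}
    (h : α ∈ (X j : MvPolynomial J A).support) : α = Finsupp.single j 1 :=
  Finset.mem_singleton.1 (support_X (R := A) (n := j) ▸ h)

theorem sum_sgl {M : Type} [Semiring M] (j : J) (f : J → M) :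
    ∑ i, ((Finsupp.single j 1 : J →₀ ℕ) i : M) * f i = f j := by
  classical
  simp [Finsupp.single_apply]

theorem Inv.z₁ (h : F.Inv) (h' : (F.zro T).Inv) : (F.z₁ T).Inv :=
  ⟨Sum.rec h'.z₀.hom fun j α a i => by
    rw [mem_supp_X a]
    exact sum_sgl _ _, Sum.rec h'.z₀.homS fun j α a β b i => by
    obtain rfl := mem_supp_X a
    change β ∈ (coeff (Finsupp.single j.1 1) (X j.1 : MvPolynomial J (MvPolynomial Λ ℂ))).support
      at b
    rw [coeff_X_same, MvPolynomial.support_one, Finset.mem_singleton] at b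
    rw [b, sum_sgl]
    simp, h.openU, h.invU, h.closedE, h.invE, h.baseE, h.zer_base, h.lcB, h.invB⟩

theorem Reg.z₁ (h : (F.zro T).Reg K₀) (hT : T ⊆ F.mov) : (F.z₁ T).Reg (k₁ T K₀) := by
  classical
  refine ⟨fun z hz c => ?_, fun z hz => (h.cut z (z₁_cone.le hz)).mono fun y a b c => ?_⟩
  · obtain ⟨η, a, b⟩ := h.ind z (z₁_cone.le hz) fun k => c (.inl k)
    refine ⟨fun j => if d : j ∈ T then c (.inr ⟨j, d⟩) else η j,
      fun j d => (dif_neg fun f => d (hT f)).trans (a j fun f => d f.1), Sum.rec (fun k d => ?_)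
        fun j _ => (z₁_jac j _).trans (dif_pos j.2)⟩
    refine (z₀_jac (zero_of_zro (z₁_cone.le hz)) _ k).trans (Eq.trans ?_ (b k d))
    refine Finset.sum_congr rfl fun j _ => congrArg _ ?_
    by_cases f : j ∈ T
    exacts [(zc_mem _ f).trans (a j fun g => g.2 f).symm, (zc_not _ f).trans (dif_neg f)]
  · have d : ∀ j ∈ T, y.2 j = 0 := fun j f => (z₁_eqn ⟨j, f⟩).symm.trans (c (.inr ⟨j, f⟩) trivial)
    exact Sum.rec (fun k => (z₀_eqn d k).trans (a (bs_zro.2 ⟨b, d⟩)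
      (fun k f => (z₀_eqn d k).symm.trans (c (.inl k) f)) k)) fun j => c (.inr j) trivial

theorem det_z (h : F.Inv) (hT : T ⊆ F.mov) : (F.z₀ T).Det (F.z₁ T) T .inl := by
  have a : (F.z₁ T).cone = (F.z₀ T).cone := z₁_cone.trans z₀_cone.symm
  refine ⟨rfl, rfl, rfl, (sdiff_union_of_subset hT).symm,
    (union_sdiff_cancel_right (h.zer_base.mono_right hT).le_bot).symm, subset_union_right,
    fun _ => rfl, fun _ => rfl, fun k α b => (mem_support_kv.1 b).2,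
    fun j b => ⟨.inr ⟨j, b⟩, 1, 0, by simp, fun α c i _ => ?_, by simp, by simp⟩,
    fun z b y c d => ?_, fun z b => ⟨z.2, fun _ _ => rfl, a.ge b⟩,
    fun z _ η b c => ⟨η, fun _ _ => rfl, Sum.rec c fun j => (z₁_jac j η).trans (b j fun d => d.2 j.2)⟩⟩
  · rw [MvPolynomial.support_one, Finset.mem_singleton] at c
    rw [c]
    rfl
  · refine mem_of_eq_of_mem (show (z.1, y) = z from Prod.ext rfl (funext fun j => ?_)) (a.le b)
    by_cases f : j ∈ T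
    exacts [(c j f).trans (zero_of_zro (z₁_cone.le b) j f).symm, d j f]

theorem zro_vert (h : F.Inv) (h' : (F.zro T).Inv) (hR : F.Reg K₀) (hR' : (F.zro T).Reg K₀')
    (hT : T ⊆ F.mov) (h0 : ∀ j ∈ T, ∀ z ∈ F.cone, z.2 j = 0) (hz : z ∈ F.cone) :
    (F.zro T).vert z = F.vert z :=
  Submodule.ext fun η => ⟨fun a => vert_iff.2 ⟨fun j b => (vert_iff.1 a).1 j fun c => b c.1,
    (vert_iff.1 a).2⟩, fun a => vert_iff.2 ⟨fun j b => by
      by_cases c : j ∈ T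
      · exact (z₁_jac ⟨j, c⟩ η).symm.trans ((vert_iff.1 ((vert_eqs h (h.z₁ h') hR (hR'.z₁ hT)
          (z₁_cone.trans (zro_cone h0)) hz).ge a)).2 (.inr ⟨j, c⟩))
      · exact (vert_iff.1 a).1 j fun d => b ⟨d, c⟩, (vert_iff.1 a).2⟩⟩

end Fam

namespace Ch

theorem res_heq {A W : Type} [NormedRing A] [NormedAlgebra ℂ A] [NormedAddCommGroup W]
    [NormedSpace ℂ W] {act : A → W → W} {Z Z' : Set W} [Nice (Quo act Z)] (e : Z' = Z)
    {Φ : Quo act Z' → Quo act Z} (h : ∀ x : Z', Φ (Quo.mk act x) = Quo.mk act ⟨x, e.le x.2⟩)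
    (v : BM (Quo act Z)) : HEq (res Φ v) v := by
  subst e
  rw [show Φ = id from funext fun z => Quot.inductionOn z h]
  have a := res_push_homeo (e := (id : Quo act Z' → _)) IsHomeomorph.id v
  rw [push_id'] at a
  exact heq_of_eq a

variable {ch : Ch ι J} {F : Fam S Λ R J K} {T : Set J} {K₀ K₁ : Set K} {ℓ : R → ι → ℤ}
  {S₀ O M O' M' : Set (ch.WF ν κ Λ)} {u : ν → J → ℕ} {d d' : ℕ} {x : ch.WF ν κ Λ}

theorem Vd.heq_of_isV {e : K → ι → ℕ} (h : Vd F e S₀ O M d) (hs : ch.Std F e K₀ ℓ) {Z S₁}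
    (hS : S₁ = S₀) (hZ : Z = ch.solF ν κ F ∩ S₀) {v}
    (hv : (ch.kd ν κ F e).IsV (actF F.toWt) Z S₁ v) : HEq v (virF F e S₀) := by
  subst hZ hS
  exact heq_of_eq ((h.isV_iff hs).1 hv)

section det

variable {F' : Fam S Λ R J K'} {φ : K → K'} {e : K' → ι → ℕ} {K₀' : Set K'} (h : F.Det F' T φ)
include h

theorem det_qF (hx : x ∈ ch.adm ν κ F) : qF T x = 0 := funext fun j => hx.2.2.2.1 j (h.sub j.2)

theorem det_cyc (hF : F'.Inv) : ch.cyc κ F' u = zr T ⁻¹' ch.cyc κ F u := by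
  have a : closure (zr T ⁻¹' ch.main κ F u) = zr T ⁻¹' closure (ch.main κ F u) :=
    (continuous_kill.closure_preimage_subset _).antisymm
      ((spt F.toWt T).closure_pre fun _ a => det_qF h a.1)
  rw [cyc, show ch.main κ F' u = zr T ⁻¹' ch.main κ F u from Set.ext fun _ => det_main h hF, h.B, a]
  rfl

open Classical in
/-- **determined fields do not change the virtual class**, over a cycle -/
theorem Vd.det_isV (hs : ch.Std F (fun k => e (φ k)) K₀ ℓ) (hs' : ch.Std F' e K₀' ℓ)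
    (hr : ch.rk F' ℓ K₀' = ch.rk F ℓ K₀ +
      ∑ j with j ∈ T, finrank ℂ (ch.Th j) * ch.eu fun i => ch.a (some j) i)
    (hv : Vd F (fun k => e (φ k)) S₀ O M d) [Nice (ModS F S₀)] : IsHomeomorph (det_eqM h S₀).map ∧
      (ch.kd ν κ F' e).IsV (actF F.toWt) _ (zr T ⁻¹' S₀)
        (res (det_eqM h S₀).map (virF F (fun k => e (φ k)) S₀)) := by
  obtain ⟨n, c⟩ := hv.exists_gd hs
  obtain ⟨n', a⟩ := hs'.ok (ν := ν) (κ := κ)
  obtain ⟨U, hU, b⟩ := hs'.dom_open (ν := ν) (κ := κ)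
  obtain ⟨U₀, hU₀, b₀⟩ := hv.dom.opn
  have hA : ∀ x ∈ O, x ∈ ch.adm ν κ F := fun x hx => hv.adm (hv.dom.subset hx)
  have D : zr T ⁻¹' O ∩ U ⊆ ch.dom ν κ F' e := fun x hx =>
    b.ge ⟨(det_adm h hs'.inv).2 (hA _ hx.1), hx.2⟩
  have iv : Ivt (actF F.toWt) (zr T ⁻¹' O ∩ U) := fun s f x hx =>
    ⟨(spt F.toWt T).ivt_pre c.ivt s f x hx.1, (b.le (h.wt ▸ actF_mem_dom hs'.inv f (D hx))).2⟩
  haveI := isActF_of iv
  haveI := c.dom.isAct
  have h0 : ∀ x ∈ O, qF T x = 0 := fun x hx => det_qF h (hA x hx)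
  have cy := (spt F.toWt T).cyc h0 hv.cyc hU iv
  rw [h.wt] at a
  have c' : (ch.kd ν κ F' e).Gd (actF F.toWt) (ch.solF ν κ F' ∩ zr T ⁻¹' S₀) (zr T ⁻¹' O ∩ U) n'
      (ch.rk F' ℓ K₀').toNat :=
    ⟨⟨fun x hx => ⟨c.dom.sub ⟨det_maps h hx.1, hx.2⟩,
      (b.le (mem_dom hx.1 ((det_adm h hs'.inv).2 (hv.adm hx.2)))).2⟩,
      ⟨_, isOpen_univ, (inter_univ _).symm⟩, ‹_›,
      (spt F.toWt T).orb c.dom.orb inter_subset_left cy.lc, fun x hx => (hs'.zero (D hx)).trans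
        (and_iff_left (hv.dom.subset hx.1)).symm⟩, a.mono D⟩
  obtain ⟨d1, d2⟩ := c'.vr_tot' (spt F.toWt T) c h0 hv.cyc ⟨U, hU, rfl⟩ (det_tt h hs' S₀ _)
    (fun ⟨_, f⟩ => det_rk h hs hr f.1) (Φ := (det_eqM h S₀).map) fun _ => rfl
  refine ⟨d1, ?_⟩
  rw [hv.eq_vr hs]
  exact d2 ▸ c'.isV ⟨zr T ⁻¹' U₀ ∩ U, (hU₀.preimage continuous_kill).inter hU, by
    rw [b₀, preimage_inter, inter_assoc]⟩ (cy.isFund c'.dom.orb)

end det

variable {e : K → ι → ℕ}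

theorem Std.z₀ (h : ch.Std (F.zro T) e K₀ ℓ) : ch.Std (F.z₀ T) e K₀ ℓ :=
  ⟨h.inv.z₀, h.reg.z₀, ⟨h.fits.wt, fun k α a => h.fits.le k α (mem_support_kv.1 a).1, h.fits.ne⟩,
    h.cuts, h.wt⟩

variable [Fintype T]

theorem Std.z₁ (h : ch.Std (F.zro T) e K₀ ℓ) (hF : F.Inv) (hT : T ⊆ F.mov) :
    ch.Std (F.z₁ T) (Sum.elim e fun j => ch.b j + ch.a none) (Fam.k₁ T K₀) ℓ :=
  ⟨hF.z₁ h.inv, h.reg.z₁ hT, ⟨h.fits.wt, Sum.rec h.z₀.fits.le fun j α a i => by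
    rw [Fam.mem_supp_X a]
    exact (Fam.sum_sgl j.1 fun j => ch.b j i).le.trans (Nat.le_add_right _ _),
    Sum.rec h.fits.ne fun _ a => h.cuts.ne none (add_eq_zero.1 a).2⟩, h.cuts, h.wt⟩

open Classical in
theorem rk_z (hℓ : ch.HasWt F ℓ) (hT : T ⊆ F.mov) :
    ch.rk (F.z₁ T) ℓ (Fam.k₁ T K₀) = ch.rk (F.z₀ T) ℓ K₀ +
      ∑ j with j ∈ T, finrank ℂ (ch.Th j) * ch.eu fun i => ch.a (some j) i := by
  have a : ∑ j : T, ch.eu ((F.z₁ T).dk ℓ (.inr j)) =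
      ∑ j with j ∈ T, ch.eu fun i => ch.a (some j) i - ch.b j i := by
    rw [Finset.sum_subtype (p := (· ∈ T)) _ (by simp)]
    exact Finset.sum_congr rfl fun j _ => congrArg _ (funext fun i => (hℓ j i).symm)
  have b : ∑ k with k ∈ Fam.k₁ T K₀, ch.eu ((F.z₁ T).dk ℓ k) =
      ∑ k with k ∈ K₀, ch.eu ((F.z₀ T).dk ℓ k) + ∑ j : T, ch.eu ((F.z₁ T).dk ℓ (.inr j)) := by
    rw [Finset.sum_filter, Finset.sum_filter, Fintype.sum_sum_type]
    exact congrArg₂ (· + ·) rfl (Finset.sum_congr rfl fun _ _ => if_pos trivial)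
  rw [rk, rk, b, a, add_right_comm, ← add_assoc, add_right_comm]
  refine congrArg (· + _) ?_
  simp only [Finset.sum_filter, ← Finset.sum_add_distrib]
  refine Finset.sum_congr rfl fun j _ => ?_
  by_cases c : j ∈ T
  · simp [c, hT c]
  · simp [c]

omit [Fintype T] in
/-- **vanishing movable fields can be replaced by vanishing base fields** -/
theorem Vd.virF_zro (hT : T ⊆ F.mov) (h0 : ∀ j ∈ T, ∀ z ∈ F.cone, z.2 j = 0)
    (hs : ch.Std F e K₀ ℓ) (hs' : ch.Std (F.zro T) e K₁ ℓ) (h : Vd F e (ch.cyc κ F u) O M d)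
    (h' : Vd (F.zro T) e (ch.cyc κ (F.zro T) u) O' M' d') :
    ch.solF ν κ (F.zro T) ∩ ch.cyc κ (F.zro T) u = ch.solF ν κ F ∩ ch.cyc κ F u ∧
      HEq (virF (F.zro T) e (ch.cyc κ (F.zro T) u)) (virF F e (ch.cyc κ F u)) := by
  let _ := Fintype.ofFinite T
  have s₁ := hs'.z₁ hs.inv hT
  have D := Fam.det_z hs.inv hT
  have c₁ := Fam.z₁_cone.trans (Fam.zro_cone h0)
  have a₀ := Fam.solF_eqs (ch := ch) (ν := ν) (κ := κ) (Fam.z₀_cone (F := F) (T := T))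
  have a₁ := Fam.solF_eqs (ch := ch) (ν := ν) (κ := κ) c₁
  have a₂ : ch.solF ν κ (F.zro T) = ch.solF ν κ F := Fam.solF_alt (χ := F.χ) (Fam.zro_cone h0)
  have b : ch.cyc κ F u = zr T ⁻¹' ch.cyc κ (F.zro T) u :=
    (det_cyc (ch := ch) (κ := κ) (u := u) D s₁.inv :)
  have f : ∀ x ∈ ch.solF ν κ (F.z₁ T), zr T x = x := fun x hx =>
    kill_eq fun _ => det_zero D (a₀.ge (a₂.ge (a₁.le hx)))
  have g : ch.solF ν κ (F.z₁ T) ∩ zr T ⁻¹' ch.cyc κ (F.zro T) u =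
      ch.solF ν κ (F.z₀ T) ∩ ch.cyc κ (F.zro T) u := by
    rw [a₀, a₂, ← a₁]
    exact Set.ext fun x => and_congr_right fun hx => by rw [mem_preimage, f x hx]
  obtain ⟨_, -, -, v⟩ := h'.eqs hs' hs'.z₀ Fam.z₀_cone
  haveI := v.nice hs'.z₀
  refine ⟨by rw [← a₀, ← g, a₁, ← b], (h'.virF_eqs hs' hs'.z₀ Fam.z₀_cone).symm.trans
    ((res_heq g (Φ := (det_eqM D _).map) (fun x => congrArg _ (Subtype.ext (f _ x.2.1))) _).symm.trans
      (h.heq_of_isV hs b.symm (by rw [a₁, ← b]) ((hs.eqs_isV s₁ c₁ (b.ge.trans h.adm)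
        (inter_subset_left.trans a₁.le)).2 (v.det_isV D hs'.z₀ s₁ (rk_z hs.wt hT)).2)))⟩

end Ch

theorem St.z0 : St.Z0 := by
  intro S Λ R J K _ _ _ _ _ _ F T δ k e A A' hT h0 h h' _ hk _ _ _ d j l₁ l₂ l₃
  let _ := Fintype.ofFinite T
  obtain ⟨K₁, r'⟩ := h'.reg
  obtain ⟨K₀, r⟩ := h.reg
  have hc := Fam.zro_cone h0
  have hk' : (F.zro T).Big k := hk.imp fun _ => Exists.imp fun _ a =>
    ⟨⟨a.1.1, a.1.2.1, fun c b z hz => a.1.2.2 c b z (hc.le hz)⟩, a.2⟩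
  refine Fam.cor_alt (χ := F.χ) (wk := F.wk) (G := F.G) (U := F.U) (mov := F.mov \ T)
    (zer := F.zer ∪ T) hc (Fam.zro_cone2 h0)
    (fun _ => Fam.zro_vert h.toInv h'.toInv r r' hT h0) (fun ν κ _ _ g d u => ?_) e A A' d j l₁ l₂ l₃
  obtain ⟨_, _, -, -, a⟩ := h.vd κ hk g d u
  obtain ⟨_, _, -, -, a'⟩ := h'.vd κ hk' g d u
  refine (a.and a').mono fun D hD => ?_
  obtain ⟨⟨-, _, _, c, f⟩, -, _, _, c', f'⟩ := hD
  have t := f.virF_zro hT h0 c.toStd c'.toStd f'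
  exact ⟨t.1, HEq.trans Fam.vir_alt t.2⟩

end Vale.Agent.P269
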